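import Mathlib

/-!
P101: the dimension drop algebra Z(2,3), as a star subalgebra of C([0,1], M₂ ⊗ M₃).
-/

namespace Vale.Agent.P101

open scoped Matrix Kronecker unitInterval

/-- The dimension drop algebra
`Z(2,3) = {f : [0,1] → M₂ ⊗ M₃ continuous | f 0 ∈ M₂ ⊗ 1, f 1 ∈ 1 ⊗ M₃}`,
with pointwise operations. -/
noncomputable def ZTwoThree :
    StarSubalgebra ℂ C(I, Matrix (Fin 2 × Fin 3) (Fin 2 × Fin 3) ℂ) where
  carrier := {f | (∃ a : Matrix (Fin 2) (Fin 2) ℂ, f 0 = a ⊗ₖ (1 : Matrix (Fin 3) (Fin 3) ℂ)) ∧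
    ∃ b : Matrix (Fin 3) (Fin 3) ℂ, f 1 = (1 : Matrix (Fin 2) (Fin 2) ℂ) ⊗ₖ b}
  mul_mem' := by
    rintro f g ⟨⟨a, ha⟩, ⟨b, hb⟩⟩ ⟨⟨c, hc⟩, ⟨e, he⟩⟩
    refine ⟨⟨a * c, ?_⟩, ⟨b * e, ?_⟩⟩
    · rw [ContinuousMap.mul_apply, ha, hc, ← Matrix.mul_kronecker_mul, one_mul]
    · rw [ContinuousMap.mul_apply, hb, he, ← Matrix.mul_kronecker_mul, one_mul]
  add_mem' := by
    rintro f g ⟨⟨a, ha⟩, ⟨b, hb⟩⟩ ⟨⟨c, hc⟩, ⟨e, he⟩⟩
    refine ⟨⟨a + c, ?_⟩, ⟨b + e, ?_⟩⟩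
    · rw [ContinuousMap.add_apply, ha, hc, Matrix.add_kronecker]
    · rw [ContinuousMap.add_apply, hb, he, Matrix.kronecker_add]
  algebraMap_mem' := by
    intro r
    refine ⟨⟨r • 1, ?_⟩, ⟨r • 1, ?_⟩⟩
    · rw [Matrix.smul_kronecker, Matrix.one_kronecker_one, Algebra.algebraMap_eq_smul_one]
      rfl
    · rw [Matrix.kronecker_smul, Matrix.one_kronecker_one, Algebra.algebraMap_eq_smul_one]
      rfl
  star_mem' := by
    rintro f ⟨⟨a, ha⟩, ⟨b, hb⟩⟩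
    refine ⟨⟨aᴴ, ?_⟩, ⟨bᴴ, ?_⟩⟩
    · rw [ContinuousMap.star_apply, ha, Matrix.star_eq_conjTranspose,
        Matrix.conjTranspose_kronecker, Matrix.conjTranspose_one]
    · rw [ContinuousMap.star_apply, hb, Matrix.star_eq_conjTranspose,
        Matrix.conjTranspose_kronecker, Matrix.conjTranspose_one]

end Vale.Agent.P101
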