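import Mathlib

/-!
P101: shared definitions for the proof that an absence of characters on the central sequence algebra
gives the dimension drop relations there.
-/

namespace Vale.Agent.P101

open Filter
open scoped Topology BoundedContinuousFunction

/-- The bounded central sequences of a C*-algebra along a filter. -/
def centralSeq (w : Filter ℕ) (A : Type*) [CStarAlgebra A] : StarSubalgebra ℂ (ℕ →ᵇ A) where
  carrier := {f | ∀ a : A, Tendsto (fun n => f n * a - a * f n) w (𝓝 0)}
  mul_mem' := by
    intro f g hf hg a
    have h1 : Tendsto (fun n => f n * (g n * a - a * g n)) w (𝓝 0) := by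
      refine squeeze_zero_norm (fun n => norm_mul_le _ _) ?_
      refine squeeze_zero (fun n => by positivity)
        (fun n => mul_le_mul_of_nonneg_right (f.norm_coe_le_norm n) (norm_nonneg _)) ?_
      simpa using (tendsto_zero_iff_norm_tendsto_zero.1 (hg a)).const_mul ‖f‖
    have h2 : Tendsto (fun n => (f n * a - a * f n) * g n) w (𝓝 0) := by
      refine squeeze_zero_norm (fun n => norm_mul_le _ _) ?_
      refine squeeze_zero (fun n => by positivity)
        (fun n => mul_le_mul_of_nonneg_left (g.norm_coe_le_norm n) (norm_nonneg _)) ?_
      simpa using (tendsto_zero_iff_norm_tendsto_zero.1 (hf a)).mul_const ‖g‖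
    have h := h1.add h2
    simp only [add_zero] at h
    refine h.congr (fun n => ?_)
    simp only [BoundedContinuousFunction.coe_mul, Pi.mul_apply]
    noncomm_ring
  add_mem' := by
    intro f g hf hg a
    have h := (hf a).add (hg a)
    simp only [add_zero] at h
    refine h.congr (fun n => ?_)
    simp only [BoundedContinuousFunction.coe_add, Pi.add_apply]
    noncomm_ring
  algebraMap_mem' := by
    intro c a
    simpa [Algebra.algebraMap_eq_smul_one] using tendsto_const_nhds
  star_mem' := by
    intro f hf a
    have h := ((hf (star a)).star).neg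
    simp only [star_zero, neg_zero] at h
    refine h.congr (fun n => ?_)
    simp [star_sub, star_mul]

/-- A bounded sequence tends to zero in norm along the filter. -/
def IsNull (w : Filter ℕ) {A : Type*} [CStarAlgebra A] (f : ℕ →ᵇ A) : Prop :=
  Tendsto (fun n => f n) w (𝓝 0)

/-- Square-zero elements generating the unit ideal, with coefficients. -/
structure Witness (G : Type*) [Ring G] (k N : ℕ) where
  /-- The square-zero elements. -/
  z : Fin k → G
  /-- Left coefficients. -/
  b : Fin N → G
  /-- Right coefficients. -/
  c : Fin N → G
  /-- Which element occurs in which term. -/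
  idx : Fin N → Fin k
  sq : ∀ i, z i * z i = 0
  gen : ∑ l, b l * z (idx l) * c l = 1

/-- The entries of a witness. -/
def Witness.entries {G : Type*} [Ring G] {k N : ℕ} (W : Witness G k N) : Set G :=
  Set.range W.z ∪ Set.range W.b ∪ Set.range W.c

/-- Every finite tuple has copies of bounded norm, satisfying any given finitely many star-polynomial
relations of the tuple, and commuting, with adjoints, with any given finite set. -/
def HasCopies (G : Type*) [CStarAlgebra G] : Prop :=
  ∀ (n : ℕ) (a : Fin n → G) (R : Finset (FreeAlgebra ℂ (Fin n ⊕ Fin n))),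
    (∀ p ∈ R, FreeAlgebra.lift ℂ (Sum.elim a fun i => star (a i)) p = 0) →
    ∃ C : ℝ, ∀ S : Finset G, ∃ a' : Fin n → G,
      (∀ i, ‖a' i‖ ≤ C) ∧ (∀ p ∈ R, FreeAlgebra.lift ℂ (Sum.elim a' fun i => star (a' i)) p = 0) ∧
      ∀ i, ∀ s ∈ S, Commute (a' i) s ∧ Commute (a' i) (star s)

/-- Every witness has copies commuting, with adjoints, with any given finite set
(a consequence of `HasCopies`). -/
def WitnessCopies (G : Type*) [Ring G] [StarRing G] : Prop :=
  ∀ (k N : ℕ) (W : Witness G k N) (S : Finset G), ∃ W' : Witness G k N,
    ∀ a ∈ W'.entries, ∀ s ∈ S, Commute a s ∧ Commute a (star s)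

/-- The relations of the dimension drop algebra Z(2,3). -/
def DropRelations {G : Type*} [Ring G] [StarRing G] (y s : G) : Prop :=
  y * y = 0 ∧ star s * s = 1 - star y * y - y * star y ∧ star y * y * s = s

/-- A square-zero element with a gate. -/
structure Gated {G : Type*} [Ring G] [StarRing G] [PartialOrder G] (x p : G) : Prop where
  sq : x * x = 0
  comm : Commute p x
  nonneg : 0 ≤ p
  le_one : p ≤ 1
  norm_le : star x * x + x * star x ≤ 1
  absorb : p * (star x * x + x * star x) = p

/-- A normalised square-zero element with gate, inactivity function and top element. -/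
structure Leaf {G : Type*} [Ring G] [StarRing G] [PartialOrder G] (x p q e : G) : Prop
    extends Gated x p where
  q_comm : Commute q x
  q_nonneg : 0 ≤ q
  q_le_one : q ≤ 1
  q_absorb : (1 - q) * (star x * x + x * star x) = 1 - q
  p_q : p * q = 0
  e_self : star e = e
  top : star x * x * e = e
  p_e : p * e = e
  q_e : q * e = 0

end Vale.Agent.P101
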