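import Vale.Agent.P101.Defs

/-!
P101: statements of the blocks (notes/P101/helper9_full.md).
B1 `QuotientPin`, B2 `LamPin` and `NoCharPin`, B3 `FullPin`, B4 `LeafPin`, B5 `DropPin`.
Each owner proves `theorem quotientPin : QuotientPin.{u}` and so on in its own file.
-/

namespace Vale.Agent.P101

open Filter
open scoped Topology BoundedContinuousFunction

universe u

/-- B1: the central sequence algebra as a C*-algebra, with reindexing. -/
def QuotientPin : Prop :=
  ∀ (A : Type u) [CStarAlgebra A] [TopologicalSpace.SeparableSpace A] (w : Ultrafilter ℕ),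
    (w : Filter ℕ) ≤ cofinite →
    ∃ (F : Type u) (_ : CStarAlgebra F) (π : centralSeq (w : Filter ℕ) A →⋆ₐ[ℂ] F),
      Function.Surjective π ∧
      (∀ f, π f = 0 ↔ IsNull (w : Filter ℕ) (f : ℕ →ᵇ A)) ∧ HasCopies F

/-- The real spectrum of an element modulo an ideal. -/
def Lam {G : Type*} [CStarAlgebra G] (J : TwoSidedIdeal G) (h : G) : Set ℝ :=
  {c | ∀ f : ℝ → ℝ, Continuous f → f c ≠ 0 → cfc f h ∉ J}

/-- B2a: maximal two-sided ideals and the spectrum modulo them. -/
def LamPin : Prop :=
  ∀ (G : Type u) [CStarAlgebra G] (J : TwoSidedIdeal G), IsCoatom J →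
    IsClosed (J : Set G) ∧
    ∀ h : G, IsSelfAdjoint h →
      (Lam J h).Nonempty ∧ Lam J h ⊆ Set.Icc (-‖h‖) ‖h‖ ∧
      ∀ a b : ℝ, Lam J h ⊆ Set.Icc a b → ∀ δ : ℝ, 0 < δ →
        ∃ j ∈ J, ‖h - algebraMap ℝ G ((a + b) / 2) - j‖ ≤ (b - a) / 2 + δ

/-- B2b: without characters there is a witness. -/
def NoCharPin : Prop :=
  ∀ (G : Type u) [CStarAlgebra G], IsEmpty (G →⋆ₐ[ℂ] ℂ) →
    ∃ k N, Nonempty (Witness G k N)

/-- B3: copies of a witness give one full square-zero element. -/
def FullPin : Prop :=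
  ∀ (G : Type u) [CStarAlgebra G], HasCopies G → ∀ k N, Witness G k N →
    ∃ N', Nonempty (Witness G 1 N')

/-- B4: normalisation of one full square-zero element, inside what it generates. -/
def LeafPin : Prop :=
  ∀ (G : Type u) [CStarAlgebra G] [PartialOrder G] [StarOrderedRing G] (N : ℕ)
    (W : Witness G 1 N), ∃ (x p q e : G) (b : Fin N → G), Leaf x p q e ∧
      ∑ l, star (b l) * e * e * b l = 1 ∧
      ∀ g : G, (∀ a ∈ W.entries, Commute a g ∧ Commute a (star g)) →
        Commute x g ∧ Commute p g ∧ Commute q g ∧ Commute e g ∧ ∀ l, Commute (b l) g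

/-- B5: copies of one full square-zero element give the dimension drop relations. -/
def DropPin : Prop :=
  ∀ (G : Type u) [CStarAlgebra G], WitnessCopies G → ∀ N, Witness G 1 N →
    ∃ y s : G, DropRelations y s

end Vale.Agent.P101
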