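import Vale.Agent.P101.Cfc
import Vale.Agent.P101.Pins

/-!
P101, L4: normalisation of one full square-zero element.
-/

namespace Vale.Agent.P101

universe u

theorem leafPin : LeafPin.{u} := by
  intro G _ _ _ N W
  rcases subsingleton_or_nontrivial G with hG | hG
  · refine ⟨0, 0, 0, 0, fun _ => 0, ?_, Subsingleton.elim _ _, fun g _ => ?_⟩
    · exact
        { sq := Subsingleton.elim _ _, comm := Commute.zero_left _, nonneg := le_rfl,
          le_one := zero_le_one, norm_le := (Subsingleton.elim _ _).le,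
          absorb := Subsingleton.elim _ _, q_comm := Commute.zero_left _, q_nonneg := le_rfl,
          q_le_one := zero_le_one, q_absorb := Subsingleton.elim _ _,
          p_q := Subsingleton.elim _ _, e_self := Subsingleton.elim _ _,
          top := Subsingleton.elim _ _, p_e := Subsingleton.elim _ _,
          q_e := Subsingleton.elim _ _ }
    · exact ⟨Commute.zero_left _, Commute.zero_left _, Commute.zero_left _, Commute.zero_left _,
        fun _ => Commute.zero_left _⟩
  set x0 : G := W.z 0 with hx0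
  have h0 : x0 * x0 = 0 := W.sq 0
  set M : ℝ := ∑ l, ‖W.b l‖ * ‖W.c l‖ with hM
  have hM0 : 0 ≤ M := Finset.sum_nonneg (fun l _ => by positivity)
  set δ : ℝ := 1 / (2 * (M + 1)) with hδdef
  have hδ : 0 < δ := by positivity
  set r : ℝ := δ ^ 4 / (5 * (‖x0‖ ^ 2 + 1)) with hrdef
  have hr : 0 < r := by positivity
  set t : G := sumSq x0 with htdef
  have hts : IsSelfAdjoint t := sumSq_isSelfAdjoint x0
  have htn : 0 ≤ t := add_nonneg (star_mul_self_nonneg x0) (mul_star_self_nonneg x0)
  set x : G := rescale r x0 with hx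
  set fp : ℝ → ℝ := ramp (3 * r) (4 * r) with hfp
  set fu : ℝ → ℝ := ramp (2 * r) (3 * r) with hfu
  set fg : ℝ → ℝ := ramp (4 * r) (5 * r) with hfg
  set p : G := cfc fp t with hp
  set u : G := cfc fu t with hu
  set g : G := cfc fg t with hg
  have gp : Gated x p := rescale_gated h0 hr (ramp_continuous _ _) (ramp_mem _ _)
    (fun s hs => ramp_zero (by linarith) (by linarith))
  have gu : Gated x u := rescale_gated h0 hr (ramp_continuous _ _) (ramp_mem _ _)
    (fun s hs => ramp_zero (by linarith) (by linarith))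
  have gg : Gated x g := rescale_gated h0 hr (ramp_continuous _ _) (ramp_mem _ _)
    (fun s hs => ramp_zero (by linarith) (by linarith))
  have cs : ∀ {k : G}, IsSelfAdjoint k → Commute k x → Commute k (star x) := by
    intro k hk h
    have := h.star_star; rwa [hk.star_eq] at this
  have hgs : IsSelfAdjoint g := cfc_predicate _ _
  set A : G := star x * x with hA
  set e : G := g * A with he
  have gA : Commute g A := (cs hgs gg.comm).mul_right gg.comm
  have es : star e = e := by
    rw [he, star_mul, hgs.star_eq, show star A = A by simp [hA, star_mul]]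
    exact gA.symm.eq
  have AA : A * A = A * sumSq x := by
    simp [hA, sumSq, mul_add, mul_assoc, gp.sq, ← mul_assoc x x]
  have ge : g * sumSq x = g := gg.absorb
  have ax : Commute (sumSq x) A :=
    (sumSq_comm_star gp.sq).mul_right (sumSq_comm gp.sq)
  have top : A * e = e := by
    rw [he, ← mul_assoc, gA.symm.eq, mul_assoc, AA, ← ax.eq, ← mul_assoc, ge]
  have pg : p * g = g := by
    rw [hp, hg, ← cfc_mul fp fg t]
    refine cfc_congr (fun s _ => ?_)
    rcases le_or_gt s (4 * r) with h | h
    · simp [hfg, ramp_zero (show 4 * r < 5 * r by linarith) h]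
    · simp [hfp, ramp_one (show 3 * r < 4 * r by linarith) h.le]
  have ug : u * g = g := by
    rw [hu, hg, ← cfc_mul fu fg t]
    refine cfc_congr (fun s _ => ?_)
    rcases le_or_gt s (4 * r) with h | h
    · simp [hfg, ramp_zero (show 4 * r < 5 * r by linarith) h]
    · simp [hfu, ramp_one (show 2 * r < 3 * r by linarith) (show 3 * r ≤ s by linarith)]
  have pu : p * u = p := by
    rw [hp, hu, ← cfc_mul fp fu t]
    refine cfc_congr (fun s _ => ?_)
    rcases le_or_gt s (3 * r) with h | h
    · simp [hfp, ramp_zero (show 3 * r < 4 * r by linarith) h]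
    · simp [hfu, ramp_one (show 2 * r < 3 * r by linarith) h.le]
  have leaf : Leaf x p (1 - u) e :=
    { toGated := gp
      q_comm := (Commute.one_left x).sub_left gu.comm
      q_nonneg := sub_nonneg.2 gu.le_one
      q_le_one := sub_le_self _ gu.nonneg
      q_absorb := by
        rw [show (1 : G) - (1 - u) = u from sub_sub_cancel 1 u]; exact gu.absorb
      p_q := by rw [mul_sub, mul_one, pu, sub_self]
      e_self := es
      top := top
      p_e := by rw [he, ← mul_assoc, pg]
      q_e := by rw [he, ← mul_assoc, sub_mul, one_mul, ug, sub_self, zero_mul] }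
  -- the top element is full
  set kf : ℝ → ℝ := fun s => Real.sqrt (max s r) with hkf
  set k : G := cfc kf t with hk
  have ck : ∀ f : ℝ → ℝ, Commute (cfc f t) x0 ∧ Commute (cfc f t) (star x0) := comm_gate h0
  have cgk : Commute g k := ((Commute.refl t).cfc_real kf).symm.cfc_real fg
  have psk : cfc (scal r) t * k = 1 := by
    rw [hk, ← cfc_mul (scal r) kf t (scal_continuous hr).continuousOn,
      cfc_congr (g := fun _ => (1:ℝ)) (fun s _ => ?_), cfc_const_one ℝ t]
    exact inv_mul_cancel₀ (Real.sqrt_pos.2 (lt_max_of_lt_right hr)).ne'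
  have xek : ∀ l, W.b l * x * k * e * W.c l = W.b l * (x0 * g) * W.c l := by
    intro l
    have h1 : x * k = x0 := by rw [hx, rescale, mul_assoc, psk, mul_one]
    have h2 : x * A = sumSq x * x := by rw [sumSq_mul gp.sq, hA, mul_assoc]
    have h3 : x * k * e = x0 * g := by
      have e1 : x * e = g * x := by
        rw [he, ← mul_assoc, gg.comm.symm.eq, mul_assoc, h2, ← mul_assoc, ge]
      have hxk : Commute k x := (ck kf).1.mul_right
        (((Commute.refl t).cfc_real (scal r)).symm.cfc_real kf)
      rw [hxk.symm.eq, mul_assoc, e1, ← mul_assoc, cgk.symm.eq, mul_assoc, hxk.eq, h1]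
      exact (ck fg).1.eq
    rw [mul_assoc (W.b l) x k, mul_assoc (W.b l) (x * k) e, h3]
  have small : ‖x0 * (1 - g)‖ ≤ δ := by
    set H : G := 1 - g with hH
    set A0 : G := star x0 * x0 with hA0
    have hHs : star H = H := by rw [hH, star_sub, star_one, hgs.star_eq]
    have hA0s : star A0 = A0 := by rw [hA0, star_mul, star_star]
    have cH : Commute H A0 :=
      (((Commute.one_left _).sub_left (ck fg).2)).mul_right ((Commute.one_left _).sub_left (ck fg).1)
    have tH : ‖t * (H * H * (H * H))‖ ≤ 5 * r := by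
      have eH : H = cfc (fun s => 1 - fg s) t := by
        rw [hH, hg, cfc_sub (fun _ => (1:ℝ)) fg t, cfc_const_one ℝ t]
      rw [eH, ← cfc_mul _ _ t, ← cfc_mul _ _ t]
      nth_rewrite 1 [← cfc_id' ℝ t hts]
      rw [← cfc_mul _ _ t]
      refine norm_cfc_le (by linarith) (fun s hs => ?_)
      have hs0 : 0 ≤ s := spectrum_nonneg_of_nonneg htn hs
      have hm := ramp_mem (4 * r) (5 * r) s
      rw [Real.norm_eq_abs]
      rcases le_or_gt (5 * r) s with h | h
      · simp [hfg, ramp_one (show 4 * r < 5 * r by linarith) h]; linarith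
      · have h1 : (1 - fg s) * (1 - fg s) * ((1 - fg s) * (1 - fg s)) ≤ 1 := by
          have e0 : 0 ≤ 1 - fg s := by linarith [hm.2]
          have e1 : 1 - fg s ≤ 1 := by linarith [hm.1]
          have := mul_le_one₀ e1 e0 e1
          exact mul_le_one₀ this (mul_nonneg e0 e0) this
        have h2 : 0 ≤ (1 - fg s) * (1 - fg s) * ((1 - fg s) * (1 - fg s)) :=
          mul_nonneg (mul_self_nonneg _) (mul_self_nonneg _)
        rw [abs_of_nonneg (mul_nonneg hs0 h2)]
        nlinarith
    have e1 : ‖x0 * H‖ ^ 2 = ‖A0 * (H * H)‖ := by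
      rw [pow_two, ← CStarRing.norm_star_mul_self (x := x0 * H), star_mul, hHs, mul_assoc,
        ← mul_assoc (star x0), ← hA0, ← mul_assoc, cH.eq, mul_assoc]
    have e2 : ‖A0 * (H * H)‖ ^ 2 ≤ ‖x0‖ ^ 2 * (5 * r) := by
      have c2 : Commute (H * H) A0 := cH.mul_left cH
      have hA0t : A0 * A0 = A0 * t := by
        simp [hA0, htdef, sumSq, mul_add, mul_assoc, h0, ← mul_assoc x0 x0]
      have hAn : ‖A0‖ = ‖x0‖ ^ 2 := by
        rw [hA0, CStarRing.norm_star_mul_self, pow_two]
      have ct : Commute (H * H) t := by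
        have c1 : Commute H t := (Commute.one_left t).sub_left ((Commute.refl t).cfc_real fg)
        exact c1.mul_left c1
      have eK : star (A0 * (H * H)) * (A0 * (H * H)) = A0 * (t * (H * H * (H * H))) := by
        rw [star_mul, star_mul H H, hHs, hA0s, mul_assoc (H * H) A0, ← mul_assoc A0 A0, hA0t,
          mul_assoc A0 t, ← mul_assoc (H * H) A0, c2.eq, mul_assoc A0 (H * H),
          ← mul_assoc (H * H) t, ct.eq, mul_assoc t]
      rw [pow_two, ← CStarRing.norm_star_mul_self, eK]
      refine le_trans (norm_mul_le _ _) ?_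
      rw [hAn]
      exact mul_le_mul_of_nonneg_left tH (by positivity)
    have h4 : ‖x0 * H‖ ^ 4 ≤ δ ^ 4 := by
      calc ‖x0 * H‖ ^ 4 = ‖A0 * (H * H)‖ ^ 2 := by rw [← e1]; ring
        _ ≤ ‖x0‖ ^ 2 * (5 * r) := e2
        _ ≤ (‖x0‖ ^ 2 + 1) * (5 * r) := by nlinarith
        _ = δ ^ 4 := by rw [hrdef]; field_simp
    exact le_of_pow_le_pow_left₀ (by norm_num) hδ.le h4
  set U : G := ∑ l, W.b l * x * k * e * W.c l with hU
  have hUu : IsUnit U := by
    have hgen : ∑ l, W.b l * x0 * W.c l = 1 := by
      rw [← W.gen]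
      exact Finset.sum_congr rfl (fun l _ => by rw [hx0, Subsingleton.elim (W.idx l) 0])
    have e1 : 1 - U = ∑ l, W.b l * (x0 * (1 - g)) * W.c l := by
      rw [show 1 - U = (∑ l, W.b l * x0 * W.c l) - U from by rw [hgen], hU,
        ← Finset.sum_sub_distrib]
      refine Finset.sum_congr rfl (fun l _ => ?_)
      rw [xek l]; noncomm_ring
    have hn : ‖1 - U‖ < 1 := by
      rw [e1]
      refine lt_of_le_of_lt (le_trans (norm_sum_le _ _) (Finset.sum_le_sum
        (g := fun l => ‖W.b l‖ * ‖W.c l‖ * δ) (fun l _ => ?_))) ?_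
      · calc _ ≤ ‖W.b l * (x0 * (1 - g))‖ * ‖W.c l‖ := norm_mul_le _ _
          _ ≤ ‖W.b l‖ * ‖x0 * (1 - g)‖ * ‖W.c l‖ :=
              mul_le_mul_of_nonneg_right (norm_mul_le _ _) (norm_nonneg _)
          _ ≤ ‖W.b l‖ * δ * ‖W.c l‖ :=
              mul_le_mul_of_nonneg_right (mul_le_mul_of_nonneg_left small (norm_nonneg _))
                (norm_nonneg _)
          _ = _ := by ring
      · rw [← Finset.sum_mul, ← hM, hδdef, mul_one_div, div_lt_one (by positivity)]
        linarith
    have := isUnit_one_sub_of_norm_lt_one hn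
    rwa [sub_sub_cancel] at this
  set X : Fin N → G := fun l => W.b l * x * k * e * W.c l with hX
  set v : Fin N → G := fun l => e * W.c l with hv
  set S : G := ∑ l, star (v l) * v l with hS
  set B : ℝ := ∑ l, ‖W.b l * x * k‖ ^ 2 with hB
  have hXle : ∀ l, star (X l) * X l ≤ B • (star (v l) * v l) := by
    intro l
    have h1 : star (W.b l * x * k) * (W.b l * x * k) ≤ algebraMap ℝ G B := by
      refine le_trans (IsSelfAdjoint.le_algebraMap_norm_self (.star_mul_self _)) ?_
      rw [CStarRing.norm_star_mul_self, ← pow_two]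
      exact algebraMap_mono G (Finset.single_le_sum (f := fun l => ‖W.b l * x * k‖ ^ 2)
        (fun l _ => by positivity) (Finset.mem_univ l))
    have h2 := star_left_conjugate_le_conjugate h1 (v l)
    rw [Algebra.algebraMap_eq_smul_one, mul_smul_comm, mul_one, smul_mul_assoc] at h2
    have eX : X l = W.b l * x * k * v l := by simp only [hX, hv, mul_assoc]
    rw [eX, star_mul, mul_assoc (star (v l)), ← mul_assoc (star (W.b l * x * k))]
    rw [← mul_assoc]
    exact h2
  have hSn : 0 ≤ S := Finset.sum_nonneg (fun l _ => star_mul_self_nonneg _)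
  have hUX : star U * U ≤ ((N : ℝ) * B) • S := by
    have h1 : 0 ≤ ∑ l, ∑ m, star (X l - X m) * (X l - X m) :=
      Finset.sum_nonneg (fun l _ => Finset.sum_nonneg (fun m _ => star_mul_self_nonneg _))
    have h2 : ∑ l, ∑ m, star (X l - X m) * (X l - X m)
        = ((2 * (N : ℝ))) • (∑ l, star (X l) * X l) - (2 : ℝ) • (star U * U) := by
      simp only [star_sub, sub_mul, mul_sub, Finset.sum_sub_distrib, Finset.sum_const,
        Finset.card_univ, Fintype.card_fin, ← Finset.mul_sum, ← Finset.sum_mul, ← Finset.smul_sum]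
      rw [← star_sum, show ∑ l, X l = U from rfl, ← Nat.cast_smul_eq_nsmul ℝ]
      module
    rw [h2, sub_nonneg] at h1
    have h3 : star U * U ≤ (N : ℝ) • ∑ l, star (X l) * X l := by
      have := smul_le_smul_of_nonneg_left h1 (show (0:ℝ) ≤ 1 / 2 by norm_num)
      rw [smul_smul, smul_smul, show (1:ℝ) / 2 * 2 = 1 by norm_num, one_smul] at this
      refine le_trans this (le_of_eq ?_)
      congr 1; ring
    refine le_trans h3 ?_
    rw [mul_smul, hS, Finset.smul_sum (r := B)]
    exact smul_le_smul_of_nonneg_left (Finset.sum_le_sum (fun l _ => hXle l)) (by positivity)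
  have hSu : IsUnit S := by
    have h1 : IsUnit (((N : ℝ) * B) • S) :=
      CStarAlgebra.isUnit_of_le (star U * U) hUX
        ((hUu.star.mul hUu).isStrictlyPositive (star_mul_self_nonneg U))
    have hNB : (N : ℝ) * B ≠ 0 := by
      intro h
      rw [h, zero_smul] at h1
      exact not_isUnit_zero h1
    have h2 : IsUnit (algebraMap ℝ G ((N : ℝ) * B) * S) := by rwa [← Algebra.smul_def]
    exact ((IsUnit.map (algebraMap ℝ G) (Ne.isUnit hNB)).mul_left_iff).1 h2
  set T : G := cfc (fun s : ℝ => (Real.sqrt s)⁻¹) S with hT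
  have hSs : IsSelfAdjoint S := .of_nonneg hSn
  have hpos : ∀ s ∈ spectrum ℝ S, 0 < s := fun s hs =>
    lt_of_le_of_ne (spectrum_nonneg_of_nonneg hSn hs) (Ne.symm (by
      rintro rfl; exact spectrum.zero_notMem ℝ hSu hs))
  have hTc : ContinuousOn (fun s : ℝ => (Real.sqrt s)⁻¹) (spectrum ℝ S) :=
    Real.continuous_sqrt.continuousOn.inv₀ (fun s hs => (Real.sqrt_pos.2 (hpos s hs)).ne')
  have hTST : T * S * T = 1 := by
    nth_rewrite 1 [← cfc_id' ℝ S hSs]
    rw [hT, ← cfc_mul _ _ S hTc,
      ← cfc_mul (fun x : ℝ => (Real.sqrt x)⁻¹ * x) (fun s : ℝ => (Real.sqrt s)⁻¹) S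
        (hTc.mul continuousOn_id) hTc,
      cfc_congr (g := fun _ => (1:ℝ)) (fun s hs => ?_), cfc_const_one ℝ S]
    have h1 := Real.mul_self_sqrt (hpos s hs).le
    have h2 := (Real.sqrt_pos.2 (hpos s hs)).ne'
    field_simp
    linarith
  have hTs : star T = T := (cfc_predicate (p := IsSelfAdjoint) _ _).star_eq
  refine ⟨x, p, 1 - u, e, fun l => W.c l * T, leaf, ?_, ?_⟩
  · rw [← hTST, hS, Finset.mul_sum, Finset.sum_mul]
    refine Finset.sum_congr rfl (fun l _ => ?_)
    simp only [hv, star_mul, hTs, es, mul_assoc]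
  · intro y hy
    have m : ∀ a ∈ W.entries, Commute a y ∧ Commute (star a) y := fun a ha =>
      ⟨(hy a ha).1, by simpa using (hy a ha).2.star_star⟩
    obtain ⟨c0, c0'⟩ := m x0 (Or.inl (Or.inl ⟨0, rfl⟩))
    have ct : Commute t y := (c0'.mul_left c0).add_left (c0.mul_left c0')
    have cps : Commute (cfc (scal r) t) y := ct.cfc_real _
    have cx : Commute x y := c0.mul_left cps
    have cx' : Commute (star x) y := by
      rw [hx, rescale, star_mul, (cfc_predicate (p := IsSelfAdjoint) (scal r) t).star_eq]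
      exact cps.mul_left c0'
    have ce : Commute e y := (ct.cfc_real fg).mul_left (cx'.mul_left cx)
    have cc : ∀ l, Commute (W.c l) y ∧ Commute (star (W.c l)) y := fun l => m _ (Or.inr ⟨l, rfl⟩)
    have cS : Commute S y := Commute.sum_left _ _ _ (fun l _ => by
      simp only [hv, star_mul, es]
      exact ((cc l).2.mul_left ce).mul_left (ce.mul_left (cc l).1))
    exact ⟨cx, ct.cfc_real fp, (Commute.one_left y).sub_left (ct.cfc_real fu), ce,
      fun l => (cc l).1.mul_left (cS.cfc_real _)⟩

end Vale.Agent.P101
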