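import Vale.Agent.P101.Cfc

/-!
P101, L6: an exact square root of a dominated positive element through the dominating one.
-/

namespace Vale.Agent.P101

open Filter
open scoped Topology

variable {G : Type*} [CStarAlgebra G] [PartialOrder G] [StarOrderedRing G]

theorem exists_polar {w a : G} (ha : IsSelfAdjoint a) (hle : a * a ≤ star w * w) :
    ∃ s : G, star s * s = a * a ∧ ∀ v : G, v * w = w → v * s = s := by
  set M : G := star w * w with hM
  have hMs : IsSelfAdjoint M := .star_mul_self w
  have hMn : 0 ≤ M := star_mul_self_nonneg w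
  have hsp : ∀ s ∈ spectrum ℝ M, 0 ≤ s := fun s hs => spectrum_nonneg_of_nonneg hMn hs
  have bnd : ∀ g : ℝ → ℝ, ContinuousOn g (spectrum ℝ M) → ∀ c : ℝ, 0 ≤ c →
      (∀ s ∈ spectrum ℝ M, s * (g s * g s) ≤ c) → ‖cfc g M * a‖ * ‖cfc g M * a‖ ≤ c := by
    intro g hg c hc hgc
    set g' : G := cfc g M with hg'
    have hgs : star g' = g' := (cfc_predicate (p := IsSelfAdjoint) _ _).star_eq
    have e1 : ‖g' * a‖ * ‖g' * a‖ = ‖g' * (a * a) * g'‖ := by
      rw [← CStarRing.norm_self_mul_star, star_mul, hgs, ha.star_eq]; simp only [mul_assoc]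
    have h1 : g' * (a * a) * g' ≤ g' * M * g' := by
      have := star_left_conjugate_le_conjugate hle g'; rwa [hgs] at this
    have h2 : 0 ≤ g' * (a * a) * g' := by
      have := star_mul_self_nonneg (a * g')
      simpa [star_mul, hgs, ha.star_eq, mul_assoc] using this
    rw [e1]
    refine le_trans (CStarAlgebra.norm_le_norm_of_nonneg_of_le h2 h1) ?_
    rw [hg']
    nth_rewrite 2 [← cfc_id' ℝ M hMs]
    rw [← cfc_mul g (fun x => x) M hg continuousOn_id,
      ← cfc_mul (fun x => g x * x) g M (hg.mul continuousOn_id) hg]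
    refine norm_cfc_le hc (fun s hs => ?_)
    rw [Real.norm_eq_abs, show g s * s * g s = s * (g s * g s) by ring,
      abs_of_nonneg (mul_nonneg (hsp s hs) (mul_self_nonneg _))]
    exact hgc s hs
  set d : ℕ → ℝ := fun n => 1 / ((n : ℝ) + 1) with hd
  have hd0 : ∀ n, 0 < d n := fun n => by simp only [hd]; positivity
  set h : ℕ → ℝ → ℝ := fun n s => (Real.sqrt (s + d n))⁻¹ with hh
  have hhc : ∀ n, ContinuousOn (h n) (spectrum ℝ M) := fun n =>
    ContinuousOn.inv₀ (by fun_prop)
      (fun s hs => (Real.sqrt_pos.2 (by linarith [hsp s hs, hd0 n])).ne')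
  set q : ℕ → G := fun n => w * cfc (h n) M * a with hq
  have key : ∀ f : ℝ → ℝ, ContinuousOn f (spectrum ℝ M) →
      star (w * cfc f M * a) * (w * cfc f M * a) = a * cfc (fun s => f s * s * f s) M * a := by
    intro f hf
    rw [cfc_mul (fun s => f s * s) f M (hf.mul continuousOn_id) hf,
      cfc_mul f (fun s => s) M hf continuousOn_id, cfc_id' ℝ M hMs, star_mul, star_mul,
      (cfc_predicate (p := IsSelfAdjoint) f M).star_eq, ha.star_eq, hM]
    simp only [mul_assoc]
  have hdist : ∀ n m : ℕ, ‖q n - q m‖ * ‖q n - q m‖ ≤ max (d n) (d m) := by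
    intro n m
    set f : ℝ → ℝ := fun s => h n s - h m s with hf
    have hfc : ContinuousOn f (spectrum ℝ M) := (hhc n).sub (hhc m)
    have e1 : q n - q m = w * cfc f M * a := by
      rw [hf, cfc_sub _ _ M (hhc n) (hhc m)]; simp only [hq, mul_sub, sub_mul]
    have hgc : ContinuousOn (fun s => Real.sqrt s * f s) (spectrum ℝ M) :=
      Real.continuous_sqrt.continuousOn.mul hfc
    have e2 : ‖w * cfc f M * a‖ * ‖w * cfc f M * a‖
        = ‖cfc (fun s => Real.sqrt s * f s) M * a‖ * ‖cfc (fun s => Real.sqrt s * f s) M * a‖ := by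
      rw [← CStarRing.norm_star_mul_self, key f hfc, ← CStarRing.norm_star_mul_self, star_mul,
        (cfc_predicate (p := IsSelfAdjoint) _ M).star_eq, ha.star_eq,
        mul_assoc a (cfc (fun s => Real.sqrt s * f s) M),
        ← mul_assoc (cfc (fun s => Real.sqrt s * f s) M) _ a, ← cfc_mul _ _ M hgc hgc]
      rw [mul_assoc]
      congr 2
      congr 1
      refine cfc_congr (fun s hs => ?_)
      have := Real.mul_self_sqrt (hsp s hs)
      linear_combination -(f s * f s) * this
    rw [e1, e2]
    refine bnd _ hgc _ (le_trans (hd0 n).le (le_max_left _ _)) (fun s hs => ?_)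
    have hs0 := hsp s hs
    have hp : ∀ k, Real.sqrt s * h k s * (Real.sqrt s * h k s) = s / (s + d k) ∧
        0 ≤ Real.sqrt s * h k s := fun k => by
      have h1 := Real.mul_self_sqrt hs0
      have h2 := Real.mul_self_sqrt (show 0 ≤ s + d k by linarith [hd0 k])
      refine ⟨?_, by simp only [hh]; positivity⟩
      simp only [hh]
      rw [mul_mul_mul_comm, h1, ← mul_inv, h2, div_eq_mul_inv]
    obtain ⟨pn, pn0⟩ := hp n
    obtain ⟨pm, pm0⟩ := hp m
    set u := Real.sqrt s * h n s
    set v := Real.sqrt s * h m s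
    have hfe : Real.sqrt s * f s = u - v := by simp only [hf, u, v]; ring
    rw [hfe]
    have u1 : u ≤ 1 := by
      have : u * u ≤ 1 := by
        rw [pn, div_le_one (by linarith [hd0 n])]; linarith [hd0 n]
      nlinarith
    have v1 : v ≤ 1 := by
      have : v * v ≤ 1 := by
        rw [pm, div_le_one (by linarith [hd0 m])]; linarith [hd0 m]
      nlinarith
    have bn : s * (1 - u) ≤ d n := by
      have : s * (1 - u * u) ≤ d n := by
        rw [pn, one_sub_div (by linarith [hd0 n]), mul_div_assoc',
          div_le_iff₀ (by linarith [hd0 n])]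
        nlinarith [hd0 n]
      nlinarith [mul_nonneg hs0 (mul_nonneg pn0 (sub_nonneg.2 u1))]
    have bm : s * (1 - v) ≤ d m := by
      have : s * (1 - v * v) ≤ d m := by
        rw [pm, one_sub_div (by linarith [hd0 m]), mul_div_assoc',
          div_le_iff₀ (by linarith [hd0 m])]
        nlinarith [hd0 m]
      nlinarith [mul_nonneg hs0 (mul_nonneg pm0 (sub_nonneg.2 v1))]
    rcases le_total u v with huv | huv
    · have : (u - v) * (u - v) ≤ 1 - u := by nlinarith
      exact le_trans (le_trans (mul_le_mul_of_nonneg_left this hs0) bn) (le_max_left _ _)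
    · have : (u - v) * (u - v) ≤ 1 - v := by nlinarith
      exact le_trans (le_trans (mul_le_mul_of_nonneg_left this hs0) bm) (le_max_right _ _)
  have hcau : CauchySeq q := by
    refine cauchySeq_of_le_tendsto_0 (fun n => Real.sqrt (d n)) (fun n m N hn hm => ?_) ?_
    · rw [dist_eq_norm, ← Real.sqrt_mul_self (norm_nonneg (q n - q m))]
      refine Real.sqrt_le_sqrt (le_trans (hdist n m) (max_le ?_ ?_))
      all_goals
        simp only [hd]
        gcongr
    · have := (tendsto_one_div_add_atTop_nhds_zero_nat (𝕜 := ℝ)).sqrt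
      simpa [hd] using this
  obtain ⟨s, hs⟩ := cauchySeq_tendsto_of_complete hcau
  refine ⟨s, ?_, fun v hv => ?_⟩
  · refine tendsto_nhds_unique (hs.star.mul hs) ?_
    refine tendsto_sub_nhds_zero_iff.1 (squeeze_zero_norm (fun n => ?_)
      (tendsto_one_div_add_atTop_nhds_zero_nat (𝕜 := ℝ)))
    set g : ℝ → ℝ := fun x => Real.sqrt (d n / (x + d n)) with hg
    have hdc : ContinuousOn (fun x : ℝ => d n / (x + d n)) (spectrum ℝ M) :=
      continuousOn_const.div (continuousOn_id.add continuousOn_const)
        (fun x hx => show x + d n ≠ 0 by linarith [hsp x hx, hd0 n])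
    have hgc : ContinuousOn g (spectrum ℝ M) := hdc.sqrt
    have e1 : a * a - star (q n) * q n = star (cfc g M * a) * (cfc g M * a) := by
      simp only [hq]
      rw [key _ (hhc n), star_mul, (cfc_predicate (p := IsSelfAdjoint) g M).star_eq, ha.star_eq,
        mul_assoc a (cfc g M), ← mul_assoc (cfc g M) (cfc g M) a, ← cfc_mul g g M hgc hgc]
      have e2 : cfc (fun x => g x * g x) M
          = 1 - cfc (fun x => h n x * x * h n x) M := by
        rw [← cfc_const_one ℝ M hMs, ← cfc_sub (fun _ => (1:ℝ)) (fun x => h n x * x * h n x) M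
          continuousOn_const (((hhc n).mul continuousOn_id).mul (hhc n))]
        refine cfc_congr (fun x hx => ?_)
        have hx0 := hsp x hx
        have h2 := Real.mul_self_sqrt (show 0 ≤ x + d n by linarith [hd0 n])
        have h3 : x + d n ≠ 0 := by linarith [hd0 n]
        simp only [hg, hh]
        rw [Real.mul_self_sqrt (div_nonneg (hd0 n).le (by linarith [hd0 n])),
          show (Real.sqrt (x + d n))⁻¹ * x * (Real.sqrt (x + d n))⁻¹
            = x / (Real.sqrt (x + d n) * Real.sqrt (x + d n)) by
            rw [div_eq_mul_inv, mul_inv]; ring, h2]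
        field_simp
        ring
      rw [e2]; noncomm_ring
    change ‖star (q n) * q n - a * a‖ ≤ 1 / ((n : ℝ) + 1)
    rw [norm_sub_rev, e1, CStarRing.norm_star_mul_self]
    refine bnd g hgc _ (by positivity) (fun x hx => ?_)
    have hx0 := hsp x hx
    simp only [hg]
    rw [Real.mul_self_sqrt (div_nonneg (hd0 n).le (by linarith [hd0 n])), mul_div_assoc',
      div_le_iff₀ (by linarith [hd0 n])]
    simp only [hd]
    have : (0:ℝ) < 1 / ((n : ℝ) + 1) := by positivity
    nlinarith
  · refine tendsto_nhds_unique (tendsto_const_nhds.mul hs) (hs.congr (fun n => ?_))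
    simp only [hq]
    rw [← mul_assoc, ← mul_assoc, hv]

end Vale.Agent.P101
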