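import Mathlib

/-!
P101, L6: products over finitely many pairwise commuting sites, in index order.
-/

namespace Vale.Agent.P101

variable {R : Type*}

/-- The product of a tuple in index order. -/
def prodF [Monoid R] {m : ℕ} (f : Fin m → R) : R := (List.ofFn f).prod

theorem prodF_zero [Monoid R] (f : Fin 0 → R) : prodF f = 1 := by simp [prodF]

theorem prodF_succ [Monoid R] {m : ℕ} (f : Fin (m + 1) → R) :
    prodF f = f 0 * prodF (fun i => f i.succ) := by
  simp [prodF, List.ofFn_succ]

theorem prodF_commute [Monoid R] {m : ℕ} {g : R} :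
    ∀ {f : Fin m → R}, (∀ i, Commute g (f i)) → Commute g (prodF f) := by
  induction m with
  | zero => intro f _; rw [prodF_zero]; exact Commute.one_right g
  | succ m ih =>
    intro f h
    rw [prodF_succ]
    exact (h 0).mul_right (ih fun i => h i.succ)

theorem prodF_mul [Monoid R] {m : ℕ} :
    ∀ {f g : Fin m → R}, (∀ i j, i ≠ j → Commute (g i) (f j)) →
      prodF (fun i => f i * g i) = prodF f * prodF g := by
  induction m with
  | zero => intro f g _; simp [prodF_zero]
  | succ m ih =>
    intro f g h
    rw [prodF_succ, prodF_succ f, prodF_succ g, ih (fun i j hij => h _ _ (by simpa using hij)),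
      (prodF_commute (g := g 0) (f := fun i => f i.succ)
        (fun i => h 0 i.succ (by simp [eq_comm]))).mul_mul_mul_comm]

theorem mul_prodF_absorb [Monoid R] {m : ℕ} {a : R} :
    ∀ {f : Fin m → R}, (∀ i, a * f i = a) → a * prodF f = a := by
  induction m with
  | zero => intro f _; simp [prodF_zero]
  | succ m ih =>
    intro f h
    rw [prodF_succ, ← mul_assoc, h 0]
    exact ih fun i => h i.succ

theorem mul_prodF_site [Monoid R] {m : ℕ} {a b : R} :
    ∀ {f : Fin m → R} (i : Fin m), (∀ k, k ≠ i → Commute a (f k)) → a * f i = b * f i →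
      (∀ k, k ≠ i → Commute b (f k)) → a * prodF f = b * prodF f := by
  induction m with
  | zero => intro f i; exact i.elim0
  | succ m ih =>
    intro f i ha h hb
    rw [prodF_succ]
    cases i using Fin.cases with
    | zero => rw [← mul_assoc, h, mul_assoc]
    | succ i =>
      rw [← mul_assoc, ← mul_assoc, (ha 0 (by simp [eq_comm])).eq,
        (hb 0 (by simp [eq_comm])).eq, mul_assoc, mul_assoc]
      congr 1
      exact ih i (fun k hk => ha _ (by simpa using hk)) h (fun k hk => hb _ (by simpa using hk))

theorem prodF_eq_zero [MonoidWithZero R] {m : ℕ} (f : Fin m → R) (i : Fin m) (h : f i = 0) :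
    prodF f = 0 :=
  List.prod_eq_zero (List.mem_ofFn.2 ⟨i, h⟩)

theorem prodF_star [Monoid R] [StarMul R] {m : ℕ} :
    ∀ {f : Fin m → R}, (∀ i j, i ≠ j → Commute (f i) (f j)) →
      star (prodF f) = prodF (fun i => star (f i)) := by
  induction m with
  | zero => intro f _; simp [prodF_zero]
  | succ m ih =>
    intro f h
    rw [prodF_succ, prodF_succ (fun i => star (f i)), star_mul,
      ih (fun i j hij => h _ _ (by simpa using hij))]
    refine ((prodF_commute (fun i => ?_)).symm).eq
    exact (h 0 i.succ (by simp [eq_comm])).star_star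

theorem prodF_sum [Semiring R] {α : Type*} [Fintype α] {m : ℕ} :
    ∀ g : Fin m → α → R, prodF (fun i => ∑ v, g i v)
      = ∑ ι : Fin m → α, prodF (fun i => g i (ι i)) := by
  induction m with
  | zero => intro g; simp [prodF_zero]
  | succ m ih =>
    intro g
    rw [prodF_succ, ih, Finset.sum_mul_sum,
      ← Equiv.sum_comp (Fin.consEquiv fun _ => α) (fun ι => prodF (fun i => g i (ι i))),
      Fintype.sum_prod_type]
    refine Finset.sum_congr rfl (fun v _ => Finset.sum_congr rfl (fun ι _ => ?_))
    rw [prodF_succ]
    simp [Fin.consEquiv]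

end Vale.Agent.P101
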