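import Vale.Agent.P101.Tree
import Vale.Agent.P101.Prod
import Vale.Agent.P101.Polar
import Vale.Agent.P101.Leaf

/-!
P101, L6 (block B5): commuting copies of one full square-zero element give the dimension drop
relations.
-/

namespace Vale.Agent.P101

universe u

theorem exists_copies {G : Type*} [Ring G] [StarRing G] (hG : WitnessCopies G) {k N : ℕ}
    (W : Witness G k N) : ∀ m : ℕ, ∃ Ws : Fin m → Witness G k N, ∀ i j, i ≠ j →
      ∀ a ∈ (Ws i).entries, ∀ b ∈ (Ws j).entries, Commute a b ∧ Commute a (star b) := by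
  intro m
  induction m with
  | zero => exact ⟨fun i => i.elim0, fun i => i.elim0⟩
  | succ m ih =>
    obtain ⟨Ws, hW⟩ := ih
    have hfin : (⋃ i, (Ws i).entries).Finite := Set.finite_iUnion fun i => by
      unfold Witness.entries
      exact ((Set.finite_range _).union (Set.finite_range _)).union (Set.finite_range _)
    obtain ⟨W', hW'⟩ := hG k N W hfin.toFinset
    have hmem : ∀ j, ∀ b ∈ (Ws j).entries, b ∈ hfin.toFinset := fun j b hb =>
      hfin.mem_toFinset.2 (Set.mem_iUnion.2 ⟨j, hb⟩)
    refine ⟨Fin.cons W' Ws, fun i j hij a ha b hb => ?_⟩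
    cases i using Fin.cases with
    | zero =>
      cases j using Fin.cases with
      | zero => exact absurd rfl hij
      | succ j =>
        simp only [Fin.cons_zero, Fin.cons_succ] at ha hb
        exact hW' a ha b (hmem j b hb)
    | succ i =>
      cases j using Fin.cases with
      | zero =>
        simp only [Fin.cons_zero, Fin.cons_succ] at ha hb
        obtain ⟨h1, h2⟩ := hW' b hb a (hmem i a ha)
        exact ⟨h1.symm, by simpa using h2.star_star.symm⟩
      | succ j =>
        simp only [Fin.cons_succ] at ha hb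
        exact hW i j (by simpa using hij) a ha b hb

theorem dropPin : DropPin.{u} := by
  intro G _ hG N W
  letI : PartialOrder G := CStarAlgebra.spectralOrder G
  haveI : StarOrderedRing G := CStarAlgebra.spectralOrderedRing G
  classical
  set m : ℕ := N * N + 1 with hm
  obtain ⟨Ws, hWs⟩ := exists_copies hG W m
  choose x p q e b hleaf hgen hcom using fun i => leafPin G N (Ws i)
  set L : Fin m → Set G := fun i =>
    {g | g = x i ∨ g = p i ∨ g = q i ∨ g = e i ∨ ∃ v, g = b i v ∨ g = star (b i v)}
  have step : ∀ i j, i ≠ j → ∀ a ∈ (Ws j).entries,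
      ∀ g ∈ L i, Commute g a ∧ Commute g (star a) := by
    intro i j hij a ha g hg
    have hyp : ∀ a', a' = a ∨ a' = star a → ∀ c ∈ (Ws i).entries,
        Commute c a' ∧ Commute c (star a') := by
      intro a' h c hc
      obtain ⟨h1, h2⟩ := hWs i j hij c hc a ha
      rcases h with rfl | rfl
      · exact ⟨h1, h2⟩
      · exact ⟨h2, by rwa [star_star]⟩
    have main : ∀ a', a' = a ∨ a' = star a → ∀ g', (g' = x i ∨ g' = p i ∨ g' = q i ∨ g' = e i ∨
        ∃ v, g' = b i v) → Commute g' a' := by
      intro a' h g' hg'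
      obtain ⟨k1, k2, k3, k4, k5⟩ := hcom i a' (hyp a' h)
      rcases hg' with rfl | rfl | rfl | rfl | ⟨v, rfl⟩
      exacts [k1, k2, k3, k4, k5 v]
    rcases hg with rfl | rfl | rfl | rfl | ⟨v, rfl | rfl⟩
    · exact ⟨main a (.inl rfl) _ (.inl rfl), main _ (.inr rfl) _ (.inl rfl)⟩
    · exact ⟨main a (.inl rfl) _ (by simp), main _ (.inr rfl) _ (by simp)⟩
    · exact ⟨main a (.inl rfl) _ (by simp), main _ (.inr rfl) _ (by simp)⟩
    · exact ⟨main a (.inl rfl) _ (by simp), main _ (.inr rfl) _ (by simp)⟩
    · exact ⟨main a (.inl rfl) _ (by simp), main _ (.inr rfl) _ (by simp)⟩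
    · exact ⟨by simpa using (main _ (.inr rfl) (b i v) (by simp)).star_star,
        by simpa using (main _ (.inl rfl) (b i v) (by simp)).star_star⟩
  have cross : ∀ i j, i ≠ j → ∀ g ∈ L i, ∀ g' ∈ L j, Commute g g' ∧ Commute g (star g') := by
    intro i j hij g hg
    have hyp : ∀ a ∈ (Ws j).entries, Commute a g ∧ Commute a (star g) := fun a ha =>
      ⟨(step i j hij a ha g hg).1.symm,
        by simpa using (step i j hij a ha g hg).2.star_star.symm⟩
    have hyp' : ∀ a ∈ (Ws j).entries, Commute a (star g) ∧ Commute a (star (star g)) := fun a ha =>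
      ⟨(hyp a ha).2, by rw [star_star]; exact (hyp a ha).1⟩
    obtain ⟨k1, k2, k3, k4, k5⟩ := hcom j g hyp
    obtain ⟨l1, l2, l3, l4, l5⟩ := hcom j (star g) hyp'
    intro g' hg'
    rcases hg' with rfl | rfl | rfl | rfl | ⟨v, rfl | rfl⟩
    · exact ⟨k1.symm, by simpa using l1.star_star.symm⟩
    · exact ⟨k2.symm, by simpa using l2.star_star.symm⟩
    · exact ⟨k3.symm, by simpa using l3.star_star.symm⟩
    · exact ⟨k4.symm, by simpa using l4.star_star.symm⟩
    · exact ⟨(k5 v).symm, by simpa using (l5 v).star_star.symm⟩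
    · exact ⟨by simpa using (l5 v).star_star.symm, by rw [star_star]; exact (k5 v).symm⟩
  have mx : ∀ i, x i ∈ L i := fun i => Or.inl rfl
  have mp : ∀ i, p i ∈ L i := fun i => Or.inr (Or.inl rfl)
  have mq : ∀ i, q i ∈ L i := fun i => Or.inr (Or.inr (Or.inl rfl))
  have me : ∀ i, e i ∈ L i := fun i => Or.inr (Or.inr (Or.inr (Or.inl rfl)))
  have mb : ∀ i v, b i v ∈ L i := fun i v => Or.inr (Or.inr (Or.inr (Or.inr ⟨v, Or.inl rfl⟩)))
  have sites : Sites x p :=
    { gated := fun i => (hleaf i).toGated
      cx := fun i j h => (cross i j h _ (mx i) _ (mx j)).1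
      cx' := fun i j h => (cross i j h _ (mx i) _ (mx j)).2
      cpx := fun i j h => (cross i j h _ (mp i) _ (mx j)).1
      cp := fun i j h => (cross i j h _ (mp i) _ (mp j)).1 }
  obtain ⟨hT, hTc, hinv, htop⟩ := tree_spec sites
  set X := (tree x p).1 with hX
  set P := (tree x p).2 with hP
  have qs : ∀ i, star (q i) = q i := fun i => (IsSelfAdjoint.of_nonneg (hleaf i).q_nonneg).star_eq
  have eq0 : ∀ i, e i * q i = 0 := fun i => by
    have := congrArg star (hleaf i).q_e
    rwa [star_mul, qs, (hleaf i).e_self, star_zero] at this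
  have qp : ∀ i, q i * p i = 0 := fun i => by
    have := congrArg star (hleaf i).p_q
    rwa [star_mul, qs, (hleaf i).toGated.self, star_zero] at this
  -- the leftover
  set r : G := 1 - sumSq X with hr
  have hr0 : 0 ≤ r := sub_nonneg.2 hT.norm_le
  have Pr : ∀ c : G, P * c = c → r * c = 0 := by
    intro c hc
    have pa : Commute P (sumSq X) :=
      (hT.comm_star.mul_right hT.comm).add_right (hT.comm.mul_right hT.comm_star)
    rw [hr, sub_mul, one_mul, sub_eq_zero]
    calc c = P * c := hc.symm
      _ = P * sumSq X * c := by rw [show P * sumSq X = P from hT.absorb]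
      _ = sumSq X * c := by rw [pa.eq, mul_assoc, hc]
  have rq : ∀ i, r * q i = r := by
    intro i
    have h1 : P * (1 - q i) = 1 - q i := by
      refine hinv i _ (hleaf i).q_absorb (fun k => ?_)
      by_cases hk : k = i
      · subst hk
        have hq := (hleaf k).q_comm
        have hq' : Commute (q k) (star (x k)) := by
          have := hq.star_star; rwa [qs] at this
        exact ⟨(Commute.one_right _).sub_right hq.symm, (Commute.one_right _).sub_right hq'.symm,
          (Commute.one_right _).sub_right ((hleaf k).p_q.trans (qp k).symm)⟩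
      · have c1 := cross k i hk _ (mx k) _ (mq i)
        have c2 := cross k i hk _ (mp k) _ (mq i)
        exact ⟨(Commute.one_right _).sub_right c1.1,
          (Commute.one_right _).sub_right (by simpa [qs] using c1.2.star_star),
          (Commute.one_right _).sub_right c2.1⟩
    have := Pr _ h1
    rwa [mul_sub, mul_one, sub_eq_zero, eq_comm] at this
  set Q : G := prodF q with hQ
  have rQ : r * Q = r := mul_prodF_absorb rq
  have qq : ∀ i j, i ≠ j → Commute (q i) (q j) := fun i j h => (cross i j h _ (mq i) _ (mq j)).1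
  have Qs : star Q = Q := by
    rw [hQ, prodF_star qq]; exact congrArg prodF (funext qs)
  -- the components
  let vl : Finset (Fin m) → ℕ := fun S => S.card - 1
  let F : Finset (Finset (Fin m)) := Finset.univ.filter (fun S => 1 ≤ S.card ∧ S.card ≤ N)
  let gS : Finset (Fin m) → Fin m → G := fun S i => if i ∈ S then e i else q i
  let hS : Finset (Fin m) → Fin m → G := fun S i =>
    if h : i ∈ S ∧ vl S < N then b i ⟨vl S, h.2⟩ * q i else 1
  let fS : Finset (Fin m) → Fin m → G := fun S i => gS S i * hS S i
  have gmem : ∀ S i, gS S i = e i ∨ gS S i = q i := fun S i => by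
    by_cases h : i ∈ S <;> simp [gS, h]
  have cgS : ∀ S i g, (∀ g' ∈ L i, Commute g g') → Commute g (gS S i) := fun S i g hg => by
    rcases gmem S i with h | h <;> rw [h]
    · exact hg _ (me i)
    · exact hg _ (mq i)
  have chS : ∀ S i g, (∀ g' ∈ L i, Commute g g') → Commute g (hS S i) := fun S i g hg => by
    by_cases h : i ∈ S ∧ vl S < N
    · simp only [hS, dif_pos h]; exact (hg _ (mb i _)).mul_right (hg _ (mq i))
    · simp only [hS, dif_neg h]; exact Commute.one_right g
  have cfS : ∀ S i g, (∀ g' ∈ L i, Commute g g') → Commute g (fS S i) := fun S i g hg =>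
    (cgS S i g hg).mul_right (chS S i g hg)
  have cfS' : ∀ S i g, (∀ g' ∈ L i, Commute g g' ∧ Commute g (star g')) →
      Commute g (star (fS S i)) := fun S i g hg => by
    have : Commute (star g) (fS S i) := cfS S i _ (fun g' h' => by
      simpa using (hg g' h').2.star_star)
    simpa using this.star_star
  let WS : Finset (Fin m) → G := fun S => prodF (fS S)
  have cgh : ∀ S i j, i ≠ j → Commute (hS S i) (gS S j) := fun S i j hij =>
    cgS S j _ (fun g' hg' => (chS S i g' (fun g'' hg'' =>
      (cross i j hij g'' hg'' g' hg').1.symm)).symm)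
  have cff : ∀ S S' i j, i ≠ j → Commute (fS S i) (fS S' j) := fun S S' i j hij =>
    cfS S' j _ (fun g' hg' => (cfS S i g' (fun g'' hg'' =>
      (cross i j hij g'' hg'' g' hg').1.symm)).symm)
  have cff' : ∀ S S' i j, i ≠ j → Commute (star (fS S i)) (fS S' j) := fun S S' i j hij =>
    cfS S' j _ (fun g' hg' => (cfS' S i g' (fun g'' hg'' => by
      obtain ⟨a1, a2⟩ := cross i j hij g'' hg'' g' hg'
      exact ⟨a1.symm, by simpa using a2.star_star.symm⟩)).symm)
  -- top of the tree
  have topW : ∀ S ∈ F, star X * X * WS S = WS S := by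
    intro S hS'
    have hne : S.Nonempty := Finset.card_pos.1 (Finset.mem_filter.1 hS').2.1
    have hW : WS S = prodF (gS S) * prodF (hS S) := prodF_mul (cgh S)
    have hoff : ∀ i k, k ≠ i → ∀ g ∈ L i, Commute g (gS S k) := fun i k hk g hg =>
      cgS S k g (fun g' h' => (cross i k (Ne.symm hk) g hg g' h').1)
    have t := (htop (prodF (gS S)) S hne (fun i hi => ⟨?_, ?_⟩) (fun i hi => ?_)).2
    · rw [hW, ← mul_assoc, t]
    · rw [mul_prodF_site (b := (1:G)) i (fun k hk => hoff i k hk _ (mp i))
        (by simp [gS, hi, (hleaf i).p_e]) (fun k _ => Commute.one_left _), one_mul]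
    · rw [mul_prodF_site (b := (1:G)) i (fun k hk => Commute.mul_left ?_ (hoff i k hk _ (mx i)))
        (by simp [gS, hi, (hleaf i).top]) (fun k _ => Commute.one_left _), one_mul]
      exact (cgS S k _ (fun g' h' => by
        simpa using (cross i k (Ne.symm hk) _ (mx i) g' h').2.star_star))
    · rw [mul_prodF_site (b := (0:G)) i (fun k hk => hoff i k hk _ (mp i))
        (by simp [gS, hi, (hleaf i).p_q]) (fun k _ => Commute.zero_left _), zero_mul]
  have orth : ∀ S ∈ F, ∀ S' ∈ F, S ≠ S' → star (WS S) * WS S' = 0 := by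
    intro S hSF S' hSF' hne
    rw [prodF_star (cff S S), ← prodF_mul (fun i j hij => (cff' S S' j i (Ne.symm hij)).symm)]
    obtain ⟨i, hi⟩ : ∃ i, ¬ (i ∈ S ↔ i ∈ S') := by
      by_contra hh; push_neg at hh; exact hne (Finset.ext hh)
    refine prodF_eq_zero _ i ?_
    by_cases hiS : i ∈ S
    · have hiS' : i ∉ S' := fun h => hi ⟨fun _ => h, fun _ => hiS⟩
      simp only [fS, gS, hiS, hiS', if_true, if_false]
      rw [show hS S' i = 1 from dif_neg (fun h => hiS' h.1), mul_one, star_mul, (hleaf i).e_self,
        mul_assoc, eq0, mul_zero]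
    · have hiS' : i ∈ S' := by by_contra h; exact hi ⟨fun h' => absurd h' hiS, fun h' => absurd h' h⟩
      simp only [fS, gS, hiS, hiS', if_true, if_false]
      rw [show hS S i = 1 from dif_neg (fun h => hiS h.1), mul_one, qs, ← mul_assoc, (hleaf i).q_e,
        zero_mul]
  set V : G := ∑ S ∈ F, WS S with hV
  have hVV : star V * V = ∑ S ∈ F, star (WS S) * WS S := by
    rw [hV, star_sum, Finset.sum_mul_sum]
    refine Finset.sum_congr rfl (fun S hS1 => ?_)
    exact Finset.sum_eq_single S (fun S' hS2 hne => orth S hS1 S' hS2 (Ne.symm hne))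
      (fun h => absurd hS1 h)
  -- the partition of Q^2
  let tI : (Fin m → Fin N) → Fin m → G := fun ι i => e i * b i (ι i) * q i
  have tcomm : ∀ ι i j, i ≠ j → Commute (tI ι i) (tI ι j) := fun ι i j hij => by
    have h0 : ∀ g ∈ L i, Commute g (tI ι j) := fun g hg =>
      (((cross i j hij g hg _ (me j)).1).mul_right (cross i j hij g hg _ (mb j _)).1).mul_right
        (cross i j hij g hg _ (mq j)).1
    exact (((h0 _ (me i))).mul_left (h0 _ (mb i _))).mul_left (h0 _ (mq i))
  have tcomm' : ∀ ι i j, i ≠ j → Commute (star (tI ι i)) (tI ι j) := fun ι i j hij => by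
    have h0 : ∀ g ∈ L i, Commute (star g) (tI ι j) := fun g hg => by
      have k : ∀ g' ∈ L j, Commute (star g) g' := fun g' h' => by
        simpa using (cross i j hij g hg g' h').2.star_star
      exact ((k _ (me j)).mul_right (k _ (mb j _))).mul_right (k _ (mq j))
    simp only [tI, star_mul]
    exact (h0 _ (mq i)).mul_left ((h0 _ (mb i _)).mul_left (h0 _ (me i)))
  have hQQ : Q * Q = ∑ ι, star (prodF (tI ι)) * prodF (tI ι) := by
    have e1 : ∀ i, q i * q i = ∑ v, star (e i * b i v * q i) * (e i * b i v * q i) := by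
      intro i
      calc q i * q i = q i * (∑ v, star (b i v) * e i * e i * b i v) * q i := by
            rw [hgen i, mul_one]
        _ = _ := by
            rw [Finset.mul_sum, Finset.sum_mul]
            refine Finset.sum_congr rfl (fun v _ => ?_)
            simp only [star_mul, qs, (hleaf i).e_self, mul_assoc]
    rw [hQ, ← prodF_mul (fun i j hij => qq i j hij), funext e1, prodF_sum]
    refine Finset.sum_congr rfl (fun ι _ => ?_)
    rw [prodF_star (tcomm ι), ← prodF_mul (fun i j hij => (tcomm' ι j i (Ne.symm hij)).symm)]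
  have hbound : ∀ ι : Fin m → Fin N, ∃ K : ℝ,
      star (prodF (tI ι)) * prodF (tI ι) ≤ K • (star V * V) := by
    intro ι
    obtain ⟨v, hv⟩ : ∃ v : Fin N, (v : ℕ) < (Finset.univ.filter (fun i => ι i = v)).card := by
      by_contra hh
      push_neg at hh
      have h1 := Finset.card_eq_sum_card_fiberwise (s := (Finset.univ : Finset (Fin m))) (f := ι)
        (t := Finset.univ) (fun i _ => Finset.mem_univ _)
      have h2 : (∑ v : Fin N, (Finset.univ.filter (fun i => ι i = v)).card) ≤ ∑ _v : Fin N, N :=
        Finset.sum_le_sum (fun v _ => le_trans (hh v) v.2.le)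
      simp [hm] at h1 h2
      omega
    obtain ⟨S, hSsub, hScard⟩ := Finset.exists_subset_card_eq
      (s := Finset.univ.filter (fun i => ι i = v)) (n := (v : ℕ) + 1) hv
    have hSF : S ∈ F := Finset.mem_filter.2 ⟨Finset.mem_univ _, by omega, by
      have := v.2; omega⟩
    have hvl : vl S = (v : ℕ) := by simp [vl, hScard]
    let h1 : Fin m → G := fun i => if i ∈ S then 1 else e i * b i (ι i)
    have e1 : tI ι = fun i => h1 i * fS S i := by
      funext i
      by_cases hi : i ∈ S
      · have hlt : vl S < N := by rw [hvl]; exact v.2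
        have hιv : (⟨vl S, hlt⟩ : Fin N) = ι i := by
          have := (Finset.mem_filter.1 (hSsub hi)).2
          rw [this]; exact Fin.ext hvl
        simp [tI, h1, fS, gS, hS, hi, hlt, hιv, mul_assoc]
      · simp [tI, h1, fS, gS, hS, hi]
    have ch1 : ∀ i j, i ≠ j → Commute (fS S i) (h1 j) := fun i j hij => by
      have k : ∀ g ∈ L j, Commute (fS S i) g := fun g hg =>
        (cfS S i g (fun g' h' => (cross i j hij g' h' g hg).1.symm)).symm
      by_cases hj : j ∈ S
      · simp [h1, hj]
      · simp only [h1, hj, if_false]; exact (k _ (me j)).mul_right (k _ (mb j _))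
    refine ⟨‖star (prodF h1) * prodF h1‖, ?_⟩
    rw [e1, prodF_mul ch1, star_mul, mul_assoc, ← mul_assoc (star (prodF h1)), ← mul_assoc]
    refine le_trans (star_left_conjugate_le_conjugate
      (IsSelfAdjoint.le_algebraMap_norm_self (.star_mul_self (prodF h1))) _) ?_
    rw [Algebra.algebraMap_eq_smul_one, mul_smul_comm, mul_one, smul_mul_assoc]
    refine smul_le_smul_of_nonneg_left ?_ (norm_nonneg _)
    rw [hVV]
    exact Finset.single_le_sum (f := fun S => star (WS S) * WS S)
      (fun S _ => star_mul_self_nonneg _) hSF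
  choose K hK using hbound
  set C : ℝ := max 1 (∑ ι, max (K ι) 0) with hC
  have hQV : Q * Q ≤ C • (star V * V) := by
    rw [hQQ]
    refine le_trans (Finset.sum_le_sum (g := fun ι => max (K ι) 0 • (star V * V))
      (fun ι _ => le_trans (hK ι)
        (smul_le_smul_of_nonneg_right (le_max_left _ _) (star_mul_self_nonneg V)))) ?_
    rw [← Finset.sum_smul]
    exact smul_le_smul_of_nonneg_right (le_max_right _ _) (star_mul_self_nonneg V)
  -- the polar part
  set a : G := cfc Real.sqrt r with ha
  have hrs : IsSelfAdjoint r := .of_nonneg hr0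
  have has : IsSelfAdjoint a := cfc_predicate _ _
  have haa : a * a = r := by
    rw [ha, ← cfc_mul Real.sqrt Real.sqrt r]
    conv_rhs => rw [← cfc_id' ℝ r hrs]
    exact cfc_congr (fun t ht => Real.mul_self_sqrt (spectrum_nonneg_of_nonneg hr0 ht))
  have aQ : a * Q = a := by
    rw [← sub_eq_zero]
    refine (CStarRing.star_mul_self_eq_zero_iff _).1 ?_
    have h : r * (Q - 1) = 0 := by rw [mul_sub, rQ, mul_one, sub_self]
    calc star (a * Q - a) * (a * Q - a) = (Q - 1) * (r * (Q - 1)) := by
          rw [← haa, star_sub, star_mul, Qs, has.star_eq]; noncomm_ring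
      _ = 0 := by rw [h, mul_zero]
  have Qa : Q * a = a := by
    have := congrArg star aQ
    rwa [star_mul, Qs, has.star_eq] at this
  set w : G := Real.sqrt C • (V * a) with hw
  have hle : a * a ≤ star w * w := by
    have h1 := star_left_conjugate_le_conjugate hQV a
    have e1 : star a * (Q * Q) * a = a * a := by
      rw [has.star_eq, ← mul_assoc, aQ, mul_assoc, Qa]
    have e2 : star w * w = star a * (C • (star V * V)) * a := by
      rw [hw, star_smul, star_trivial, smul_mul_smul_comm,
        Real.mul_self_sqrt (le_trans zero_le_one (le_max_left _ _)), star_mul, mul_smul_comm,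
        smul_mul_assoc]
      simp only [mul_assoc, hC]
    rw [e2, ← e1]; exact h1
  obtain ⟨s, hs1, hs2⟩ := exists_polar has hle
  refine ⟨X, s, hT.sq, ?_, ?_⟩
  · rw [hs1, haa, hr, sumSq, sub_sub]
  · refine hs2 _ ?_
    rw [hw, mul_smul_comm, ← mul_assoc, hV, Finset.mul_sum, Finset.sum_congr rfl topW]

end Vale.Agent.P101
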