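import Vale.Agent.P101.FullAlg
import Vale.Agent.P101.Pins

/-!
P101, block B3: copies of a witness give one full square-zero element (L2, L3).
-/

namespace Vale.Agent.P101

universe u

open scoped ContinuousFunctionalCalculus

namespace Full

variable {G : Type*} [CStarAlgebra G]

/-- `HasCopies` for tuples and relations indexed by finite types. -/
lemma copies_of_rel {ι κ : Type} [Fintype ι] [Fintype κ] (h : HasCopies G) (a : ι → G)
    (R : κ → FreeAlgebra ℂ (ι ⊕ ι))
    (hR : ∀ j, FreeAlgebra.lift ℂ (Sum.elim a fun i => star (a i)) (R j) = 0) :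
    ∃ C : ℝ, 0 ≤ C ∧ ∀ S : Finset G, ∃ a' : ι → G, (∀ i, ‖a' i‖ ≤ C) ∧
      (∀ j, FreeAlgebra.lift ℂ (Sum.elim a' fun i => star (a' i)) (R j) = 0) ∧
      ∀ i, ∀ s ∈ S, Commute (a' i) s ∧ Commute (a' i) (star s) := by
  classical
  let e := Fintype.equivFin ι
  let φ := FreeAlgebra.lift ℂ fun x : ι ⊕ ι => FreeAlgebra.ι ℂ (Sum.map e e x)
  have key : ∀ (b : Fin (Fintype.card ι) → G) (p : FreeAlgebra ℂ (ι ⊕ ι)),
      FreeAlgebra.lift ℂ (Sum.elim b fun i => star (b i)) (φ p) =
        FreeAlgebra.lift ℂ (Sum.elim (fun i => b (e i)) fun i => star (b (e i))) p := by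
    intro b p
    have : (FreeAlgebra.lift ℂ (Sum.elim b fun i => star (b i))).comp φ =
        FreeAlgebra.lift ℂ (Sum.elim (fun i => b (e i)) fun i => star (b (e i))) :=
      FreeAlgebra.hom_ext (funext fun x => by rcases x with x | x <;> simp [φ])
    exact DFunLike.congr_fun this p
  obtain ⟨C, hC⟩ := h _ (fun i => a (e.symm i)) (Finset.univ.image fun j => φ (R j)) (by
    intro p hp
    obtain ⟨j, -, rfl⟩ := Finset.mem_image.1 hp
    rw [key]
    simpa using hR j)
  refine ⟨max C 0, le_max_right _ _, fun S => ?_⟩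
  obtain ⟨a', h1, h2, h3⟩ := hC S
  refine ⟨fun i => a' (e i), fun i => (h1 _).trans (le_max_left _ _), fun j => ?_, fun i => h3 _⟩
  have := h2 _ (Finset.mem_image_of_mem _ (Finset.mem_univ j))
  rwa [key] at this

lemma entries_finite {k N : ℕ} (W : Witness G k N) : W.entries.Finite :=
  ((Set.finite_range _).union (Set.finite_range _)).union (Set.finite_range _)

/-- A family of pairwise commuting copies, commuting with a given finite set. -/
lemma exists_family {α : Type*} (P : α → Prop) (ent : α → Set G) (hfin : ∀ x, (ent x).Finite)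
    (hex : ∀ S : Finset G, ∃ x, P x ∧ ∀ a ∈ ent x, ∀ s ∈ S, Commute a s ∧ Commute a (star s))
    (S₀ : Finset G) : ∀ M : ℕ, ∃ f : Fin M → α, (∀ i, P (f i)) ∧
      (∀ i, ∀ a ∈ ent (f i), ∀ s ∈ S₀, Commute a s ∧ Commute a (star s)) ∧
      ∀ i j, i ≠ j → ∀ a ∈ ent (f i), ∀ b ∈ ent (f j), Commute a b ∧ Commute a (star b)
  | 0 => ⟨Fin.elim0, fun i => i.elim0, fun i => i.elim0, fun i => i.elim0⟩
  | M + 1 => by
    classical
    obtain ⟨f, h1, h2, h3⟩ := exists_family P ent hfin hex S₀ M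
    obtain ⟨x, hx1, hx2⟩ := hex (S₀ ∪ Finset.univ.biUnion fun i => (hfin (f i)).toFinset)
    have hnew : ∀ i, ∀ a ∈ ent x, ∀ b ∈ ent (f i), Commute a b ∧ Commute a (star b) :=
      fun i a ha b hb => hx2 a ha b (Finset.mem_union_right _
        (Finset.mem_biUnion.2 ⟨i, Finset.mem_univ i, (hfin _).mem_toFinset.2 hb⟩))
    refine ⟨Fin.snoc f x, Fin.lastCases ?_ ?_, Fin.lastCases ?_ ?_,
      Fin.lastCases (Fin.lastCases ?_ ?_) (fun i => Fin.lastCases ?_ ?_)⟩
    · simpa using hx1
    · simpa using h1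
    · simpa using fun a ha s hs => hx2 a ha s (Finset.mem_union_left _ hs)
    · simpa using h2
    · exact fun h => absurd rfl h
    · intro j _ a ha b hb
      simp only [Fin.snoc_last, Fin.snoc_castSucc] at ha hb
      exact hnew j a ha b hb
    · intro _ a ha b hb
      simp only [Fin.snoc_last, Fin.snoc_castSucc] at ha hb
      obtain ⟨c1, c2⟩ := hnew i b hb a ha
      exact ⟨c1.symm, (commute_star_comm.2 c2).symm⟩
    · intro j hij a ha b hb
      simp only [Fin.snoc_castSucc] at ha hb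
      exact h3 i j (fun h => hij (congrArg Fin.castSucc h)) a ha b hb

/-- Commuting sets stay commuting after adding the adjoints. -/
lemma commute_union_star {A B : Set G}
    (h : ∀ a ∈ A, ∀ b ∈ B, Commute a b ∧ Commute a (star b)) :
    ∀ a ∈ A ∪ star A, ∀ b ∈ B ∪ star B, Commute a b := by
  intro a ha b hb
  rcases ha with ha | ha <;> rcases hb with hb | hb
  · exact (h a ha b hb).1
  · simpa using (h a ha _ hb).2
  · simpa using commute_star_comm.2 (h _ ha b hb).2
  · simpa using (h _ ha _ hb).1.star_star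

/-- A witness inside a subalgebra containing its entries. -/
def restrict {k N : ℕ} (W : Witness G k N) (H : StarSubalgebra ℂ G) (h : W.entries ⊆ H) :
    Witness H k N where
  z v := ⟨W.z v, h (Or.inl (Or.inl ⟨v, rfl⟩))⟩
  b l := ⟨W.b l, h (Or.inl (Or.inr ⟨l, rfl⟩))⟩
  c l := ⟨W.c l, h (Or.inr ⟨l, rfl⟩)⟩
  idx := W.idx
  sq i := Subtype.ext (W.sq i)
  gen := Subtype.ext (by push_cast; exact W.gen)

lemma mem_entries_restrict {k N : ℕ} {W : Witness G k N} {H : StarSubalgebra ℂ G}
    {h : W.entries ⊆ H} {x : H} : x ∈ (restrict W H h).entries ↔ (x : G) ∈ W.entries := by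
  simp [Witness.entries, restrict, Subtype.ext_iff]

/-- The generators are dense in the closed subalgebra they generate. -/
lemma dense_adjoin_preimage (X : Set G) :
    Dense (StarAlgebra.adjoin ℂ
      (Subtype.val ⁻¹' X : Set (StarAlgebra.adjoin ℂ X).topologicalClosure) :
        Set (StarAlgebra.adjoin ℂ X).topologicalClosure) := by
  intro x
  rw [closure_subtype]
  have e : Subtype.val '' (StarAlgebra.adjoin ℂ
      (Subtype.val ⁻¹' X : Set (StarAlgebra.adjoin ℂ X).topologicalClosure) :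
        Set (StarAlgebra.adjoin ℂ X).topologicalClosure) = (StarAlgebra.adjoin ℂ X : Set G) := by
    rw [show (Subtype.val : (StarAlgebra.adjoin ℂ X).topologicalClosure → G) =
      ⇑(StarAlgebra.adjoin ℂ X).topologicalClosure.subtype from rfl, ← StarSubalgebra.coe_map,
      StarAlgHom.map_adjoin, Set.image_preimage_eq_of_subset]
    intro y hy
    exact ⟨⟨y, StarSubalgebra.le_topologicalClosure _ (StarAlgebra.subset_adjoin ℂ X hy)⟩, rfl⟩
  rw [e]
  exact x.2

/-- The bounded copies data: an element with a commutator identity. -/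
lemma exists_core (hW : WitnessCopies G) {k N : ℕ} (W : Witness G k N) :
    ∃ (n : ℕ) (U : G) (a g b : Fin n → G), star U = U ∧
      ∑ l, a l * (U * g l - g l * U) * b l = 1 := by
  classical
  obtain ⟨V, -, -, hV⟩ := exists_family (fun _ : Witness G k N => True) Witness.entries
    entries_finite (fun S => (hW k N W S).imp fun W' h' => ⟨trivial, h'⟩) ∅ (k * k + 1)
  set X : Set G := (⋃ j, (V j).entries) ∪ star (⋃ j, (V j).entries) with hX
  let H : StarSubalgebra ℂ G := (StarAlgebra.adjoin ℂ X).topologicalClosure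
  have : IsClosed (H : Set G) := StarSubalgebra.isClosed_topologicalClosure _
  have hXH : ∀ j, (V j).entries ⊆ H := fun j x hx => StarSubalgebra.le_topologicalClosure _
    (StarAlgebra.subset_adjoin ℂ X (Or.inl (Set.mem_iUnion.2 ⟨j, hx⟩)))
  let V' : Fin (k * k + 1) → Witness H k N := fun j => restrict (V j) H (hXH j)
  have hcomm : ∀ i j, i ≠ j → ∀ a ∈ (V' i).entries, ∀ b ∈ (V' j).entries,
      Commute a b ∧ Commute a (star b) := fun i j hij a ha b hb => by
    obtain ⟨c1, c2⟩ := hV i j hij _ (mem_entries_restrict.1 ha) _ (mem_entries_restrict.1 hb)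
    exact ⟨Subtype.ext c1, Subtype.ext c2⟩
  have hgen : Dense (StarAlgebra.adjoin ℂ
      ((⋃ j, (V' j).entries) ∪ star (⋃ j, (V' j).entries)) : Set H) :=
    (dense_adjoin_preimage X).mono (StarAlgebra.adjoin_mono fun x hx => by
      rcases hx with hx | hx
      · obtain ⟨j, hj⟩ := Set.mem_iUnion.1 hx
        exact Or.inl (Set.mem_iUnion.2 ⟨j, mem_entries_restrict.2 hj⟩)
      · obtain ⟨j, hj⟩ := Set.mem_iUnion.1 (Set.mem_star.1 hx)
        exact Or.inr (Set.mem_star.2 (Set.mem_iUnion.2 ⟨j, mem_entries_restrict.2 hj⟩)))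
  let U : H := ∑ v : Fin k,
    esym (fun j => star ((V' j).z v) * (V' j).z v) (v + 1) (List.finRange (k * k + 1))
  have hUs : star U = U := by
    rw [show star U = ∑ v : Fin k, star (esym (fun j => star ((V' j).z v) * (V' j).z v) (v + 1)
      (List.finRange (k * k + 1))) from star_sum _ _]
    refine Finset.sum_congr rfl fun v _ => ?_
    refine esym_selfAdjoint _ _ (fun j _ => IsSelfAdjoint.star_mul_self _)
      ((List.nodup_finRange _).imp fun {i j} hij => ?_)
    have hz : ∀ j, (V' j).z v ∈ (V' j).entries ∪ star (V' j).entries :=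
      fun j => Or.inl (Or.inl (Or.inl ⟨v, rfl⟩))
    have hzs : ∀ j, star ((V' j).z v) ∈ (V' j).entries ∪ star (V' j).entries :=
      fun j => Or.inr (by rw [Set.mem_star, star_star]; exact Or.inl (Or.inl ⟨v, rfl⟩))
    have hc := commute_union_star (hcomm i j hij)
    exact ((hc _ (hzs i) _ (hzs j)).mul_right (hc _ (hzs i) _ (hz j))).mul_left
      ((hc _ (hz i) _ (hzs j)).mul_right (hc _ (hz i) _ (hz j)))
  obtain ⟨n, a, s, b, hs, hsum⟩ :=
    exists_sum_eq_one (Set.range fun g => U * g - g * U) fun J hJ => by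
      obtain ⟨g, hg⟩ := exists_comm_notMem V' hcomm hgen (Nat.lt_succ_self _) hJ
      exact ⟨_, ⟨g, rfl⟩, hg⟩
  choose g hg using hs
  refine ⟨n, U, fun l => a l, fun l => g l, fun l => b l, congrArg Subtype.val hUs, ?_⟩
  have := congrArg Subtype.val hsum.symm
  simp only [← hg] at this
  push_cast at this
  exact this

/-- A sum of self-adjoint elements, each with spectral width `w` and mutually prime, has
spectral points spread over a length `card * w` without gaps longer than `L`. -/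
lemma wide_specMod {J : Set G} (hI : IsProperClosedIdeal J) {ι : Type*} [DecidableEq ι] (u : ι → G)
    (hu : ∀ q, IsSelfAdjoint (u q)) (hcomm : ∀ i j, i ≠ j → Commute (u i) (u j))
    (hprime : ∀ (s : Finset ι) (q : ι), q ∉ s → ∀ f g : ℝ → ℝ, Continuous f → Continuous g →
      cfc f (∑ i ∈ s, u i) * cfc g (u q) ∈ J → cfc f (∑ i ∈ s, u i) ∈ J ∨ cfc g (u q) ∈ J)
    {C w L : ℝ} (hL : 2 * C ≤ L) (hL0 : 0 < L)
    (hpts : ∀ q, ∃ c ∈ specMod J (u q), ∃ d ∈ specMod J (u q), w ≤ d - c ∧ -C ≤ c ∧ d ≤ C)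
    (s : Finset ι) :
    ∃ lo ∈ specMod J (∑ i ∈ s, u i), ∃ hi ∈ specMod J (∑ i ∈ s, u i),
      (s.card : ℝ) * w ≤ hi - lo ∧ ∀ x, lo ≤ x → x + L ≤ hi →
        ∃ c ∈ specMod J (∑ i ∈ s, u i), x ≤ c ∧ c ≤ x + L := by
  induction s using Finset.induction_on with
  | empty =>
    have h0 : (0 : ℝ) ∈ specMod J (∑ i ∈ (∅ : Finset ι), u i) := fun φ _ hne hmem => by
      rw [Finset.sum_empty, cfc_apply_zero] at hmem
      exact notMem_of_isUnit hI ((Ne.isUnit hne).map _) hmem
    refine ⟨0, h0, 0, h0, by simp, fun x hx hx' => ?_⟩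
    linarith
  | insert q s hq ih =>
    obtain ⟨lo, hlo, hi, hhi, hcard, hgap⟩ := ih
    obtain ⟨c1, hc1, d1, hd1, hcd, hC1, hD1⟩ := hpts q
    have hc : Commute (∑ i ∈ s, u i) (u q) :=
      Commute.sum_left _ _ _ fun i hi => hcomm i q fun h => hq (h ▸ hi)
    have hadd : ∀ c ∈ specMod J (∑ i ∈ s, u i), ∀ d ∈ specMod J (u q),
        c + d ∈ specMod J (∑ i ∈ insert q s, u i) := fun c hc' d hd => by
      rw [Finset.sum_insert hq, add_comm (u q)]
      exact add_mem_specMod hI (isSelfAdjoint_sum s fun i _ => hu i) (hu q) hc (hprime s q hq) hc' hd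
    refine ⟨lo + c1, hadd _ hlo _ hc1, hi + d1, hadd _ hhi _ hd1, ?_, fun x hx hx' => ?_⟩
    · rw [Finset.card_insert_of_notMem hq]
      push_cast
      linarith
    · by_cases h : x - c1 + L ≤ hi
      · obtain ⟨c, hc', hxc, hcx⟩ := hgap (x - c1) (by linarith) h
        exact ⟨c + c1, hadd _ hc' _ hc1, by linarith, by linarith⟩
      · by_cases h' : x ≤ hi + c1
        · exact ⟨hi + c1, hadd _ hhi _ hc1, h', by linarith⟩
        · exact ⟨hi + d1, hadd _ hhi _ hd1, by linarith, by linarith⟩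

/-- Periodic bumps with disjoint supports, each positive on an interval of length `L` inside every
interval of length `(k + 1) * (L + 1) + L`. -/
lemma exists_bumps (k : ℕ) {L : ℝ} (hL : 0 < L) : ∃ v : Fin k → ℝ → ℝ, (∀ i, Continuous (v i)) ∧
    (∀ i l, i ≠ l → ∀ x, v i x * v l x = 0) ∧
    ∀ i, ∀ lo hi : ℝ, (k + 1 : ℝ) * (L + 1) + L ≤ hi - lo →
      ∃ x, lo ≤ x ∧ x + L ≤ hi ∧ ∀ c, x ≤ c → c ≤ x + L → v i c ≠ 0 := by
  set L' : ℝ := L + 1 with hL'
  let A : Fin k → Set ℝ := fun i => Set.range fun j : ℤ => (((i : ℤ) + k * j : ℤ) : ℝ) * L'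
  let v : Fin k → ℝ → ℝ := fun i x => max 0 (L' / 2 - Metric.infDist x (A i))
  refine ⟨v, fun i => continuous_const.max (continuous_const.sub (Metric.continuous_infDist_pt _)),
    fun i l hil x => ?_, fun i lo hi hlong => ?_⟩
  · by_contra hne
    rw [mul_eq_zero, not_or] at hne
    have hnear : ∀ i, v i x ≠ 0 → ∃ j : ℤ, |x - (((i : ℤ) + k * j : ℤ) : ℝ) * L'| < L' / 2 := by
      intro i hi
      have : Metric.infDist x (A i) < L' / 2 := by
        by_contra h
        exact hi (max_eq_left (by linarith))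
      obtain ⟨_, ⟨j, rfl⟩, hj⟩ := (Metric.infDist_lt_iff (Set.range_nonempty _)).1 this
      exact ⟨j, hj⟩
    obtain ⟨j, hj⟩ := hnear i hne.1
    obtain ⟨j', hj'⟩ := hnear l hne.2
    rw [abs_lt] at hj hj'
    have hd : |((((i : ℤ) + k * j) - ((l : ℤ) + k * j') : ℤ) : ℝ)| < 1 := by
      rw [abs_lt]
      push_cast at hj hj' ⊢
      constructor <;> nlinarith
    have hint : ((i : ℤ) + k * j) - ((l : ℤ) + k * j') = 0 :=
      Int.abs_lt_one_iff.1 (by exact_mod_cast hd)
    have h1 := congrArg (· % (k : ℤ)) (sub_eq_zero.1 hint)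
    simp only [Int.add_mul_emod_self_left] at h1
    rw [Int.emod_eq_of_lt (by omega) (by exact_mod_cast i.isLt),
      Int.emod_eq_of_lt (by omega) (by exact_mod_cast l.isLt)] at h1
    exact hil (Fin.ext (by exact_mod_cast h1))
  · have hk : (0 : ℤ) < k := by exact_mod_cast i.pos
    have hL'0 : 0 < L' := by linarith
    set n₀ : ℤ := ⌈(lo + L / 2) / L'⌉ with hn₀
    set m : ℤ := (i : ℤ) + k * -(((i : ℤ) - n₀) / k) with hm
    have hm1 : n₀ ≤ m ∧ m + 1 ≤ n₀ + k := by
      have := Int.emod_add_mul_ediv ((i : ℤ) - n₀) k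
      have := Int.emod_nonneg ((i : ℤ) - n₀) hk.ne'
      have := Int.emod_lt_of_pos ((i : ℤ) - n₀) hk
      rw [hm, mul_neg]
      omega
    have h1 : lo + L / 2 ≤ (n₀ : ℝ) * L' := (div_le_iff₀ hL'0).1 (Int.le_ceil _)
    have h2 : (n₀ : ℝ) * L' < lo + L / 2 + L' := by
      have := mul_lt_mul_of_pos_right (Int.ceil_lt_add_one ((lo + L / 2) / L')) hL'0
      rwa [add_mul, one_mul, div_mul_cancel₀ _ hL'0.ne'] at this
    have h3 : (n₀ : ℝ) ≤ m := by exact_mod_cast hm1.1
    have h4 : (m : ℝ) + 1 ≤ n₀ + k := by exact_mod_cast hm1.2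
    refine ⟨(m : ℝ) * L' - L / 2, by nlinarith, by nlinarith, fun c hc1 hc2 => ?_⟩
    refine ne_of_gt (lt_max_of_lt_right ?_)
    have hle : Metric.infDist c (A i) ≤ L / 2 := by
      refine (Metric.infDist_le_dist_of_mem
        (show (((i : ℤ) + k * -(((i : ℤ) - n₀) / k) : ℤ) : ℝ) * L' ∈ A i from ⟨_, rfl⟩)).trans ?_
      rw [← hm, Real.dist_eq, abs_le]
      constructor <;> linarith
    linarith

end Full

open Full

/-- Witnesses are copied by `HasCopies`. -/
theorem witnessCopies_of_hasCopies {G : Type*} [CStarAlgebra G] (h : HasCopies G) :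
    WitnessCopies G := by
  intro k N W S
  let X : Fin k ⊕ Fin N ⊕ Fin N →
      FreeAlgebra ℂ ((Fin k ⊕ Fin N ⊕ Fin N) ⊕ (Fin k ⊕ Fin N ⊕ Fin N)) :=
    fun i => FreeAlgebra.ι ℂ (Sum.inl i)
  let R : Option (Fin k) → _ := fun o => o.elim
    (∑ l, X (.inr (.inl l)) * X (.inl (W.idx l)) * X (.inr (.inr l)) - 1)
    fun v => X (.inl v) * X (.inl v)
  obtain ⟨C, -, hC⟩ := copies_of_rel h (Sum.elim W.z (Sum.elim W.b W.c)) R (by
    rintro (_ | v) <;> simp [R, X, W.gen, W.sq])
  obtain ⟨a, -, ha, hS⟩ := hC S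
  refine ⟨⟨fun v => a (.inl v), fun l => a (.inr (.inl l)), fun l => a (.inr (.inr l)), W.idx,
    fun v => by simpa [R, X] using ha (some v),
    sub_eq_zero.1 (by simpa [R, X] using ha none)⟩, ?_⟩
  rintro x ((⟨v, rfl⟩ | ⟨l, rfl⟩) | ⟨l, rfl⟩) <;> exact hS _

set_option maxHeartbeats 400000 in
/-- B3: copies of a witness give one full square-zero element. -/
theorem fullPin : FullPin.{u} := by
  intro G _ hG k N W
  classical
  obtain ⟨n, U, a, g, b, hU, hrel⟩ := exists_core (witnessCopies_of_hasCopies hG) W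
  -- bounded copies of `(U, a, g, b)`
  let X : Option (Fin n ⊕ Fin n ⊕ Fin n) →
      FreeAlgebra ℂ (Option (Fin n ⊕ Fin n ⊕ Fin n) ⊕ Option (Fin n ⊕ Fin n ⊕ Fin n)) :=
    fun i => FreeAlgebra.ι ℂ (Sum.inl i)
  let R : Bool → _ := fun t => cond t (FreeAlgebra.ι ℂ (Sum.inr none) - X none)
    (∑ l, X (some (.inl l)) *
        (X none * X (some (.inr (.inl l))) - X (some (.inr (.inl l))) * X none) *
      X (some (.inr (.inr l))) - 1)
  obtain ⟨C, hC0, hC⟩ := copies_of_rel hG
    (fun o => o.elim U (Sum.elim a (Sum.elim g b))) R (by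
      rintro (_ | _) <;> simp [R, X, hU, hrel])
  set L : ℝ := 2 * C + 1 with hL
  set w : ℝ := 1 / (2 * (n * C ^ 3) + 2) with hw
  have hw0 : 0 < w := by positivity
  set M : ℕ := ⌈((k + 1) * (L + 1) + L) / w⌉₊ with hM
  obtain ⟨f, hf, hfW, hff⟩ := exists_family
    (fun x : Option (Fin n ⊕ Fin n ⊕ Fin n) → G => (∀ i, ‖x i‖ ≤ C) ∧
      ∀ j, FreeAlgebra.lift ℂ (Sum.elim x fun i => star (x i)) (R j) = 0)
    Set.range (fun x => Set.finite_range x)
    (fun S => (hC S).imp fun x hx => ⟨⟨hx.1, hx.2.1⟩, fun y hy s hs => by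
      obtain ⟨i, rfl⟩ := hy; exact hx.2.2 i s hs⟩)
    (entries_finite W).toFinset M
  have hf' : ∀ q, star (f q none) = f q none ∧ ∑ l, f q (some (.inl l)) *
      (f q none * f q (some (.inr (.inl l))) - f q (some (.inr (.inl l))) * f q none) *
        f q (some (.inr (.inr l))) = 1 := by
    intro q
    have h1 := (hf q).2 true
    have h2 := (hf q).2 false
    simp only [R, X, cond_true, cond_false, map_sub, map_sum, map_mul, map_one,
      FreeAlgebra.lift_ι_apply, Sum.elim_inl, Sum.elim_inr] at h1 h2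
    exact ⟨sub_eq_zero.1 h1, sub_eq_zero.1 h2⟩
  -- everything inside the algebra they generate
  let E : Option (Fin M) → Set G := fun o => o.elim W.entries fun q => Set.range (f q)
  have hE : ∀ o o', o ≠ o' → ∀ x ∈ E o, ∀ y ∈ E o', Commute x y ∧ Commute x (star y) := by
    rintro (_ | q) (_ | q') hne x hx y hy
    · exact absurd rfl hne
    · obtain ⟨c1, c2⟩ := hfW q' y hy x ((entries_finite W).mem_toFinset.2 hx)
      exact ⟨c1.symm, (commute_star_comm.2 c2).symm⟩
    · exact hfW q x hx y ((entries_finite W).mem_toFinset.2 hy)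
    · exact hff q q' (fun h => hne (congrArg some h)) x hx y hy
  set XG : Set G := ⋃ o, E o ∪ star (E o) with hXG
  let H : StarSubalgebra ℂ G := (StarAlgebra.adjoin ℂ XG).topologicalClosure
  have : IsClosed (H : Set G) := StarSubalgebra.isClosed_topologicalClosure _
  have hEH : ∀ o, E o ⊆ H := fun o x hx => StarSubalgebra.le_topologicalClosure _
    (StarAlgebra.subset_adjoin ℂ XG (Set.mem_iUnion.2 ⟨o, Or.inl hx⟩))
  let Ent : Option (Fin M) → Set H := fun o => Subtype.val ⁻¹' (E o ∪ star (E o))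
  have hEnt : ∀ o o', o ≠ o' → ∀ x ∈ Ent o, ∀ y ∈ Ent o', Commute x y :=
    fun o o' hne x hx y hy => Subtype.ext (commute_union_star (hE o o' hne) _ hx _ hy)
  have hEs : ∀ o, ∀ x ∈ Ent o, star x ∈ Ent o := fun o x hx => by
    rcases hx with hx | hx
    · exact Or.inr (by simpa using hx)
    · exact Or.inl (by simpa using hx)
  have hprime : ∀ {J : TwoSidedIdeal H}, IsCoatom J → ∀ (o : Option (Fin M)) (x y : H),
      (∀ q ∈ Ent o, Commute x q) → (∀ i, i ≠ o → ∀ p ∈ Ent i, Commute y p) → x * y ∈ J →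
      x ∈ J ∨ y ∈ J := by
    intro J hJ o x y hx hy hxy
    refine prime_lemma hJ (P := ⋃ i ∈ {i | i ≠ o}, Ent i) (Q := Ent o) ?_ (hEs o) ?_ ?_ hx ?_ hxy
    · intro p hp
      obtain ⟨i, hi, hp⟩ := Set.mem_iUnion₂.1 hp
      exact Set.mem_biUnion hi (hEs i p hp)
    · intro p hp q hq
      obtain ⟨i, hi, hp⟩ := Set.mem_iUnion₂.1 hp
      exact hEnt i o hi p hp q hq
    · refine (dense_adjoin_preimage XG).mono (StarAlgebra.adjoin_mono fun p hp => ?_)
      obtain ⟨i, hi⟩ := Set.mem_iUnion.1 hp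
      by_cases hio : i = o
      · exact Or.inr (hio ▸ hi)
      · exact Or.inl (Set.mem_biUnion hio hi)
    · intro p hp
      obtain ⟨i, hi, hp⟩ := Set.mem_iUnion₂.1 hp
      exact hy i hi p hp
  let e : Fin M → Option (Fin n ⊕ Fin n ⊕ Fin n) → H := fun q i => ⟨f q i, hEH (some q) ⟨i, rfl⟩⟩
  let u : Fin M → H := fun q => e q none
  have hen : ∀ q i, ‖e q i‖ ≤ C := fun q i => (hf q).1 i
  have hu : ∀ q, IsSelfAdjoint (u q) := fun q => Subtype.ext (hf' q).1
  have hue : ∀ q, u q ∈ Ent (some q) := fun q => Or.inl ⟨none, rfl⟩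
  let T : Finset (Fin M) → H := fun s => ∑ q ∈ s, u q
  have hT : ∀ s, IsSelfAdjoint (T s) := fun s => isSelfAdjoint_sum s fun q _ => hu q
  have hTc : ∀ s o, (∀ q ∈ s, o ≠ some q) → ∀ p ∈ Ent o, Commute (T s) p := fun s o ho p hp =>
    Commute.sum_left _ _ _ fun q hq => hEnt _ _ (Ne.symm (ho q hq)) _ (hue q) p hp
  -- the spectrum of the total sum is wide without long gaps
  have hwide : ∀ {J : TwoSidedIdeal H}, IsCoatom J →
      ∃ lo ∈ specMod (J : Set H) (T Finset.univ), ∃ hi ∈ specMod (J : Set H) (T Finset.univ),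
        (M : ℝ) * w ≤ hi - lo ∧ ∀ x, lo ≤ x → x + L ≤ hi →
          ∃ c ∈ specMod (J : Set H) (T Finset.univ), x ≤ c ∧ c ≤ x + L := by
    intro J hJ
    have hI := proper_closed hJ
    have := wide_specMod hI u hu
      (fun i j hij => hEnt _ _ (fun h => hij (Option.some_injective _ h)) _ (hue i) _ (hue j))
      (fun s q hq φ ψ _ _ hmem => hprime hJ (some q) _ _
        (fun p hp => (hTc s (some q) (fun i hi h => hq (Option.some_injective _ h ▸ hi)) p hp).cfc_real φ)
        (fun i hi p hp => (hEnt _ _ (Ne.symm hi) _ (hue q) p hp).cfc_real ψ) hmem)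
      (show 2 * C ≤ L by linarith) (by linarith) (w := w) (fun q => ?_) Finset.univ
    · rwa [Finset.card_univ, Fintype.card_fin] at this
    let a' : Fin n → H := fun l => e q (some (.inl l))
    let g' : Fin n → H := fun l => e q (some (.inr (.inl l)))
    let b' : Fin n → H := fun l => e q (some (.inr (.inr l)))
    have h1 : (1 : H) - ∑ l, a' l * (u q * g' l - g' l * u q) * b' l ∈ J := by
      have : ∑ l, a' l * (u q * g' l - g' l * u q) * b' l = 1 := Subtype.ext <| by
        rw [AddSubmonoidClass.coe_finsetSum]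
        exact (hf' q).2
      rw [this, sub_self]
      exact J.zero_mem
    have hsmall : 2 * w * ∑ l, ‖a' l‖ * ‖g' l‖ * ‖b' l‖ < 1 := by
      have hle : ∑ l, ‖a' l‖ * ‖g' l‖ * ‖b' l‖ ≤ n * C ^ 3 := by
        refine (Finset.sum_le_card_nsmul _ _ (C ^ 3) fun l _ => ?_).trans (by simp)
        calc _ ≤ C * C * C := mul_le_mul (mul_le_mul (hen _ _) (hen _ _) (norm_nonneg _) hC0)
              (hen _ _) (norm_nonneg _) (mul_nonneg hC0 hC0)
          _ = C ^ 3 := by ring
      have h2 : w * (2 * (n * C ^ 3) + 2) = 1 := div_mul_cancel₀ _ (by positivity)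
      have h3 := mul_le_mul_of_nonneg_left hle (show (0 : ℝ) ≤ 2 * w by positivity)
      linarith
    have hfar := exists_specMod_far hI (hu q) a' g' b' h1 hw0.le hsmall
    have hb : ∀ c ∈ specMod (J : Set H) (u q), -C ≤ c ∧ c ≤ C := fun c hc =>
      abs_le.1 ((abs_le_of_mem_specMod hI hc).trans (hen q none))
    obtain ⟨c, hc, -⟩ := hfar 0
    obtain ⟨d, hd, hwd⟩ := hfar c
    rcases le_abs'.1 hwd with h | h
    · exact ⟨d, hd, c, hc, by linarith, (hb d hd).1, (hb c hc).2⟩
    · exact ⟨c, hc, d, hd, h, (hb c hc).1, (hb d hd).2⟩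
  obtain ⟨v, hv, hvv, hvpos⟩ := exists_bumps k (show 0 < L by linarith)
  let TT : H := T Finset.univ
  let r : Fin k → H := fun i => cfc (v i) TT
  let Wz : Witness H k N := restrict W H (hEH none)
  have hz : ∀ i, Wz.z i ∈ Ent none := fun i => Or.inl (Or.inl (Or.inl ⟨i, rfl⟩))
  have hrE : ∀ i, ∀ p ∈ Ent none, Commute (r i) p := fun i p hp =>
    (hTc Finset.univ none (fun q _ => (Option.some_ne_none q).symm) p hp).cfc_real _
  have hrr : ∀ i l, i ≠ l → r i * r l = 0 := fun i l hil => by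
    show cfc (v i) TT * cfc (v l) TT = 0
    rw [← cfc_mul (v i) (v l) TT (hv i).continuousOn (hv l).continuousOn,
      funext (hvv i l hil), cfc_const_zero]
  have hout : ∀ {J : TwoSidedIdeal H}, IsCoatom J → ∀ i, r i ∉ J := by
    intro J hJ i
    obtain ⟨lo, -, hi, -, hcard, hgap⟩ := hwide hJ
    obtain ⟨x, hx1, hx2, hxv⟩ :=
      hvpos i lo hi (((div_le_iff₀ hw0).1 (Nat.le_ceil _)).trans hcard)
    obtain ⟨c, hc, hc1, hc2⟩ := hgap x hx1 hx2
    exact hc (v i) (hv i) (hxv c hc1 hc2)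
  -- the full square-zero element
  set x : H := ∑ i, Wz.z i * r i with hx
  have hxx : x * x = 0 := by
    rw [hx, Finset.sum_mul_sum]
    refine Finset.sum_eq_zero fun i _ => Finset.sum_eq_zero fun l _ => ?_
    rw [mul_assoc, ← mul_assoc (r i), (hrE i _ (hz l)).eq, mul_assoc (Wz.z l), ← mul_assoc]
    by_cases hil : i = l
    · rw [hil, Wz.sq, zero_mul]
    · rw [hrr i l hil, mul_zero]
  have hfull : ∀ J : TwoSidedIdeal H, IsCoatom J → ∃ s ∈ ({x} : Set H), s ∉ J := by
    intro J hJ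
    refine ⟨x, rfl, fun hxJ => ?_⟩
    have hI := proper_closed hJ
    have hzJ : ∀ i, Wz.z i ∈ J := by
      intro i
      have h1 : r i * r i * Wz.z i ∈ J := by
        have h := J.mul_mem_right x (r i) hxJ
        rw [hx, Finset.sum_mul, Finset.sum_eq_single i
          (fun l _ hl => by rw [mul_assoc, hrr l i hl, mul_zero]) (by simp), mul_assoc,
          ← ((hrE i _ (hz i)).mul_left (hrE i _ (hz i))).eq] at h
        exact h
      rcases hprime hJ none _ _ (fun q hq => (hrE i q hq).mul_left (hrE i q hq))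
        (fun o ho p hp => hEnt _ _ (Ne.symm ho) _ (hz i) p hp) h1 with h | h
      · exact absurd (mem_of_mul_self_mem hI (cfc_predicate _ _) h) (hout hJ i)
      · exact h
    exact one_notMem_of_coatom hJ (Wz.gen ▸ J.finsetSum_mem _ _ fun l _ =>
      J.mul_mem_right _ _ (J.mul_mem_left _ _ (hzJ (Wz.idx l))))
  obtain ⟨N', a₁, s, b₁, hs, hsum⟩ := exists_sum_eq_one {x} hfull
  refine ⟨N', ⟨⟨fun _ => (x : G), fun l => a₁ l, fun l => b₁ l, fun _ => 0,
    fun _ => congrArg Subtype.val hxx, ?_⟩⟩⟩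
  have := congrArg Subtype.val hsum.symm
  simp only [Set.mem_singleton_iff] at hs
  simp only [hs] at this
  push_cast at this
  exact this

end Vale.Agent.P101
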