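import Mathlib

/-!
P101 B2, basic part: maximal two-sided ideals, closedness, and the prime lemma.
-/

namespace Vale.Agent.P101

/-- An ideal without the unit is contained in a maximal one. -/
theorem exists_coatom_of_one_notMem {G : Type*} [Ring G] (I : TwoSidedIdeal G) (hI : (1 : G) ∉ I) :
    ∃ J : TwoSidedIdeal G, I ≤ J ∧ IsCoatom J := by
  have hub : ∀ c ⊆ {K : TwoSidedIdeal G | (1 : G) ∉ K}, IsChain (· ≤ ·) c → ∀ y ∈ c,
      ∃ ub ∈ {K : TwoSidedIdeal G | (1 : G) ∉ K}, ∀ z ∈ c, z ≤ ub := by
    intro c hc hchain y hy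
    refine ⟨TwoSidedIdeal.mk' {x | ∃ K ∈ c, x ∈ K} ⟨y, hy, y.zero_mem⟩ ?_ ?_ ?_ ?_, ?_, ?_⟩
    · rintro a b ⟨K, hK, ha⟩ ⟨L, hL, hb⟩
      rcases hchain.total hK hL with h | h
      · exact ⟨L, hL, L.add_mem (h ha) hb⟩
      · exact ⟨K, hK, K.add_mem ha (h hb)⟩
    · rintro a ⟨K, hK, ha⟩
      exact ⟨K, hK, K.neg_mem ha⟩
    · rintro a b ⟨K, hK, hb⟩
      exact ⟨K, hK, K.mul_mem_left a b hb⟩
    · rintro a b ⟨K, hK, ha⟩
      exact ⟨K, hK, K.mul_mem_right a b ha⟩
    · intro h
      rw [TwoSidedIdeal.mem_mk'] at h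
      obtain ⟨K, hK, h1⟩ := h
      exact hc hK h1
    · intro K hK x hx
      rw [TwoSidedIdeal.mem_mk']
      exact ⟨K, hK, hx⟩
  obtain ⟨J, hIJ, hJ⟩ := zorn_le_nonempty₀ _ hub I hI
  refine ⟨J, hIJ, fun h => hJ.prop (TwoSidedIdeal.one_mem_iff _ |>.2 h), fun K hK => ?_⟩
  by_contra hne
  have h1 : (1 : G) ∉ K := fun h => hne (TwoSidedIdeal.one_mem_iff _ |>.1 h)
  exact hK.not_ge (hJ.le_of_ge h1 hK.le)

theorem one_notMem_of_coatom {G : Type*} [Ring G] {J : TwoSidedIdeal G} (hJ : IsCoatom J) :
    (1 : G) ∉ J :=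
  fun h => hJ.1 (TwoSidedIdeal.one_mem_iff _ |>.1 h)

theorem nontrivial_of_coatom {G : Type*} [Ring G] {J : TwoSidedIdeal G} (hJ : IsCoatom J) :
    Nontrivial G :=
  ⟨⟨1, 0, fun h => one_notMem_of_coatom hJ (by rw [h]; exact J.zero_mem)⟩⟩

/-- Maximal two-sided ideals of a complete normed ring are closed. -/
theorem isClosed_of_coatom {G : Type*} [NormedRing G] [CompleteSpace G] {J : TwoSidedIdeal G}
    (hJ : IsCoatom J) : IsClosed (J : Set G) := by
  let C : TwoSidedIdeal G := TwoSidedIdeal.mk' (closure (J : Set G)) (subset_closure J.zero_mem)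
    (fun ha hb => map_mem_closure₂ continuous_add ha hb fun _ h _ h' => J.add_mem h h')
    (fun ha => map_mem_closure continuous_neg ha fun _ h => J.neg_mem h)
    (fun {a} _ hb => map_mem_closure (continuous_const_mul a) hb fun _ h => J.mul_mem_left a _ h)
    (fun {a b} ha => map_mem_closure (f := fun x => x * b) (continuous_mul_const b) ha fun _ h => J.mul_mem_right _ b h)
  have hC : ∀ x, x ∈ C ↔ x ∈ closure (J : Set G) := fun x => TwoSidedIdeal.mem_mk' ..
  have h1 : (1 : G) ∉ C := by
    intro h
    obtain ⟨b, hb, hd⟩ := Metric.mem_closure_iff.1 ((hC 1).1 h) 1 zero_lt_one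
    rw [dist_eq_norm] at hd
    have hu := J.mul_mem_left (↑(Units.oneSub (1 - b) hd)⁻¹) b hb
    have he : ((Units.oneSub (1 - b) hd : Gˣ) : G) = b := by simp
    have h2 := (Units.oneSub (1 - b) hd).inv_mul
    rw [he] at h2
    rw [h2] at hu
    exact one_notMem_of_coatom hJ hu
  have hle : J ≤ C := fun x hx => (hC x).2 (subset_closure hx)
  have heq : J = C := by
    rcases eq_or_lt_of_le hle with h | h
    · exact h
    · exact absurd (TwoSidedIdeal.one_mem_iff _ |>.2 (hJ.2 C h)) h1
  refine closure_subset_iff_isClosed.1 fun x hx => ?_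
  have := (hC x).2 hx
  rwa [← heq] at this

/-- Primeness: if `a G b ⊆ J` then `a ∈ J` or `b ∈ J`. -/
theorem prime_of_coatom {G : Type*} [Ring G] {J : TwoSidedIdeal G} (hJ : IsCoatom J) {a b : G}
    (h : ∀ g, a * g * b ∈ J) : a ∈ J ∨ b ∈ J := by
  let K : TwoSidedIdeal G := TwoSidedIdeal.mk' {x | ∀ g, x * g * b ∈ J}
    (fun g => by simp [J.zero_mem])
    (fun {x y} hx hy g => by simpa [add_mul] using J.add_mem (hx g) (hy g))
    (fun {x} hx g => by simpa [neg_mul] using J.neg_mem (hx g))
    (fun {r x} hx g => by simpa [mul_assoc] using J.mul_mem_left r _ (hx g))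
    (fun {x r} hx g => by simpa [mul_assoc] using hx (r * g))
  have hK : ∀ x, x ∈ K ↔ ∀ g, x * g * b ∈ J := fun x => TwoSidedIdeal.mem_mk' ..
  have hle : J ≤ K := fun x hx => (hK x).2 fun g => J.mul_mem_right _ b (J.mul_mem_right x g hx)
  rcases eq_or_lt_of_le hle with h' | h'
  · exact Or.inl (h'.symm ▸ (hK a).2 h)
  · right
    have := (hK 1).1 (TwoSidedIdeal.one_mem_iff _ |>.2 (hJ.2 K h')) 1
    simpa using this

/-- Prime lemma for commuting generating sets: if the whole algebra is the closure of what is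
generated by `S` and `T`, `S` commutes with `T`, `a` commutes with `T`, `b` commutes with `S`, and
`a * b ∈ J`, then `a ∈ J` or `b ∈ J`. -/
theorem prime_of_commute {R G : Type*} [CommSemiring R] [NormedRing G] [CompleteSpace G]
    [Algebra R G] {J : TwoSidedIdeal G} (hJ : IsCoatom J) {S T : Set G} {a b : G}
    (hST : ∀ s ∈ S, ∀ t ∈ T, Commute s t) (ha : ∀ t ∈ T, Commute a t)
    (hb : ∀ s ∈ S, Commute b s) (hgen : closure (Algebra.adjoin R (S ∪ T) : Set G) = Set.univ)
    (hab : a * b ∈ J) : a ∈ J ∨ b ∈ J := by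
  classical
  set A := Submonoid.closure S
  set B := Submonoid.closure T
  have key : ∀ q ∈ B, ∀ p ∈ A, a * (q * p) * b ∈ J := by
    intro q hq p hp
    have h1 : Commute a q := by
      induction hq using Submonoid.closure_induction with
      | mem t ht => exact ha t ht
      | one => exact Commute.one_right a
      | mul x y _ _ hx hy => exact hx.mul_right hy
    have h2 : Commute b p := by
      induction hp using Submonoid.closure_induction with
      | mem s hs => exact hb s hs
      | one => exact Commute.one_right b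
      | mul x y _ _ hx hy => exact hx.mul_right hy
    have : a * (q * p) * b = q * (a * b) * p := by
      calc a * (q * p) * b = (a * q) * (p * b) := by simp [mul_assoc]
        _ = (q * a) * (b * p) := by rw [h1.eq, ← h2.eq]
        _ = q * (a * b) * p := by simp [mul_assoc]
    rw [this]
    exact J.mul_mem_right _ p (J.mul_mem_left q _ hab)
  have word : ∀ w ∈ Submonoid.closure (S ∪ T), ∃ q ∈ B, ∃ p ∈ A, w = q * p := by
    intro w hw
    induction hw using Submonoid.closure_induction_right with
    | one => exact ⟨1, one_mem _, 1, one_mem _, by simp⟩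
    | mul_right x _ y hy hx =>
      obtain ⟨q, hq, p, hp, rfl⟩ := hx
      rcases hy with hy | hy
      · exact ⟨q, hq, p * y, mul_mem hp (Submonoid.subset_closure hy), mul_assoc ..⟩
      · have h3 : Commute p y := by
          clear * - hp hST hy
          induction hp using Submonoid.closure_induction with
          | mem s hs => exact hST s hs y hy
          | one => exact Commute.one_left y
          | mul u v _ _ hu hv => exact hu.mul_left hv
        exact ⟨q * y, mul_mem hq (Submonoid.subset_closure hy), p, hp, by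
          rw [mul_assoc, h3.eq, ← mul_assoc]⟩
  refine prime_of_coatom hJ fun g => ?_
  have hsub : (Algebra.adjoin R (S ∪ T) : Set G) ⊆ {g | a * g * b ∈ J} := by
    intro x hx
    have hx' : x ∈ Submodule.span R (Submonoid.closure (S ∪ T) : Set G) := by
      rwa [← Algebra.adjoin_eq_span]
    clear hx
    induction hx' using Submodule.span_induction with
    | mem w hw =>
      obtain ⟨q, hq, p, hp, rfl⟩ := word w hw
      exact key q hq p hp
    | zero => simp [J.zero_mem]
    | add u v _ _ hu hv => simpa only [Set.mem_ofPred_eq, mul_add, add_mul] using J.add_mem hu hv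
    | smul r u _ hu =>
      have := J.mul_mem_left (algebraMap R G r) _ hu
      have h4 : a * (r • u) * b = algebraMap R G r * (a * u * b) := by
        rw [mul_smul_comm, smul_mul_assoc, Algebra.smul_def]
      show a * (r • u) * b ∈ J
      rwa [h4]
  have hcl : IsClosed {g | a * g * b ∈ J} :=
    (isClosed_of_coatom hJ).preimage (by fun_prop)
  exact closure_minimal hsub hcl (by rw [hgen]; trivial)

end Vale.Agent.P101
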