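import Vale.Agent.P101.Pins
import Vale.Agent.P101.IdealBasic

/-!
P101 B2: the spectrum modulo a maximal ideal, and square-zero witnesses without characters.
-/

namespace Vale.Agent.P101

open ComplexStarModule

universe u

variable {G : Type*} [CStarAlgebra G]

theorem spectrum_subset_Icc (h : G) : spectrum ℝ h ⊆ Set.Icc (-‖h‖) ‖h‖ := by
  rcases subsingleton_or_nontrivial G with hs | hn
  · simp [spectrum.of_subsingleton]
  · intro c hc
    simpa [Set.mem_Icc, abs_le] using spectrum.norm_le_norm_of_mem hc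

theorem cfc_mul_mem {J : TwoSidedIdeal G} {f g : ℝ → ℝ} {h : G} (hf : Continuous f)
    (hg : Continuous g) (hgJ : cfc g h ∈ J) : cfc (fun x => f x * g x) h ∈ J := by
  rw [cfc_mul f g h hf.continuousOn hg.continuousOn]
  exact J.mul_mem_left _ _ hgJ

/-- A function vanishing on the spectrum modulo `J` lands in `J`. -/
theorem cfc_mem_of_eq_zero_on_lam {J : TwoSidedIdeal G} (hJ : IsCoatom J) (h : G) {g : ℝ → ℝ}
    (hg : Continuous g) (h0 : ∀ c ∈ Lam J h, g c = 0) : cfc g h ∈ J := by
  classical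
  refine (isClosed_of_coatom hJ).closure_subset (Metric.mem_closure_iff.2 fun ε hε => ?_)
  set K := Set.Icc (-‖h‖) ‖h‖ ∩ {c | ε / 2 ≤ |g c|} with hKdef
  have hKc : IsCompact K :=
    isCompact_Icc.inter_right (isClosed_le continuous_const hg.abs)
  have hex : ∀ c : K, ∃ f : ℝ → ℝ, Continuous f ∧ f c ≠ 0 ∧ cfc f h ∈ J := by
    rintro ⟨c, hc⟩
    have : c ∉ Lam J h := by
      intro hc'
      have := hc.2
      simp only [Set.mem_ofPred_eq, h0 c hc', abs_zero] at this
      linarith
    simpa [Lam, and_assoc] using this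
  choose f hfc hf0 hfJ using hex
  obtain ⟨t, ht⟩ := hKc.elim_finite_subcover (fun c : K => {x | f c x ≠ 0})
    (fun c => isOpen_ne_fun (hfc c) continuous_const)
    (fun c hc => Set.mem_iUnion.2 ⟨⟨c, hc⟩, hf0 ⟨c, hc⟩⟩)
  set φ : ℝ → ℝ := fun x => ∑ c ∈ t, f c x * f c x with hφdef
  have hφc : Continuous φ := continuous_finsetSum _ fun c _ => (hfc c).mul (hfc c)
  have hφnn : ∀ x, 0 ≤ φ x := fun x => Finset.sum_nonneg fun c _ => mul_self_nonneg _
  have hφpos : ∀ x ∈ K, 0 < φ x := fun x hx => by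
    obtain ⟨c, hc, hx'⟩ := Set.mem_iUnion₂.1 (ht hx)
    exact Finset.sum_pos' (fun _ _ => mul_self_nonneg _) ⟨c, hc, mul_self_pos.2 hx'⟩
  have hφJ : cfc φ h ∈ J := by
    rw [show φ = ∑ c ∈ t, fun x => f c x * f c x by ext x; simp [hφdef],
      cfc_sum (fun c x => f c x * f c x) h t (fun c _ => ((hfc c).mul (hfc c)).continuousOn)]
    exact J.finsetSum_mem _ _ fun c _ => cfc_mul_mem (hfc c) (hfc c) (hfJ c)
  obtain ⟨m, hm, hmK⟩ : ∃ m : ℝ, 0 < m ∧ ∀ x ∈ K, m ≤ φ x := by
    rcases K.eq_empty_or_nonempty with he | hne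
    · exact ⟨1, one_pos, by simp [he]⟩
    · obtain ⟨x, hx, hmin⟩ := hKc.exists_isMinOn hne hφc.continuousOn
      exact ⟨φ x, hφpos x hx, fun y hy => hmin hy⟩
  set u : ℝ → ℝ := fun x => (g x / max (φ x) m) * φ x with hudef
  have hψ : Continuous fun x => g x / max (φ x) m :=
    hg.div (hφc.max continuous_const) fun x => ne_of_gt (lt_of_lt_of_le hm (le_max_right _ _))
  refine ⟨cfc u h, cfc_mul_mem hψ hφc hφJ, ?_⟩
  rw [dist_eq_norm]
  by_cases hp : IsSelfAdjoint h
  · rw [← cfc_sub g u h hg.continuousOn (hψ.mul hφc).continuousOn]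
    refine lt_of_le_of_lt (norm_cfc_le (c := ε / 2) (by linarith) fun x hx => ?_) (by linarith)
    have hmax : 0 < max (φ x) m := lt_of_lt_of_le hm (le_max_right _ _)
    have hle : φ x / max (φ x) m ≤ 1 := (div_le_one hmax).2 (le_max_left _ _)
    have hge : 0 ≤ φ x / max (φ x) m := div_nonneg (hφnn x) hmax.le
    have heq : g x - u x = g x * (1 - φ x / max (φ x) m) := by rw [hudef]; ring
    rw [Real.norm_eq_abs, heq, abs_mul, abs_of_nonneg (show 0 ≤ 1 - φ x / max (φ x) m by linarith)]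
    by_cases hxK : ε / 2 ≤ |g x|
    · have hxK' : x ∈ K := ⟨spectrum_subset_Icc h hx, hxK⟩
      rw [max_eq_left (hmK x hxK'), div_self (hφpos x hxK').ne', sub_self, mul_zero]
      linarith
    · push Not at hxK
      calc |g x| * (1 - φ x / max (φ x) m) ≤ |g x| * 1 := by
            exact mul_le_mul_of_nonneg_left (by linarith) (abs_nonneg _)
        _ ≤ ε / 2 := by linarith
  · simp [cfc_apply_of_not_predicate h hp, hε]

theorem lam_nonempty {J : TwoSidedIdeal G} (hJ : IsCoatom J) {h : G} (hh : IsSelfAdjoint h) :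
    (Lam J h).Nonempty := by
  by_contra he
  have := cfc_mem_of_eq_zero_on_lam hJ h (g := fun _ => (1 : ℝ)) continuous_const
    fun c hc => (he ⟨c, hc⟩).elim
  rw [cfc_const_one ℝ h] at this
  exact one_notMem_of_coatom hJ this

theorem lam_subset_Icc (J : TwoSidedIdeal G) (h : G) : Lam J h ⊆ Set.Icc (-‖h‖) ‖h‖ := by
  intro c hc
  by_contra hcI
  have hne : (Set.Icc (-‖h‖) ‖h‖).Nonempty := ⟨0, by simp⟩
  refine hc (fun x => Metric.infDist x (Set.Icc (-‖h‖) ‖h‖)) (Metric.continuous_infDist_pt _) ?_ ?_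
  · exact ne_of_gt ((isClosed_Icc.notMem_iff_infDist_pos hne).1 hcI)
  · rw [cfc_congr (g := fun _ => (0 : ℝ)) fun x hx =>
      Metric.infDist_zero_of_mem (spectrum_subset_Icc h hx)]
    simp [J.zero_mem]

/-- Modulo `J`, `h` is within `(b - a) / 2` of the midpoint of an interval containing `Lam J h`. -/
theorem exists_mem_norm_sub_le {J : TwoSidedIdeal G} (hJ : IsCoatom J) {h : G}
    (hh : IsSelfAdjoint h) {a b : ℝ} (hab : Lam J h ⊆ Set.Icc a b) :
    ∃ j ∈ J, ‖h - algebraMap ℝ G ((a + b) / 2) - j‖ ≤ (b - a) / 2 := by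
  obtain ⟨c, hc⟩ := lam_nonempty hJ hh
  have hle : a ≤ b := (hab hc).1.trans (hab hc).2
  let p : ℝ → ℝ := fun x => max a (min b x)
  have hp : Continuous p := continuous_const.max (continuous_const.min continuous_id)
  refine ⟨cfc (fun x => x - p x) h, cfc_mem_of_eq_zero_on_lam hJ h (continuous_id.sub hp) ?_, ?_⟩
  · intro x hx
    simp [p, min_eq_right (hab hx).2, max_eq_right (hab hx).1]
  · have e : h - algebraMap ℝ G ((a + b) / 2) - cfc (fun x => x - p x) h =
        cfc (fun x => p x - (a + b) / 2) h := by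
      rw [cfc_sub p (fun _ => (a + b) / 2) h, cfc_const ((a + b) / 2) h,
        cfc_sub (fun x : ℝ => x) p h, cfc_id' ℝ h]
      abel
    rw [e]
    refine norm_cfc_le (by linarith) fun x _ => ?_
    have h1 : a ≤ p x := le_max_left _ _
    have h2 : p x ≤ b := max_le hle (min_le_left _ _)
    rw [Real.norm_eq_abs, abs_le]
    constructor <;> linarith

theorem lamPin : LamPin.{u} := by
  intro G _ J hJ
  refine ⟨isClosed_of_coatom hJ, fun h hh => ⟨lam_nonempty hJ hh, lam_subset_Icc J h, ?_⟩⟩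
  intro a b hab δ hδ
  obtain ⟨j, hj, hle⟩ := exists_mem_norm_sub_le hJ hh hab
  exact ⟨j, hj, hle.trans (by linarith)⟩

/-- If a maximal ideal contains all square-zero elements, every element is scalar modulo it. -/
theorem exists_scalar_of_sq_zero_mem {J : TwoSidedIdeal G} (hJ : IsCoatom J)
    (hz : ∀ z : G, z * z = 0 → z ∈ J) {h : G} (hh : IsSelfAdjoint h) :
    ∃ c : ℝ, h - algebraMap ℝ G c ∈ J := by
  obtain ⟨c, hc⟩ := lam_nonempty hJ hh
  refine ⟨c, ?_⟩
  have huniq : ∀ d ∈ Lam J h, d = c := by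
    intro d hd
    by_contra hne
    set r := |d - c| / 2 with hr
    have hr0 : 0 < r := by rw [hr]; exact half_pos (abs_pos.2 (sub_ne_zero.2 hne))
    let f : ℝ → ℝ := fun x => max 0 (r - |x - c|)
    let k : ℝ → ℝ := fun x => max 0 (r - |x - d|)
    have hf : Continuous f := by fun_prop
    have hk : Continuous k := by fun_prop
    have hkf : cfc k h * cfc f h = 0 := by
      rw [← cfc_mul k f h hk.continuousOn hf.continuousOn,
        cfc_congr (g := fun _ => (0 : ℝ)) fun x _ => ?_, cfc_const_zero]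
      rcases le_or_gt r |x - c| with h1 | h1
      · simp [f, max_eq_left (sub_nonpos.2 h1)]
      · have h3 := abs_sub_le d x c
        rw [abs_sub_comm d x] at h3
        simp [k, max_eq_left (sub_nonpos.2 (show r ≤ |x - d| by linarith))]
    rcases prime_of_coatom hJ (a := cfc f h) (b := cfc k h) fun g => hz _ (by
      calc cfc f h * g * cfc k h * (cfc f h * g * cfc k h)
          = cfc f h * g * (cfc k h * cfc f h) * g * cfc k h := by simp [mul_assoc]
        _ = 0 := by simp [hkf]) with h1 | h1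
    · exact hc f hf (by simp [f, hr0.le]; linarith) h1
    · exact hd k hk (by simp [k, hr0.le]; linarith) h1
  have := cfc_mem_of_eq_zero_on_lam hJ h (g := fun x => x - c) (by fun_prop)
    fun d hd => by simp [huniq d hd]
  rwa [cfc_sub (fun x : ℝ => x) (fun _ => c) h, cfc_id' ℝ h, cfc_const c h] at this

/-- A maximal ideal with scalar quotient gives a character. -/
theorem exists_character {J : TwoSidedIdeal G} (hJ : IsCoatom J)
    (hs : ∀ h : G, IsSelfAdjoint h → ∃ c : ℝ, h - algebraMap ℝ G c ∈ J) :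
    Nonempty (G →⋆ₐ[ℂ] ℂ) := by
  classical
  have hreal : ∀ (c : ℝ), algebraMap ℝ G c = algebraMap ℂ G (c : ℂ) := fun c =>
    IsScalarTower.algebraMap_apply ℝ ℂ G c
  have huniq : ∀ (x : G) (a b : ℂ), x - algebraMap ℂ G a ∈ J → x - algebraMap ℂ G b ∈ J →
      a = b := by
    intro x a b ha hb
    by_contra hne
    have h1 := J.sub_mem hb ha
    rw [show x - algebraMap ℂ G b - (x - algebraMap ℂ G a) = algebraMap ℂ G (a - b) by
      rw [map_sub]; abel] at h1
    have h2 := J.mul_mem_left (algebraMap ℂ G (a - b)⁻¹) _ h1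
    rw [← map_mul, inv_mul_cancel₀ (sub_ne_zero.2 hne), map_one] at h2
    exact one_notMem_of_coatom hJ h2
  have hex : ∀ x : G, ∃ c : ℂ, x - algebraMap ℂ G c ∈ J ∧
      star x - algebraMap ℂ G (star c) ∈ J := by
    intro x
    obtain ⟨c, hc⟩ := hs _ (realPart x).2
    obtain ⟨d, hd⟩ := hs _ (imaginaryPart x).2
    rw [hreal] at hc hd
    have hx := realPart_add_I_smul_imaginaryPart x
    refine ⟨c + Complex.I * d, ?_, ?_⟩
    · have := J.add_mem hc (J.mul_mem_left (algebraMap ℂ G Complex.I) _ hd)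
      convert this using 1
      conv_lhs => rw [← hx]
      simp only [Algebra.smul_def, map_add, map_mul, mul_sub]
      abel
    · have := J.sub_mem hc (J.mul_mem_left (algebraMap ℂ G Complex.I) _ hd)
      convert this using 1
      conv_lhs => rw [← hx]
      rw [star_add, star_smul, (realPart x).2.star_eq, (imaginaryPart x).2.star_eq]
      simp only [Algebra.smul_def, map_add, map_mul, mul_sub, Complex.star_def, Complex.conj_I,
        Complex.conj_ofReal, map_neg, neg_mul]
      abel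
  choose χ hχ hχs using hex
  refine ⟨{ toFun := χ, map_one' := huniq 1 _ _ (hχ 1) (by simp [J.zero_mem]),
            map_mul' := fun x y => huniq _ _ _ (hχ _) ?_,
            map_zero' := huniq 0 _ _ (hχ 0) (by simp [J.zero_mem]),
            map_add' := fun x y => huniq _ _ _ (hχ _) ?_,
            commutes' := fun r => huniq _ _ _ (hχ _) (by simp [J.zero_mem]),
            map_star' := fun x => huniq _ _ _ (hχ _) (hχs x) }⟩
  · have := J.add_mem (J.mul_mem_right _ y (hχ x))
      (J.mul_mem_left (algebraMap ℂ G (χ x)) _ (hχ y))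
    convert this using 1
    simp only [map_mul, sub_mul, mul_sub]
    abel
  · have := J.add_mem (hχ x) (hχ y)
    convert this using 1
    rw [map_add]
    abel

theorem noCharPin : NoCharPin.{u} := by
  intro G _ hG
  classical
  let S : Set G := {x | ∃ N, ∃ b z c : Fin N → G, (∀ i, z i * z i = 0) ∧ ∑ i, b i * z i * c i = x}
  let I : TwoSidedIdeal G := TwoSidedIdeal.mk' S ⟨0, Fin.elim0, Fin.elim0, Fin.elim0, by simp, by simp⟩
    (by
      rintro x y ⟨N, b, z, c, hz, rfl⟩ ⟨M, b', z', c', hz', rfl⟩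
      refine ⟨N + M, Fin.append b b', Fin.append z z', Fin.append c c', fun i => ?_,
        by simp [Fin.sum_univ_add]⟩
      refine Fin.addCases (fun i => ?_) (fun i => ?_) i <;> simp [hz, hz'])
    (by
      rintro x ⟨N, b, z, c, hz, rfl⟩
      exact ⟨N, fun i => -b i, z, c, hz, by simp⟩)
    (by
      rintro a x ⟨N, b, z, c, hz, rfl⟩
      exact ⟨N, fun i => a * b i, z, c, hz, by simp [Finset.mul_sum, mul_assoc]⟩)
    (by
      rintro x a ⟨N, b, z, c, hz, rfl⟩
      exact ⟨N, b, z, fun i => c i * a, hz, by simp [Finset.sum_mul, mul_assoc]⟩)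
  have hI : ∀ x, x ∈ I ↔ x ∈ S := fun x => TwoSidedIdeal.mem_mk' ..
  by_cases h1 : (1 : G) ∈ I
  · obtain ⟨N, b, z, c, hz, hsum⟩ := (hI 1).1 h1
    exact ⟨N, N, ⟨⟨z, b, c, id, hz, hsum⟩⟩⟩
  · exfalso
    obtain ⟨J, hIJ, hJ⟩ := exists_coatom_of_one_notMem I h1
    have hz : ∀ z : G, z * z = 0 → z ∈ J := fun z hz =>
      hIJ ((hI z).2 ⟨1, fun _ => 1, fun _ => z, fun _ => 1, fun _ => hz, by simp⟩)
    obtain ⟨χ⟩ := exists_character hJ fun h hh => exists_scalar_of_sq_zero_mem hJ hz hh
    exact hG.false χ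

end Vale.Agent.P101
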