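import Vale.Agent.P101.Pair

/-!
P101, L5: the iterated pairing over finitely many sites.
-/

namespace Vale.Agent.P101

variable {G : Type*} [CStarAlgebra G] [PartialOrder G] [StarOrderedRing G]

/-- The node over the first `m` sites, with its gate. -/
noncomputable def tree : {m : ℕ} → (Fin m → G) → (Fin m → G) → G × G
  | 0, _, _ => (0, 0)
  | m + 1, x, p =>
    let T := tree (fun i : Fin m => x i.succ) (fun i => p i.succ)
    (nodeX (x 0) (p 0) T.1 T.2, nodeP (x 0) (p 0) T.1 T.2)

/-- Pairwise commuting sites. -/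
structure Sites {m : ℕ} (x p : Fin m → G) : Prop where
  gated : ∀ i, Gated (x i) (p i)
  cx : ∀ i j, i ≠ j → Commute (x i) (x j)
  cx' : ∀ i j, i ≠ j → Commute (x i) (star (x j))
  cpx : ∀ i j, i ≠ j → Commute (p i) (x j)
  cp : ∀ i j, i ≠ j → Commute (p i) (p j)

theorem Sites.tail {m : ℕ} {x p : Fin (m + 1) → G} (h : Sites x p) :
    Sites (fun i : Fin m => x i.succ) (fun i => p i.succ) where
  gated i := h.gated _
  cx i j hij := h.cx _ _ (by simpa using hij)
  cx' i j hij := h.cx' _ _ (by simpa using hij)
  cpx i j hij := h.cpx _ _ (by simpa using hij)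
  cp i j hij := h.cp _ _ (by simpa using hij)

theorem Sites.cpx' {m : ℕ} {x p : Fin m → G} (h : Sites x p) {i j : Fin m} (hij : i ≠ j) :
    Commute (p i) (star (x j)) := by
  have := (h.cpx i j hij).star_star
  rwa [(h.gated i).self] at this

/-- The three invariants of the iterated pairing. -/
theorem tree_spec {m : ℕ} : ∀ {x p : Fin m → G}, Sites x p →
    Gated (tree x p).1 (tree x p).2 ∧
    (∀ g : G, (∀ k, Commute (x k) g ∧ Commute (star (x k)) g ∧ Commute (p k) g) →
      Commute (tree x p).1 g ∧ Commute (star (tree x p).1) g ∧ Commute (tree x p).2 g) ∧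
    (∀ i, ∀ c : G, c * sumSq (x i) = c →
      (∀ k, Commute (x k) c ∧ Commute (star (x k)) c ∧ Commute (p k) c) →
      (tree x p).2 * c = c) ∧
    ∀ (E : G) (S : Finset (Fin m)), S.Nonempty →
      (∀ i ∈ S, p i * E = E ∧ star (x i) * x i * E = E) → (∀ i ∉ S, p i * E = 0) →
      (tree x p).2 * E = E ∧ star (tree x p).1 * (tree x p).1 * E = E := by
  induction m with
  | zero =>
    intro x p _
    refine ⟨?_, fun g _ => ⟨Commute.zero_left g, by simp [tree], Commute.zero_left g⟩,
      fun i => i.elim0, fun E S hS => ?_⟩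
    · exact { sq := mul_zero _, comm := Commute.zero_left _, nonneg := le_rfl,
              le_one := zero_le_one, norm_le := by simp [tree, zero_le_one],
              absorb := by simp [tree] }
    · exact absurd hS (by simp [Finset.eq_empty_of_isEmpty S])
  | succ m ih =>
    intro x p h
    obtain ⟨hg, hc, hinv, htop⟩ := ih h.tail
    set X := (tree (fun i : Fin m => x i.succ) (fun i => p i.succ)).1
    set P := (tree (fun i : Fin m => x i.succ) (fun i => p i.succ)).2
    have e0 : ∀ k : Fin m, k.succ ≠ 0 := fun k => Fin.succ_ne_zero k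
    have cc := hc (x 0) (fun k => ⟨h.cx _ _ (e0 k), by simpa using (h.cx' 0 k.succ (e0 k).symm).symm,
      h.cpx _ _ (e0 k)⟩)
    have cp0 := hc (p 0) (fun k => ⟨(h.cpx 0 k.succ (e0 k).symm).symm,
      (h.cpx' (e0 k).symm).symm, h.cp _ _ (e0 k)⟩)
    have two : Two (x 0) (p 0) X P :=
      { g1 := h.gated 0, g2 := hg, c12 := cc.1.symm, c12' := cc.2.1.symm,
        h12 := cp0.1.symm, h21 := cc.2.2, hp := cp0.2.2.symm }
    refine ⟨two.node_gated, fun g hgk => ?_, fun i c hi hck => ?_, fun E S hS h1 h0 => ?_⟩
    · have t := hc g (fun k => hgk k.succ)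
      exact node_commute (hgk 0).1 (hgk 0).2.1 t.1 t.2.1 (hgk 0).2.2 t.2.2 two
    · have t := hc c (fun k => hck k.succ)
      cases i using Fin.cases with
      | zero =>
        exact two.head hi (hck 0).1.symm (hck 0).2.1.symm t.1.symm t.2.1.symm
          (hck 0).2.2.symm t.2.2.symm
      | succ i =>
        have hP : P * c = c := hinv i c hi (fun k => hck k.succ)
        exact two.tail (t.2.2.eq.symm.trans hP) (hck 0).1.symm (hck 0).2.1.symm t.1.symm t.2.1.symm
          (hck 0).2.2.symm t.2.2.symm
    · by_cases hz : (0 : Fin (m + 1)) ∈ S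
      · exact two.top_head (h1 0 hz).1 (h1 0 hz).2
      · obtain ⟨j, hj⟩ := hS
        set S' : Finset (Fin m) := Finset.univ.filter (fun k => k.succ ∈ S) with hS'
        have hne : S'.Nonempty := by
          cases j using Fin.cases with
          | zero => exact absurd hj hz
          | succ j => exact ⟨j, by simp [hS', hj]⟩
        have t := htop E S' hne (fun k hk => h1 k.succ (by simpa [hS'] using hk))
          (fun k hk => h0 k.succ (by simpa [hS'] using hk))
        exact two.top_tail (h0 0 hz) t.1 t.2

end Vale.Agent.P101
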