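import Vale.Agent.P101.Pins
import Vale.Agent.P101.DimDrop.Main

/-!
P101: commuting copies of Z(2,3): from one pair with the dimension drop relations in an algebra
with copies, countably many unital homomorphisms of Z(2,3) with pairwise commuting ranges.
-/

namespace Vale.Agent.P101

universe u

/-- A copy of the relations commuting, with adjoints, with a given finite set. -/
theorem exists_drop_copy {F : Type u} [CStarAlgebra F] (hC : HasCopies F) {y s : F}
    (h : DropRelations y s) (T : Finset F) :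
    ∃ a : F × F, DropRelations a.1 a.2 ∧
      ∀ b ∈ T, (Commute a.1 b ∧ Commute a.1 (star b)) ∧ (Commute a.2 b ∧ Commute a.2 (star b)) := by
  classical
  let Y : FreeAlgebra ℂ (Fin 2 ⊕ Fin 2) := FreeAlgebra.ι ℂ (Sum.inl 0)
  let S : FreeAlgebra ℂ (Fin 2 ⊕ Fin 2) := FreeAlgebra.ι ℂ (Sum.inl 1)
  let Y' : FreeAlgebra ℂ (Fin 2 ⊕ Fin 2) := FreeAlgebra.ι ℂ (Sum.inr 0)
  let S' : FreeAlgebra ℂ (Fin 2 ⊕ Fin 2) := FreeAlgebra.ι ℂ (Sum.inr 1)
  obtain ⟨h1, h2, h3⟩ := h
  obtain ⟨C, hcop⟩ := hC 2 ![y, s] {Y * Y, S' * S - (1 - Y' * Y - Y * Y'), Y' * Y * S - S} (by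
    intro p hp
    simp only [Finset.mem_insert, Finset.mem_singleton] at hp
    rcases hp with rfl | rfl | rfl
    · simp [Y, h1]
    · simp [Y, S, Y', S', h2]
    · simp [Y, S, Y', h3])
  obtain ⟨a, -, hR, hc⟩ := hcop T
  have r1 := hR (Y * Y) (by simp)
  have r2 := hR (S' * S - (1 - Y' * Y - Y * Y')) (by simp)
  have r3 := hR (Y' * Y * S - S) (by simp)
  simp only [map_sub, map_mul, map_one, Y, S, Y', S', FreeAlgebra.lift_ι_apply, Sum.elim_inl,
    Sum.elim_inr, sub_eq_zero] at r1 r2 r3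
  exact ⟨(a 0, a 1), ⟨r1, r2, r3⟩, fun b hb => ⟨hc 0 b hb, hc 1 b hb⟩⟩

/-- A pair with the relations in a closed subalgebra gives a homomorphism into it. -/
theorem exists_hom_mem {F : Type u} [CStarAlgebra F] (D : StarSubalgebra ℂ F)
    (hD : IsClosed (D : Set F)) {y s : F} (hy : y ∈ D) (hs : s ∈ D) (h : DropRelations y s) :
    ∃ ψ : ZTwoThree →⋆ₐ[ℂ] F, ∀ f, ψ f ∈ D := by
  let := StarSubalgebra.cstarAlgebra D (h_closed := hD)
  obtain ⟨ψ⟩ := DimDrop.exists_starAlgHom_iff.2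
    ⟨(⟨y, hy⟩ : D), ⟨s, hs⟩, Subtype.ext h.1, Subtype.ext h.2.1, Subtype.ext h.2.2⟩
  exact ⟨D.subtype.comp ψ, fun f => (ψ f).2⟩

/-- Copies of a pair with the relations give countably many homomorphisms of Z(2,3) with pairwise
commuting ranges. -/
theorem exists_commuting_of_copy {F : Type u} [CStarAlgebra F]
    (hcopy : ∀ T : Finset F, ∃ a : F × F, DropRelations a.1 a.2 ∧
      ∀ b ∈ T, (Commute a.1 b ∧ Commute a.1 (star b)) ∧ (Commute a.2 b ∧ Commute a.2 (star b))) :
    ∃ ψ : ℕ → (ZTwoThree →⋆ₐ[ℂ] F), ∀ k l, k ≠ l → ∀ f g, Commute (ψ k f) (ψ l g) := by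
  classical
  choose pick hrel hcomm using hcopy
  let T : ℕ → Finset F := fun k =>
    Nat.rec ∅ (fun _ S => S ∪ {(pick S).1, (pick S).2}) k
  let P : ℕ → Set F := fun k => {(pick (T k)).1, (pick (T k)).2}
  have hsub : ∀ {l k}, l < k → ∀ b ∈ P l, b ∈ T k := by
    intro l k hlk
    induction k with
    | zero => omega
    | succ k ih =>
      intro b hb
      show b ∈ T k ∪ {(pick (T k)).1, (pick (T k)).2}
      rcases Nat.lt_succ_iff_lt_or_eq.1 hlk with h1 | rfl
      · exact Finset.mem_union_left _ (ih h1 b hb)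
      · exact Finset.mem_union_right _ (by simpa [P] using hb)
  have hgen : ∀ {l k}, l ≠ k → ∀ a ∈ P k, ∀ b ∈ P l, Commute b a ∧ Commute (star b) a := by
    intro l k hlk a ha b hb
    rcases lt_or_gt_of_ne hlk with h1 | h1
    · have hc := hcomm (T k) b (hsub h1 b hb)
      rcases (show a = (pick (T k)).1 ∨ a = (pick (T k)).2 by simpa [P] using ha) with rfl | rfl
      · exact ⟨hc.1.1.symm, hc.1.2.symm⟩
      · exact ⟨hc.2.1.symm, hc.2.2.symm⟩
    · have hc := hcomm (T l) a (hsub h1 a ha)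
      rcases (show b = (pick (T l)).1 ∨ b = (pick (T l)).2 by simpa [P] using hb) with rfl | rfl
      · exact ⟨hc.1.1, by simpa using hc.1.2.star_star⟩
      · exact ⟨hc.2.1, by simpa using hc.2.2.star_star⟩
  have hclosed : ∀ X : Set F, IsClosed (StarSubalgebra.centralizer ℂ X : Set F) := fun X => by
    rw [StarSubalgebra.coe_centralizer]; exact Set.isClosed_centralizer _
  let D : ℕ → StarSubalgebra ℂ F := fun k => (StarAlgebra.adjoin ℂ (P k)).topologicalClosure
  have hP : ∀ k, P k ⊆ D k := fun k => (StarAlgebra.subset_adjoin ℂ _).trans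
    (StarSubalgebra.le_topologicalClosure _)
  have h1 : ∀ {l k}, l ≠ k → ∀ x ∈ D k, ∀ b ∈ P l, Commute b x ∧ Commute (star b) x := by
    intro l k hlk x hx b hb
    have hle : D k ≤ StarSubalgebra.centralizer ℂ (P l) :=
      StarSubalgebra.topologicalClosure_minimal (StarAlgebra.adjoin_le fun a ha => by
        rw [SetLike.mem_coe, StarSubalgebra.mem_centralizer_iff ℂ]
        exact fun b hb => ⟨(hgen hlk a ha b hb).1.eq, (hgen hlk a ha b hb).2.eq⟩) (hclosed _)
    have := (StarSubalgebra.mem_centralizer_iff ℂ).1 (hle hx) b hb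
    exact this
  have h2 : ∀ {l k}, l ≠ k → ∀ x ∈ D k, ∀ z ∈ D l, Commute x z := by
    intro l k hlk x hx z hz
    have hle : D l ≤ StarSubalgebra.centralizer ℂ (D k : Set F) :=
      StarSubalgebra.topologicalClosure_minimal (StarAlgebra.adjoin_le fun b hb => by
        rw [SetLike.mem_coe, StarSubalgebra.mem_centralizer_iff ℂ]
        exact fun x hx => ⟨((h1 hlk x hx b hb).1).symm.eq,
          ((h1 hlk (star x) (star_mem hx) b hb).1).symm.eq⟩) (hclosed _)
    exact ((StarSubalgebra.mem_centralizer_iff ℂ).1 (hle hz) x hx).1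
  have key : ∀ k, ∃ ψ : ZTwoThree →⋆ₐ[ℂ] F, ∀ f, ψ f ∈ D k := fun k =>
    exists_hom_mem (D k) (StarSubalgebra.isClosed_topologicalClosure _)
      (hP k (Or.inl rfl)) (hP k (Or.inr rfl)) (hrel (T k))
  choose ψ hψ using key
  exact ⟨ψ, fun k l hkl f g => h2 (Ne.symm hkl) _ (hψ k f) _ (hψ l g)⟩

/-- Countably many homomorphisms of Z(2,3) with pairwise commuting ranges. -/
theorem exists_commuting_copies {F : Type u} [CStarAlgebra F] (hC : HasCopies F) {y s : F}
    (h : DropRelations y s) :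
    ∃ ψ : ℕ → (ZTwoThree →⋆ₐ[ℂ] F), ∀ k l, k ≠ l → ∀ f g, Commute (ψ k f) (ψ l g) :=
  exists_commuting_of_copy (exists_drop_copy hC h)

end Vale.Agent.P101
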