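import Vale.Agent.P101.Pins

/-!
P101, block B1: the central sequence algebra is a C*-algebra (bounded central sequences modulo null
ones; the quotient norm is computed by truncation), and it has commuting copies of every witness
(reindexing).
-/

namespace Vale.Agent.P101

open Filter
open scoped Topology BoundedContinuousFunction

universe u

variable {A : Type u} [CStarAlgebra A] (w : Ultrafilter ℕ)


theorem mem_centralSeq_of_eventually_close {g : ℕ →ᵇ A}
    (h : ∀ ε > (0 : ℝ), ∃ f ∈ centralSeq (w : Filter ℕ) A,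
      ∀ᶠ n in (w : Filter ℕ), ‖g n - f n‖ ≤ ε) :
    g ∈ centralSeq (w : Filter ℕ) A := by
  intro a
  rw [Metric.tendsto_nhds]
  intro ε hε
  obtain ⟨f, hf, hfg⟩ := h (ε / (4 * (‖a‖ + 1))) (by positivity)
  filter_upwards [hfg, Metric.tendsto_nhds.1 (hf a) (ε / 2) (by positivity)] with n h1 h2
  rw [dist_zero_right] at h2 ⊢
  have e : g n * a - a * g n = (g n - f n) * a - a * (g n - f n) + (f n * a - a * f n) := by
    noncomm_ring
  have ha : ε / (4 * (‖a‖ + 1)) * ‖a‖ ≤ ε / 4 := by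
    rw [div_mul_eq_mul_div, div_le_div_iff₀ (by positivity) (by norm_num)]
    nlinarith [norm_nonneg a]
  calc ‖g n * a - a * g n‖
      ≤ ‖g n - f n‖ * ‖a‖ + ‖a‖ * ‖g n - f n‖ + ‖f n * a - a * f n‖ := by
        rw [e]
        exact (norm_add_le _ _).trans (add_le_add ((norm_sub_le _ _).trans
          (add_le_add (norm_mul_le _ _) (norm_mul_le _ _))) le_rfl)
    _ < ε := by nlinarith [mul_le_mul_of_nonneg_right h1 (norm_nonneg a), ha, h2]

theorem isClosed_centralSeq : IsClosed (centralSeq (w : Filter ℕ) A : Set (ℕ →ᵇ A)) := by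
  refine isClosed_of_closure_subset fun g hg => mem_centralSeq_of_eventually_close w fun ε hε => ?_
  obtain ⟨f, hf, hfg⟩ := Metric.mem_closure_iff.1 hg ε hε
  refine ⟨f, hf, Filter.Eventually.of_forall fun n => ?_⟩
  have := BoundedContinuousFunction.dist_coe_le_dist (f := g) (g := f) n
  rw [dist_eq_norm] at this
  linarith

noncomputable local instance : CStarAlgebra (centralSeq (w : Filter ℕ) A) :=
  StarSubalgebra.cstarAlgebra _ (h_closed := isClosed_centralSeq w)

/-- The ideal of null sequences. -/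
def nullIdeal : Ideal (centralSeq (w : Filter ℕ) A) where
  carrier := {f | IsNull (w : Filter ℕ) (f : ℕ →ᵇ A)}
  add_mem' {f g} hf hg := by
    simpa [IsNull] using hf.add hg
  zero_mem' := tendsto_const_nhds
  smul_mem' c f hf := by
    refine squeeze_zero_norm (fun n => norm_mul_le _ _) ?_
    refine squeeze_zero (fun n => by positivity)
      (fun n => mul_le_mul_of_nonneg_right ((c : ℕ →ᵇ A).norm_coe_le_norm n) (norm_nonneg _)) ?_
    simpa using (tendsto_zero_iff_norm_tendsto_zero.1 hf).const_mul ‖(c : ℕ →ᵇ A)‖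

theorem mem_nullIdeal {f : centralSeq (w : Filter ℕ) A} :
    f ∈ nullIdeal w ↔ IsNull (w : Filter ℕ) (f : ℕ →ᵇ A) := Iff.rfl

instance : (nullIdeal (A := A) w).IsTwoSided where
  mul_mem_of_left {f} g hf := by
    refine squeeze_zero_norm (fun n => norm_mul_le _ _) ?_
    refine squeeze_zero (fun n => by positivity)
      (fun n => mul_le_mul_of_nonneg_left ((g : ℕ →ᵇ A).norm_coe_le_norm n) (norm_nonneg _)) ?_
    simpa using (tendsto_zero_iff_norm_tendsto_zero.1 hf).mul_const ‖(g : ℕ →ᵇ A)‖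

theorem star_mem_nullIdeal {f : centralSeq (w : Filter ℕ) A} (hf : f ∈ nullIdeal w) :
    star f ∈ nullIdeal w := by
  rw [mem_nullIdeal, IsNull, tendsto_zero_iff_norm_tendsto_zero] at hf ⊢
  simpa using hf

instance : IsClosed (nullIdeal (A := A) w : Set (centralSeq (w : Filter ℕ) A)) := by
  refine isClosed_of_closure_subset fun g hg => ?_
  rw [SetLike.mem_coe, mem_nullIdeal, IsNull, Metric.tendsto_nhds]
  intro ε hε
  obtain ⟨f, hf, hfg⟩ := Metric.mem_closure_iff.1 hg (ε / 2) (by positivity)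
  filter_upwards [Metric.tendsto_nhds.1 hf (ε / 2) (by positivity)] with n hn
  have h1 := BoundedContinuousFunction.dist_coe_le_dist
    (f := (g : ℕ →ᵇ A)) (g := (f : ℕ →ᵇ A)) n
  rw [Subtype.dist_eq] at hfg
  linarith [dist_triangle ((g : ℕ →ᵇ A) n) ((f : ℕ →ᵇ A) n) 0]

/-- A closed star-stable two-sided ideal with lifts of almost minimal norm. -/
class GoodIdeal {G : Type u} [CStarAlgebra G] (I : Ideal G) : Prop where
  twoSided : I.IsTwoSided
  closed : IsClosed (I : Set G)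
  star_mem : ∀ f ∈ I, star f ∈ I
  cstar : ∀ f g : G, g - star f * f ∈ I → ∀ ε > (0 : ℝ), ∃ f', f' - f ∈ I ∧ ‖f'‖ * ‖f'‖ ≤ ‖g‖ + ε

section Generic

variable {G : Type u} [CStarAlgebra G] (I : Ideal G) [GoodIdeal I]

instance GoodIdeal.isTwoSided : I.IsTwoSided := GoodIdeal.twoSided
instance GoodIdeal.isClosed : IsClosed (I : Set G) := GoodIdeal.closed

noncomputable instance quotStar : Star (G ⧸ I) where
  star := Quotient.map' star (by
    intro f g h
    rw [Submodule.quotientRel_def] at h ⊢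
    rw [← star_sub]
    exact GoodIdeal.star_mem _ h)

theorem star_mk (f : G) : star (Ideal.Quotient.mk I f) = Ideal.Quotient.mk I (star f) := rfl

noncomputable instance quotStarRing : StarRing (G ⧸ I) where
  star_involutive x := by
    obtain ⟨f, rfl⟩ := Ideal.Quotient.mk_surjective x
    rw [star_mk, star_mk, star_star]
  star_mul x y := by
    obtain ⟨f, rfl⟩ := Ideal.Quotient.mk_surjective x
    obtain ⟨g, rfl⟩ := Ideal.Quotient.mk_surjective y
    rw [← map_mul, star_mk, star_mk, star_mk, ← map_mul, star_mul]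
  star_add x y := by
    obtain ⟨f, rfl⟩ := Ideal.Quotient.mk_surjective x
    obtain ⟨g, rfl⟩ := Ideal.Quotient.mk_surjective y
    rw [← map_add, star_mk, star_mk, star_mk, ← map_add, star_add]

theorem quot_norm_mul_le (x y : G ⧸ I) : ‖x * y‖ ≤ ‖x‖ * ‖y‖ := by
  refine le_of_forall_pos_le_add fun ε hε => ?_
  obtain ⟨δ, hδ, hδ1, hδε⟩ : ∃ δ > (0 : ℝ), δ ≤ 1 ∧ δ * (‖x‖ + ‖y‖ + 1) ≤ ε := by
    refine ⟨min 1 (ε / (‖x‖ + ‖y‖ + 1)), lt_min one_pos (by positivity), min_le_left _ _, ?_⟩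
    rw [← le_div_iff₀ (by positivity)]
    exact min_le_right _ _
  obtain ⟨f, hf, hfn⟩ := Submodule.Quotient.norm_mk_lt x hδ
  obtain ⟨g, hg, hgn⟩ := Submodule.Quotient.norm_mk_lt y hδ
  calc ‖x * y‖ = ‖(Submodule.Quotient.mk (f * g) : G ⧸ I)‖ := by rw [← hf, ← hg]; rfl
    _ ≤ ‖f * g‖ := Submodule.Quotient.norm_mk_le _ _
    _ ≤ ‖f‖ * ‖g‖ := norm_mul_le _ _
    _ ≤ (‖x‖ + δ) * (‖y‖ + δ) :=
        mul_le_mul hfn.le hgn.le (norm_nonneg _) (by positivity)
    _ ≤ ‖x‖ * ‖y‖ + ε := by nlinarith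

noncomputable instance quotNormedRing : NormedRing (G ⧸ I) :=
  { Submodule.Quotient.normedAddCommGroup I, Ideal.Quotient.ring I with
    norm_mul_le := quot_norm_mul_le I }

noncomputable instance quotNormedAlgebra : NormedAlgebra ℂ (G ⧸ I) :=
  { (Ideal.Quotient.algebra ℂ : Algebra ℂ (G ⧸ I)),
    Submodule.Quotient.normedSpace I ℂ with }

instance quotStarModule : StarModule ℂ (G ⧸ I) where
  star_smul c x := by
    obtain ⟨f, rfl⟩ := Ideal.Quotient.mk_surjective x
    show star (Ideal.Quotient.mk I (c • f)) = _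
    rw [star_mk, star_mk, star_smul]
    rfl

instance quotCStarRing : CStarRing (G ⧸ I) where
  norm_mul_self_le x := by
    obtain ⟨f, rfl⟩ := Ideal.Quotient.mk_surjective x
    refine le_of_forall_pos_le_add fun ε hε => ?_
    obtain ⟨g, hg, hgn⟩ :=
      Submodule.Quotient.norm_mk_lt (star (Ideal.Quotient.mk I f) * Ideal.Quotient.mk I f)
        (half_pos hε)
    obtain ⟨f', hf', hn⟩ := GoodIdeal.cstar (I := I) f g
      ((Ideal.Quotient.mk_eq_mk_iff_sub_mem (I := I) g (star f * f)).1 hg) _ (half_pos hε)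
    have h4 : ‖Ideal.Quotient.mk I f‖ ≤ ‖f'‖ := by
      rw [← (Ideal.Quotient.mk_eq_mk_iff_sub_mem (I := I) f' f).2 hf']
      exact Submodule.Quotient.norm_mk_le _ _
    nlinarith [norm_nonneg (Ideal.Quotient.mk I f)]

noncomputable instance quotCStarAlgebra : CStarAlgebra (G ⧸ I) where

/-- The quotient map as a star algebra homomorphism. -/
noncomputable def quotHom : G →⋆ₐ[ℂ] G ⧸ I :=
  { Ideal.Quotient.mkₐ ℂ I with map_star' := fun f => (star_mk I f).symm }

theorem quotHom_apply (f : G) : quotHom I f = Ideal.Quotient.mk I f := rfl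

end Generic

/-- Truncation of a central sequence to the indices where the norm is at most a bound. -/
theorem exists_truncation (f : centralSeq (w : Filter ℕ) A) {c : ℝ} (hc : 0 ≤ c)
    (h : ∀ᶠ n in (w : Filter ℕ), ‖(f : ℕ →ᵇ A) n‖ ≤ c) :
    ∃ g : centralSeq (w : Filter ℕ) A, ‖g‖ ≤ c ∧ g - f ∈ nullIdeal w := by
  have hb : ∀ n, ‖if ‖(f : ℕ →ᵇ A) n‖ ≤ c then (f : ℕ →ᵇ A) n else 0‖ ≤ c := by
    intro n
    split_ifs with hn
    · exact hn
    · simpa using hc
  let g : ℕ →ᵇ A := BoundedContinuousFunction.ofNormedAddCommGroupDiscrete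
    (fun n => if ‖(f : ℕ →ᵇ A) n‖ ≤ c then (f : ℕ →ᵇ A) n else 0) c hb
  have he : ∀ᶠ n in (w : Filter ℕ), g n = (f : ℕ →ᵇ A) n :=
    h.mono fun n hn => if_pos hn
  have hg : g ∈ centralSeq (w : Filter ℕ) A :=
    mem_centralSeq_of_eventually_close w fun ε hε => ⟨f, f.2, he.mono fun n hn => by
      simpa [hn] using hε.le⟩
  refine ⟨⟨g, hg⟩, (BoundedContinuousFunction.norm_le hc).2 hb, ?_⟩
  rw [mem_nullIdeal, IsNull]
  exact tendsto_const_nhds.congr' (he.mono fun n hn => by simp [hn])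

instance : GoodIdeal (nullIdeal (A := A) w) where
  twoSided := inferInstance
  closed := inferInstance
  star_mem _ hf := star_mem_nullIdeal w hf
  cstar f g hg ε hε := by
    rw [mem_nullIdeal, IsNull] at hg
    have hev : ∀ᶠ n in (w : Filter ℕ), ‖(f : ℕ →ᵇ A) n‖ ≤ Real.sqrt (‖g‖ + ε) := by
      filter_upwards [Metric.tendsto_nhds.1 hg ε hε] with n hn
      rw [dist_zero_right] at hn
      apply Real.le_sqrt_of_sq_le
      have h2 : ‖(g : ℕ →ᵇ A) n‖ ≤ ‖g‖ := (g : ℕ →ᵇ A).norm_coe_le_norm n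
      have h3 : ‖star ((f : ℕ →ᵇ A) n) * (f : ℕ →ᵇ A) n‖
          ≤ ‖(g : ℕ →ᵇ A) n‖ + ‖(g : ℕ →ᵇ A) n - star ((f : ℕ →ᵇ A) n) * (f : ℕ →ᵇ A) n‖ :=
        norm_le_norm_add_norm_sub _ _
      rw [CStarRing.norm_star_mul_self] at h3
      simp only [AddSubgroupClass.coe_sub, MulMemClass.coe_mul, StarMemClass.coe_star,
        BoundedContinuousFunction.coe_sub, BoundedContinuousFunction.coe_mul,
        BoundedContinuousFunction.coe_star, Pi.sub_apply, Pi.mul_apply, Pi.star_apply] at hn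
      rw [sq]
      linarith
    obtain ⟨g', hg', he⟩ := exists_truncation w f (Real.sqrt_nonneg _) hev
    exact ⟨g', he, (mul_le_mul hg' hg' (norm_nonneg _) (Real.sqrt_nonneg _)).trans
      (Real.mul_self_sqrt (by positivity)).le⟩

/-- The central sequence algebra. -/
abbrev CentralQuot : Type u := centralSeq (w : Filter ℕ) A ⧸ nullIdeal (A := A) w

theorem quotHom_eq_zero {f : centralSeq (w : Filter ℕ) A} :
    quotHom (nullIdeal (A := A) w) f = 0 ↔ IsNull (w : Filter ℕ) (f : ℕ →ᵇ A) := by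
  rw [quotHom_apply, Ideal.Quotient.eq_zero_iff_mem, mem_nullIdeal]

/-- Composition with a map of indices. -/
def reindex (m : ℕ → ℕ) (f : ℕ →ᵇ A) : ℕ →ᵇ A :=
  f.compContinuous ⟨m, continuous_of_discreteTopology⟩

theorem exists_reindex [TopologicalSpace.SeparableSpace A] (hw : (w : Filter ℕ) ≤ cofinite)
    {ι κ ρ : Type*} [Finite ι] [Finite κ] [Finite ρ]
    (x : ι → centralSeq (w : Filter ℕ) A) (s : κ → ℕ →ᵇ A) (r : ρ → ℕ →ᵇ A)
    (hr : ∀ j, IsNull (w : Filter ℕ) (r j)) :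
    ∃ m : ℕ → ℕ, (∀ i, reindex m (x i : ℕ →ᵇ A) ∈ centralSeq (w : Filter ℕ) A) ∧
      (∀ j, IsNull (w : Filter ℕ) (reindex m (r j))) ∧
      ∀ i j, IsNull (w : Filter ℕ)
          (reindex m (x i : ℕ →ᵇ A) * s j - s j * reindex m (x i : ℕ →ᵇ A)) ∧
        IsNull (w : Filter ℕ)
          (reindex m (x i : ℕ →ᵇ A) * star (s j) - star (s j) * reindex m (x i : ℕ →ᵇ A)) := by
  let d := TopologicalSpace.denseSeq A
  have key : ∀ n : ℕ, ∃ k : ℕ,
      (∀ j, ‖r j k‖ ≤ 1 / (n + 1)) ∧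
      (∀ i, ∀ l : Fin (n + 1), ‖(x i : ℕ →ᵇ A) k * d l - d l * (x i : ℕ →ᵇ A) k‖ ≤ 1 / (n + 1)) ∧
      (∀ i, ∀ j, ‖(x i : ℕ →ᵇ A) k * s j n - s j n * (x i : ℕ →ᵇ A) k‖ ≤ 1 / (n + 1)) ∧
      (∀ i, ∀ j, ‖(x i : ℕ →ᵇ A) k * star (s j n) - star (s j n) * (x i : ℕ →ᵇ A) k‖
        ≤ 1 / (n + 1)) := by
    intro n
    have small : ∀ {u : ℕ → A}, Tendsto u (w : Filter ℕ) (𝓝 0) →
        ∀ᶠ k in (w : Filter ℕ), ‖u k‖ ≤ 1 / ((n : ℝ) + 1) := by
      intro u hu
      filter_upwards [Metric.tendsto_nhds.1 hu (1 / ((n : ℝ) + 1)) (by positivity)] with k hk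
      rw [dist_zero_right] at hk
      exact hk.le
    exact ((eventually_all.2 fun j => small (hr j)).and
      ((eventually_all.2 fun i => eventually_all.2 fun l : Fin (n + 1) => small ((x i).2 (d l))).and
      ((eventually_all.2 fun i => eventually_all.2 fun j => small ((x i).2 (s j n))).and
      (eventually_all.2 fun i => eventually_all.2 fun j => small ((x i).2 (star (s j n))))))).exists
  choose m hmr hmd hms hmt using key
  have hlim : Tendsto (fun n : ℕ => 1 / ((n : ℝ) + 1)) (w : Filter ℕ) (𝓝 0) :=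
    tendsto_one_div_add_atTop_nhds_zero_nat.mono_left (hw.trans_eq Nat.cofinite_eq_atTop)
  refine ⟨m, fun i a => ?_, fun j => squeeze_zero_norm (fun n => hmr n j) hlim,
    fun i j => ⟨squeeze_zero_norm (fun n => hms n i j) hlim,
      squeeze_zero_norm (fun n => hmt n i j) hlim⟩⟩
  rw [Metric.tendsto_nhds]
  intro ε hε
  set C := ‖(x i : ℕ →ᵇ A)‖
  obtain ⟨l, hl⟩ := (TopologicalSpace.denseRange_denseSeq A).exists_dist_lt a
    (show 0 < ε / (4 * (C + 1)) by positivity)
  have hn : ∀ᶠ n in (w : Filter ℕ), l ≤ n :=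
    (hw.trans_eq Nat.cofinite_eq_atTop) (eventually_ge_atTop l)
  filter_upwards [hn, hlim.eventually (eventually_lt_nhds (half_pos hε))] with n h1 h2
  rw [dist_zero_right]
  rw [dist_eq_norm] at hl
  have e : ∀ y : A, y * a - a * y = (y * d l - d l * y) + (y * (a - d l) - (a - d l) * y) :=
    fun y => by noncomm_ring
  have h3 : ‖(x i : ℕ →ᵇ A) (m n)‖ ≤ C := (x i : ℕ →ᵇ A).norm_coe_le_norm _
  have h4 := hmd n i ⟨l, by omega⟩
  have h5 : C * (ε / (4 * (C + 1))) ≤ ε / 4 := by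
    rw [mul_div_assoc', div_le_div_iff₀ (by positivity) (by norm_num)]
    nlinarith [norm_nonneg (x i : ℕ →ᵇ A)]
  show ‖(x i : ℕ →ᵇ A) (m n) * a - a * (x i : ℕ →ᵇ A) (m n)‖ < ε
  rw [e]
  refine lt_of_le_of_lt ((norm_add_le _ _).trans (add_le_add h4 ((norm_sub_le _ _).trans
    (add_le_add (norm_mul_le _ _) (norm_mul_le _ _))))) ?_
  nlinarith [mul_le_mul h3 hl.le (norm_nonneg _) (norm_nonneg _)]

/-- Composition with a map of indices as an algebra homomorphism. -/
noncomputable def reindexAlg (m : ℕ → ℕ) : (ℕ →ᵇ A) →ₐ[ℂ] (ℕ →ᵇ A) where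
  toFun := reindex m
  map_one' := rfl
  map_mul' _ _ := rfl
  map_zero' := rfl
  map_add' _ _ := rfl
  commutes' _ := rfl

theorem algHom_lift {X G H : Type*} [Ring G] [Algebra ℂ G] [Ring H] [Algebra ℂ H]
    (φ : G →ₐ[ℂ] H) (g : X → G) (p : FreeAlgebra ℂ X) :
    φ (FreeAlgebra.lift ℂ g p) = FreeAlgebra.lift ℂ (fun i => φ (g i)) p := by
  have h : φ.comp (FreeAlgebra.lift ℂ g) = FreeAlgebra.lift ℂ (fun i => φ (g i)) := by
    refine FreeAlgebra.hom_ext (funext fun i => ?_)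
    simp
  exact DFunLike.congr_fun h p

theorem hasCopies_centralQuot [TopologicalSpace.SeparableSpace A]
    (hw : (w : Filter ℕ) ≤ cofinite) : HasCopies (CentralQuot (A := A) w) := by
  intro n a R hR
  choose x hx using fun i => Ideal.Quotient.mk_surjective (I := nullIdeal (A := A) w) (a i)
  refine ⟨∑ i, ‖x i‖, fun S => ?_⟩
  choose lift hlift using (Ideal.Quotient.mk_surjective :
    Function.Surjective ((Ideal.Quotient.mk (nullIdeal (A := A) w)) :
      centralSeq (w : Filter ℕ) A → CentralQuot (A := A) w))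
  let xs : Fin n ⊕ Fin n → centralSeq (w : Filter ℕ) A := Sum.elim x fun i => star (x i)
  let r : R → centralSeq (w : Filter ℕ) A := fun p => FreeAlgebra.lift ℂ xs (p : FreeAlgebra ℂ _)
  have hr : ∀ p, IsNull (w : Filter ℕ) (r p : ℕ →ᵇ A) := fun p => by
    rw [← quotHom_eq_zero]
    show (quotHom (nullIdeal (A := A) w)).toAlgHom (r p) = 0
    rw [algHom_lift]
    refine Eq.trans ?_ (hR p p.2)
    congr 2
    funext i
    rcases i with i | i <;> simp [xs, quotHom_apply, hx, ← star_mk]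
  obtain ⟨m, hm, hmR, hmS⟩ :=
    exists_reindex w hw x (fun b : S => (lift b : ℕ →ᵇ A)) (fun p => (r p : ℕ →ᵇ A)) hr
  let x' : Fin n → centralSeq (w : Filter ℕ) A := fun i => ⟨reindex m (x i : ℕ →ᵇ A), hm i⟩
  refine ⟨fun i => (Ideal.Quotient.mk (nullIdeal (A := A) w)) (x' i), fun i => ?_,
    fun p hp => ?_, fun i b hb => ?_⟩
  · refine (Submodule.Quotient.norm_mk_le _ _).trans (le_trans ?_
      (Finset.single_le_sum (fun j _ => norm_nonneg (x j)) (Finset.mem_univ i)))
    exact (BoundedContinuousFunction.norm_le (norm_nonneg _)).2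
      fun k => (x i : ℕ →ᵇ A).norm_coe_le_norm (m k)
  · let xs' : Fin n ⊕ Fin n → centralSeq (w : Filter ℕ) A := Sum.elim x' fun i => star (x' i)
    have h1 : quotHom (nullIdeal (A := A) w) (FreeAlgebra.lift ℂ xs' p) = 0 := by
      rw [quotHom_eq_zero]
      have h2 : (centralSeq (w : Filter ℕ) A).subtype.toAlgHom (FreeAlgebra.lift ℂ xs' p)
          = reindexAlg m ((centralSeq (w : Filter ℕ) A).subtype.toAlgHom (r ⟨p, hp⟩)) := by
        simp only [r, algHom_lift]
        congr 2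
        funext i
        rcases i with i | i <;> rfl
      show IsNull _ ((centralSeq (w : Filter ℕ) A).subtype.toAlgHom (FreeAlgebra.lift ℂ xs' p))
      rw [h2]
      exact hmR ⟨p, hp⟩
    rw [← h1]
    show _ = (quotHom (nullIdeal (A := A) w)).toAlgHom _
    rw [algHom_lift]
    congr 2
    funext i
    rcases i with i | i <;> simp [xs', quotHom_apply, ← star_mk]
  · rw [← hlift b, star_mk]
    constructor <;> rw [commute_iff_eq, ← map_mul, ← map_mul,
      Ideal.Quotient.mk_eq_mk_iff_sub_mem, mem_nullIdeal]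
    · exact (hmS i ⟨b, hb⟩).1
    · exact (hmS i ⟨b, hb⟩).2

/-- B1. -/
theorem quotientPin : QuotientPin.{u} := fun A _ _ w hw =>
  ⟨CentralQuot (A := A) w, inferInstance, quotHom (nullIdeal w), Ideal.Quotient.mk_surjective,
    fun _ => quotHom_eq_zero w, hasCopies_centralQuot w hw⟩

end Vale.Agent.P101
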