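import Vale.Agent.P101.Cfc

/-!
P101, L5: the pairing node with its gate, and its three invariants.
-/

namespace Vale.Agent.P101

/-- The right hand side of the pairing identity. -/
def pairT {R : Type*} [Ring R] (b a1 a2 : R) : R :=
  (1 - b) * (1 - b) * ((1 - b) * (1 - b)) * (a1 * a1 * a1) + b * b * (b * b) * a2
    + (1 - b) * b * ((1 - b) * b) * (a1 * a1 * a2 + a1 * (a2 * a2))

/-- The eigenvalue of the pairing identity. -/
def pairK {R : Type*} [Ring R] (b : R) : R :=
  ((1 - b) * (1 - b) + b * b) * ((1 - b) * (1 - b) + b * b)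

theorem key_head {R : Type*} [CommRing R] {b a1 a2 c : R} (hb : b * a2 = b) (hc : c * a1 = c) :
    pairT b a1 a2 * c = pairK b * c := by
  have h3 : a1 * a1 * a1 * c = c := by linear_combination (a1 * a1 + a1 + 1) * hc
  have h2 : a1 * a1 * c = c := by linear_combination (a1 + 1) * hc
  have hb2 : b * b * a2 = b * b := by linear_combination b * hb
  have hb22 : b * b * (a2 * a2) = b * b := by linear_combination (b * a2 + b) * hb
  unfold pairT pairK
  linear_combination (1 - b) ^ 4 * h3 + b ^ 2 * c * hb2 + (1 - b) ^ 2 * (b * b * a2) * h2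
    + (1 - b) ^ 2 * c * hb2 + (1 - b) ^ 2 * (b * b * (a2 * a2)) * hc + (1 - b) ^ 2 * c * hb22

theorem key_tail {R : Type*} [CommRing R] {p p2 a1 a2 c : R} (hp : p * a1 = p)
    (h2 : p2 * a2 = p2) (hc : c * p2 = c) :
    pairT ((1 - p) * p2) a1 a2 * c = pairK (1 - p) * c := by
  set b := (1 - p) * p2 with hb
  have bc : b * c = (1 - p) * c := by linear_combination (1 - p) * hc
  have ac : (1 - b) * c = p * c := by linear_combination -bc
  have ca : c * a2 = c := by linear_combination c * h2 + (1 - a2) * hc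
  have e1 : (1 - b) * (1 - b) * ((1 - b) * (1 - b)) * c = p ^ 4 * c := by
    linear_combination ((1 - b) ^ 3 + (1 - b) ^ 2 * p + (1 - b) * p ^ 2 + p ^ 3) * ac
  have e2 : b * b * (b * b) * c = (1 - p) ^ 4 * c := by
    linear_combination (b ^ 3 + b ^ 2 * (1 - p) + b * (1 - p) ^ 2 + (1 - p) ^ 3) * bc
  have e3 : (1 - b) * b * ((1 - b) * b) * c = p ^ 2 * (1 - p) ^ 2 * c := by
    linear_combination (1 - b) * b * (1 - b) * bc + (1 - b) * b * (1 - p) * ac
      + (1 - b) * p * (1 - p) * bc + (1 - p) ^ 2 * p * ac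
  have p1 : p * (a1 * a1 * a1) = p := by linear_combination (a1 * a1 + a1 + 1) * hp
  have p2' : p * (a1 * a1) = p := by linear_combination (a1 + 1) * hp
  unfold pairT pairK
  linear_combination (a1 * a1 * a1) * e1 + a2 * e2
    + (a1 * a1 * a2 + a1 * (a2 * a2)) * e3
    + p ^ 3 * c * p1 + (1 - p) ^ 4 * ca
    + p * (1 - p) ^ 2 * c * a2 * p2' + p ^ 2 * (1 - p) ^ 2 * ca
    + p * (1 - p) ^ 2 * c * (a2 * a2) * hp + p ^ 2 * (1 - p) ^ 2 * (a2 + 1) * ca

variable {G : Type*} [CStarAlgebra G] [PartialOrder G] [StarOrderedRing G]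

/-- Two commuting gated elements. -/
structure Two (x1 p1 x2 p2 : G) : Prop where
  g1 : Gated x1 p1
  g2 : Gated x2 p2
  c12 : Commute x1 x2
  c12' : Commute x1 (star x2)
  h12 : Commute p1 x2
  h21 : Commute p2 x1
  hp : Commute p1 p2

theorem Gated.self {x p : G} (h : Gated x p) : star p = p := (IsSelfAdjoint.of_nonneg h.nonneg).star_eq

theorem Gated.comm_star {x p : G} (h : Gated x p) : Commute p (star x) := by
  have := h.comm.star_star; rwa [h.self] at this

/-- The coefficient of the node. -/
def nodeB (p1 p2 : G) : G := (1 - p1) * p2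

/-- The node element. -/
noncomputable def nodeX (x1 p1 x2 p2 : G) : G := rescale (1/8) (pairY x1 x2 (nodeB p1 p2))

/-- The node gate. -/
noncomputable def nodeP (x1 p1 x2 p2 : G) : G :=
  cfc (ramp (1/8) (1/4)) (sumSq (pairY x1 x2 (nodeB p1 p2)))

variable {x1 p1 x2 p2 : G}

theorem Two.pair (h : Two x1 p1 x2 p2) : PairData x1 x2 (nodeB p1 p2) where
  sq1 := h.g1.sq
  sq2 := h.g2.sq
  c12 := h.c12
  c12' := h.c12'
  self := by
    rw [nodeB, star_mul, h.g2.self, star_sub, star_one, h.g1.self]
    exact ((Commute.one_right p2).sub_right h.hp.symm).eq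
  cb1 := ((Commute.one_left x1).sub_left h.g1.comm).mul_left h.h21
  cb2 := ((Commute.one_left x2).sub_left h.h12).mul_left h.g2.comm
  absorb := by rw [nodeB, mul_assoc]; exact congrArg ((1 - p1) * ·) h.g2.absorb

theorem Two.node_gated (h : Two x1 p1 x2 p2) :
    Gated (nodeX x1 p1 x2 p2) (nodeP x1 p1 x2 p2) :=
  rescale_gated h.pair.pairY_sq (by norm_num) (ramp_continuous _ _) (ramp_mem _ _)
    (fun t ht => ramp_zero (by norm_num) ht)

/-- Whatever commutes with the inputs commutes with the node. -/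
theorem node_commute {g : G} (a1 : Commute x1 g) (a1' : Commute (star x1) g) (a2 : Commute x2 g)
    (a2' : Commute (star x2) g) (b1 : Commute p1 g) (b2 : Commute p2 g)
    (h : Two x1 p1 x2 p2) :
    Commute (nodeX x1 p1 x2 p2) g ∧ Commute (star (nodeX x1 p1 x2 p2)) g ∧
      Commute (nodeP x1 p1 x2 p2) g := by
  set be := nodeB p1 p2 with hbe
  set y := pairY x1 x2 be
  have hb : Commute be g := ((Commute.one_left g).sub_left b1).mul_left b2
  have ha : Commute (1 - be) g := (Commute.one_left g).sub_left hb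
  have f1 : Commute (sumSq x1) g ∧ Commute (difSq x1) g :=
    ⟨(a1'.mul_left a1).add_left (a1.mul_left a1'), (a1'.mul_left a1).sub_left (a1.mul_left a1')⟩
  have f2 : Commute (difSq x2) g := (a2'.mul_left a2).sub_left (a2.mul_left a2')
  have hy : Commute y g :=
    (((ha.mul_left ha).mul_left (f1.1.mul_left a1)).add_left ((hb.mul_left hb).mul_left a2)).add_left
      ((ha.mul_left hb).mul_left (((f1.2.mul_left a2).sub_left (a1.mul_left f2)).smul_left _))
  have ht : Commute (sumSq y) g := by
    rw [show sumSq y = pairT be (sumSq x1) (sumSq x2) from h.pair.pairY_norm]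
    have f3 : Commute (sumSq x2) g := (a2'.mul_left a2).add_left (a2.mul_left a2')
    exact ((((ha.mul_left ha).mul_left (ha.mul_left ha)).mul_left
      ((f1.1.mul_left f1.1).mul_left f1.1)).add_left
      (((hb.mul_left hb).mul_left (hb.mul_left hb)).mul_left f3)).add_left
      (((ha.mul_left hb).mul_left (ha.mul_left hb)).mul_left
        (((f1.1.mul_left f1.1).mul_left f3).add_left (f1.1.mul_left (f3.mul_left f3))))
  have hy' : Commute (star y) g := by
    have s1 : star (1 - be) = 1 - be := by rw [star_sub, star_one, h.pair.self]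
    have e : star y = star (sumSq x1 * x1) * ((1 - be) * (1 - be)) + star x2 * (be * be)
        + star (Complex.I • (difSq x1 * x2 - x1 * difSq x2)) * (be * (1 - be)) := by
      simp only [y, pairY, star_add, star_mul, s1, h.pair.self, be, hbe]
    rw [e, star_mul, star_smul, star_sub, star_mul, star_mul, sumSq_self, difSq_self, difSq_self]
    exact ((((a1'.mul_left f1.1)).mul_left (ha.mul_left ha)).add_left
      (a2'.mul_left (hb.mul_left hb))).add_left
      ((((a2'.mul_left f1.2).sub_left (f2.mul_left a1')).smul_left _).mul_left (hb.mul_left ha))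
  have hs : Commute (cfc (scal (1/8)) (sumSq y)) g := ht.cfc_real _
  refine ⟨hy.mul_left hs, ?_, ht.cfc_real _⟩
  change Commute (star (y * cfc (scal (1/8)) (sumSq y))) g
  rw [star_mul, (cfc_predicate (p := IsSelfAdjoint) (scal (1/8)) (sumSq y)).star_eq]
  exact hs.mul_left hy'

theorem gate_one (h : Two x1 p1 x2 p2) {k c : G} (hk : IsSelfAdjoint k)
    (e : sumSq (pairY x1 x2 (nodeB p1 p2)) * c = pairK k * c) (hkc : Commute k c) :
    nodeP x1 p1 x2 p2 * c = c := by
  have hK : cfc (fun b : ℝ => pairK b) k = pairK k := by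
    have := cfc_polynomial (R := ℝ)
      (((1 - Polynomial.X) * (1 - Polynomial.X) + Polynomial.X * Polynomial.X) *
       ((1 - Polynomial.X) * (1 - Polynomial.X) + Polynomial.X * Polynomial.X)) k hk
    simpa [pairK] using this
  have hKs : IsSelfAdjoint (pairK k) := hK ▸ cfc_predicate _ _
  have hKc : Commute (pairK k) c := hK ▸ hkc.cfc_real _
  rw [nodeP, cfc_mul_congr (sumSq_isSelfAdjoint _) hKs e hKc (ramp_continuous _ _), ← hK,
    ← cfc_comp' (ramp (1/8) (1/4)) (fun b : ℝ => pairK b) k (by fun_prop)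
      (by unfold pairK; fun_prop) hk,
    cfc_congr (g := fun _ => (1:ℝ)) (fun b _ => ramp_one (by norm_num) ?_), cfc_const_one ℝ k,
    one_mul]
  unfold pairK
  nlinarith [sq_nonneg (2 * b - 1)]

open scoped IsMulCommutative in
theorem Two.head (h : Two x1 p1 x2 p2) {c : G} (hc : c * sumSq x1 = c)
    (h1 : Commute c x1) (h1' : Commute c (star x1)) (h2 : Commute c x2) (h2' : Commute c (star x2))
    (k1 : Commute c p1) (k2 : Commute c p2) :
    nodeP x1 p1 x2 p2 * c = c := by
  set be := nodeB p1 p2
  have hbc : Commute be c := ((Commute.one_left c).sub_left k1.symm).mul_left k2.symm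
  refine gate_one h h.pair.self ?_ hbc
  have hb := h.pair.bfam
  have ha12 : Commute (sumSq x1) (sumSq x2) :=
    (PairData.fam h.pair h.pair.x1a2 h.pair.sx1a2).1
  have hs := Subring.isMulCommutative_closure (R := G) (s := {be, sumSq x1, sumSq x2, c}) (by
    have ca1 : Commute c (sumSq x1) := (h1'.mul_right h1).add_right (h1.mul_right h1')
    have ca2 : Commute c (sumSq x2) := (h2'.mul_right h2).add_right (h2.mul_right h2')
    intro u hu v hv
    simp only [Set.mem_insert_iff, Set.mem_singleton_iff] at hu hv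
    rcases hu with rfl | rfl | rfl | rfl <;> rcases hv with rfl | rfl | rfl | rfl <;>
      first
        | rfl
        | exact hb.1.eq | exact hb.1.symm.eq | exact hb.2.2.1.eq | exact hb.2.2.1.symm.eq
        | exact hbc.eq | exact hbc.symm.eq | exact ha12.eq | exact ha12.symm.eq
        | exact ca1.eq | exact ca1.symm.eq | exact ca2.eq | exact ca2.symm.eq)
  have m : ∀ {v : G}, v ∈ ({be, sumSq x1, sumSq x2, c} : Set G) →
      v ∈ Subring.closure ({be, sumSq x1, sumSq x2, c} : Set G) :=
    fun hv => Subring.subset_closure hv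
  have key := key_head (R := Subring.closure ({be, sumSq x1, sumSq x2, c} : Set G))
    (b := ⟨be, m (by simp)⟩) (a1 := ⟨sumSq x1, m (by simp)⟩) (a2 := ⟨sumSq x2, m (by simp)⟩)
    (c := ⟨c, m (by simp)⟩) (Subtype.ext h.pair.absorb) (Subtype.ext hc)
  have e := congrArg (Subring.closure ({be, sumSq x1, sumSq x2, c} : Set G)).subtype key
  simp only [pairT, pairK, map_add, map_mul, map_sub, map_one, Subring.coe_subtype] at e
  rw [show sumSq (pairY x1 x2 be) = pairT be (sumSq x1) (sumSq x2) from h.pair.pairY_norm]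
  exact e

open scoped IsMulCommutative in
theorem Two.tail (h : Two x1 p1 x2 p2) {c : G} (hc : c * p2 = c)
    (h1 : Commute c x1) (h1' : Commute c (star x1)) (h2 : Commute c x2) (h2' : Commute c (star x2))
    (k1 : Commute c p1) (k2 : Commute c p2) :
    nodeP x1 p1 x2 p2 * c = c := by
  have hs1 : IsSelfAdjoint (1 - p1) := by rw [IsSelfAdjoint, star_sub, star_one, h.g1.self]
  refine gate_one h hs1 ?_ ((Commute.one_left c).sub_left k1.symm)
  have ha12 : Commute (sumSq x1) (sumSq x2) :=
    (PairData.fam h.pair h.pair.x1a2 h.pair.sx1a2).1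
  have pa1 : Commute p1 (sumSq x1) :=
    (h.g1.comm_star.mul_right h.g1.comm).add_right (h.g1.comm.mul_right h.g1.comm_star)
  have pa2 : Commute p2 (sumSq x2) :=
    (h.g2.comm_star.mul_right h.g2.comm).add_right (h.g2.comm.mul_right h.g2.comm_star)
  have h12' : Commute p1 (star x2) := by
    have := h.h12.star_star; rwa [h.g1.self] at this
  have h21' : Commute p2 (star x1) := by
    have := h.h21.star_star; rwa [h.g2.self] at this
  have p1a2 : Commute p1 (sumSq x2) :=
    (h12'.mul_right h.h12).add_right (h.h12.mul_right h12')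
  have p2a1 : Commute p2 (sumSq x1) :=
    (h21'.mul_right h.h21).add_right (h.h21.mul_right h21')
  have hs := Subring.isMulCommutative_closure (R := G)
    (s := {p1, p2, sumSq x1, sumSq x2, c}) (by
    have ca1 : Commute c (sumSq x1) := (h1'.mul_right h1).add_right (h1.mul_right h1')
    have ca2 : Commute c (sumSq x2) := (h2'.mul_right h2).add_right (h2.mul_right h2')
    intro u hu v hv
    simp only [Set.mem_insert_iff, Set.mem_singleton_iff] at hu hv
    rcases hu with rfl | rfl | rfl | rfl | rfl <;> rcases hv with rfl | rfl | rfl | rfl | rfl <;>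
      first
        | rfl
        | exact h.hp.eq | exact h.hp.symm.eq | exact pa1.eq | exact pa1.symm.eq
        | exact pa2.eq | exact pa2.symm.eq | exact p1a2.eq | exact p1a2.symm.eq
        | exact p2a1.eq | exact p2a1.symm.eq | exact ha12.eq | exact ha12.symm.eq
        | exact ca1.eq | exact ca1.symm.eq | exact ca2.eq | exact ca2.symm.eq
        | exact k1.eq | exact k1.symm.eq | exact k2.eq | exact k2.symm.eq)
  have m : ∀ {v : G}, v ∈ ({p1, p2, sumSq x1, sumSq x2, c} : Set G) →
      v ∈ Subring.closure ({p1, p2, sumSq x1, sumSq x2, c} : Set G) :=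
    fun hv => Subring.subset_closure hv
  have key := key_tail (R := Subring.closure ({p1, p2, sumSq x1, sumSq x2, c} : Set G))
    (p := ⟨p1, m (by simp)⟩) (p2 := ⟨p2, m (by simp)⟩) (a1 := ⟨sumSq x1, m (by simp)⟩)
    (a2 := ⟨sumSq x2, m (by simp)⟩) (c := ⟨c, m (by simp)⟩)
    (Subtype.ext h.g1.absorb) (Subtype.ext h.g2.absorb) (Subtype.ext hc)
  have e := congrArg (Subring.closure ({p1, p2, sumSq x1, sumSq x2, c} : Set G)).subtype key
  simp only [pairT, pairK, map_add, map_mul, map_sub, map_one, Subring.coe_subtype] at e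
  rw [show sumSq (pairY x1 x2 (nodeB p1 p2)) = pairT (nodeB p1 p2) (sumSq x1) (sumSq x2)
    from h.pair.pairY_norm]
  exact e

/-- A top vector of either input is a top vector of the node. -/
theorem top_core (h : Two x1 p1 x2 p2) {E U : G}
    (e1 : pairY x1 x2 (nodeB p1 p2) * E = U * E)
    (e2 : star (pairY x1 x2 (nodeB p1 p2)) * (U * E) = E)
    (e3 : star (pairY x1 x2 (nodeB p1 p2)) * E = 0) :
    nodeP x1 p1 x2 p2 * E = E ∧ star (nodeX x1 p1 x2 p2) * nodeX x1 p1 x2 p2 * E = E := by
  set y := pairY x1 x2 (nodeB p1 p2)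
  have t : sumSq y * E = E := by
    simp only [sumSq, add_mul, mul_assoc, e1, e2, e3, mul_zero, add_zero]
  have hf : ∀ {f : ℝ → ℝ}, Continuous f → f 1 = 1 → cfc f (sumSq y) * E = E := fun hf h1 => by
    rw [cfc_mul_eigen (sumSq_isSelfAdjoint y) t hf, h1, one_smul]
  refine ⟨hf (ramp_continuous _ _) (ramp_one (by norm_num) (by norm_num)), ?_⟩
  have hs := hf (scal_continuous (r := (1/8:ℝ)) (by norm_num)) (scal_one (by norm_num))
  change star (y * cfc _ (sumSq y)) * (y * cfc (scal (1/8)) (sumSq y)) * E = E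
  rw [star_mul, (cfc_predicate (p := IsSelfAdjoint) (scal (1/8)) (sumSq y)).star_eq]
  simp only [mul_assoc, hs, e1, e2]

theorem star_kill {x E : G} (hA : star x * x * E = E) (ha : sumSq x * E = E) :
    star x * E = 0 := by
  have h0 : x * star x * E = 0 := by
    have := ha; rw [sumSq, add_mul, hA, add_eq_left] at this; exact this
  refine (CStarRing.star_mul_self_eq_zero_iff _).1 ?_
  rw [star_mul, star_star, mul_assoc, ← mul_assoc x, h0, mul_zero]

theorem Two.top_head (h : Two x1 p1 x2 p2) {E : G} (hp : p1 * E = E)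
    (hA : star x1 * x1 * E = E) :
    nodeP x1 p1 x2 p2 * E = E ∧ star (nodeX x1 p1 x2 p2) * nodeX x1 p1 x2 p2 * E = E := by
  have hP := h.pair
  set be := nodeB p1 p2 with hbe
  have b0 : be * E = 0 := by
    have e : (1 - p1) * E = 0 := by rw [sub_mul, one_mul, hp, sub_self]
    rw [hbe, nodeB, ((Commute.one_left p2).sub_left h.hp).eq, mul_assoc, e, mul_zero]
  have a0 : (1 - be) * E = E := by rw [sub_mul, one_mul, b0, sub_zero]
  have pa : Commute (sumSq x1) p1 :=
    ((h.g1.comm_star.mul_right h.g1.comm).add_right (h.g1.comm.mul_right h.g1.comm_star)).symm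
  have ha : sumSq x1 * E = E :=
    calc sumSq x1 * E = sumSq x1 * (p1 * E) := by rw [hp]
      _ = p1 * sumSq x1 * E := by rw [← mul_assoc, pa.eq]
      _ = E := by rw [show p1 * sumSq x1 = p1 from h.g1.absorb, hp]
  have AE : sumSq x1 * x1 * E = x1 * E := by
    rw [(sumSq_comm h.g1.sq).eq, mul_assoc, ha]
  have bv : be * (x1 * E) = 0 := by rw [← mul_assoc, hP.cb1.eq, mul_assoc, b0, mul_zero]
  have av : (1 - be) * (x1 * E) = x1 * E := by rw [sub_mul, one_mul, bv, sub_zero]
  have sA : star (sumSq x1 * x1) = star x1 * sumSq x1 := by rw [star_mul, sumSq_self]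
  have s1 : star (1 - be) = 1 - be := by rw [star_sub, star_one, hP.self]
  refine top_core h (U := x1) ?_ ?_ ?_
  · simp only [pairY, ← hbe, add_mul]
    rw [mul_assoc, AE, mul_assoc, av, av]
    rw [((hP.cb2.mul_left hP.cb2)).eq, mul_assoc x2, mul_assoc be be E, b0, mul_zero, mul_zero,
      ((PairData.al hP.bM).mul_left hP.bM).eq, mul_assoc _ ((1 - be) * be) E,
      mul_assoc (1 - be) be E, b0, mul_zero, mul_zero, add_zero, add_zero]
  · simp only [pairY, ← hbe, star_add, star_mul (_ * _), s1, hP.self, sA, add_mul,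
      star_mul (1 - be) (1 - be), star_mul be be, star_mul (1 - be) be]
    simp only [mul_assoc, av, bv, mul_zero, add_zero]
    rw [← mul_assoc (sumSq x1) x1, AE, ← mul_assoc, hA]
  · simp only [pairY, ← hbe, star_add, star_mul (_ * _), s1, hP.self, sA, add_mul,
      star_mul (1 - be) (1 - be), star_mul be be, star_mul (1 - be) be]
    simp only [mul_assoc, a0, b0, mul_zero, add_zero]
    rw [ha]
    exact star_kill hA ha

theorem Two.top_tail (h : Two x1 p1 x2 p2) {E : G} (hp : p1 * E = 0) (hp2 : p2 * E = E)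
    (hA : star x2 * x2 * E = E) :
    nodeP x1 p1 x2 p2 * E = E ∧ star (nodeX x1 p1 x2 p2) * nodeX x1 p1 x2 p2 * E = E := by
  have hP := h.pair
  set be := nodeB p1 p2 with hbe
  have b0 : be * E = E := by
    rw [hbe, nodeB, mul_assoc, hp2, sub_mul, one_mul, hp, sub_zero]
  have a0 : (1 - be) * E = 0 := by rw [sub_mul, one_mul, b0, sub_self]
  have pa : Commute (sumSq x2) p2 :=
    ((h.g2.comm_star.mul_right h.g2.comm).add_right (h.g2.comm.mul_right h.g2.comm_star)).symm
  have ha : sumSq x2 * E = E :=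
    calc sumSq x2 * E = sumSq x2 * (p2 * E) := by rw [hp2]
      _ = p2 * sumSq x2 * E := by rw [← mul_assoc, pa.eq]
      _ = E := by rw [show p2 * sumSq x2 = p2 from h.g2.absorb, hp2]
  have bv : be * (x2 * E) = x2 * E := by rw [← mul_assoc, hP.cb2.eq, mul_assoc, b0]
  have av : (1 - be) * (x2 * E) = 0 := by rw [sub_mul, one_mul, bv, sub_self]
  have s1 : star (1 - be) = 1 - be := by rw [star_sub, star_one, hP.self]
  refine top_core h (U := x2) ?_ ?_ ?_
  · simp only [pairY, ← hbe, add_mul]
    rw [((PairData.al hP.bA).mul_left (PairData.al hP.bA)).eq,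
      ((PairData.al hP.bM).mul_left hP.bM).eq]
    simp only [mul_assoc, b0, a0, bv, mul_zero, zero_add, add_zero]
  · simp only [pairY, ← hbe, star_add, star_mul (_ * _), s1, hP.self, add_mul,
      star_mul (1 - be) (1 - be), star_mul be be, star_mul (1 - be) be]
    simp only [mul_assoc, av, bv, mul_zero, zero_add, add_zero]
    rw [← mul_assoc, hA]
  · simp only [pairY, ← hbe, star_add, star_mul (_ * _), s1, hP.self, add_mul,
      star_mul (1 - be) (1 - be), star_mul be be, star_mul (1 - be) be]
    simp only [mul_assoc, a0, b0, mul_zero, zero_add, add_zero]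
    exact star_kill hA ha

end Vale.Agent.P101
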