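import Vale.Agent.P101.Defs

/-!
P101, L5: the exact algebraic identities of the pairing
`y = al^2 a1 x1 + be^2 x2 + i al be (z1 x2 - x1 z2)`.
-/

namespace Vale.Agent.P101

variable {G : Type*} [Ring G] [StarRing G]

/-- `x* x + x x*`. -/
def sumSq (x : G) : G := star x * x + x * star x

/-- `x* x - x x*`. -/
def difSq (x : G) : G := star x * x - x * star x

theorem sumSq_self (x : G) : star (sumSq x) = sumSq x := by
  simp [sumSq, star_mul]

theorem difSq_self (x : G) : star (difSq x) = difSq x := by
  simp [difSq, star_mul]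

section
variable {x : G} (h : x * x = 0)
include h

theorem star_sq : star x * star x = 0 := by rw [← star_mul, h, star_zero]

theorem sumSq_mul : sumSq x * x = x * star x * x := by
  simp [sumSq, add_mul, mul_assoc, h]

theorem mul_sumSq : x * sumSq x = x * star x * x := by
  simp [sumSq, mul_add, ← mul_assoc, h]

theorem sumSq_comm : Commute (sumSq x) x := (sumSq_mul h).trans (mul_sumSq h).symm

theorem sumSq_comm_star : Commute (sumSq x) (star x) := by
  have := (sumSq_comm h).star_star
  rwa [sumSq_self] at this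

theorem mul_difSq : x * difSq x = sumSq x * x := by
  simp [difSq, sumSq, mul_sub, add_mul, ← mul_assoc, h, mul_assoc _ x x]


theorem difSq_mul : difSq x * x = -(sumSq x * x) := by
  simp [difSq, sumSq, sub_mul, add_mul, mul_assoc, h]

theorem star_mul_difSq : star x * difSq x = -(sumSq x * star x) := by
  have e := congrArg star (difSq_mul h)
  rw [star_mul, difSq_self, star_neg, star_mul, sumSq_self] at e
  rw [e, (sumSq_comm_star h).eq]

theorem difSq_mul_star : difSq x * star x = sumSq x * star x := by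
  have e := congrArg star (mul_difSq h)
  rw [star_mul, difSq_self, star_mul, sumSq_self] at e
  rw [e, (sumSq_comm_star h).eq]

theorem difSq_sq : difSq x * difSq x = sumSq x * sumSq x := by
  have h2 : difSq x * difSq x - sumSq x * sumSq x
      = -(star x * (x * x) * star x + star x * (x * x) * star x)
        - (x * (star x * star x) * x + x * (star x * star x) * x) := by
    simp only [difSq, sumSq]; noncomm_ring
  rw [h, star_sq h] at h2
  simpa [sub_eq_zero] using h2

end

theorem term_mul {c d U V : G} (hd : Commute U d) : c * U * (d * V) = c * d * (U * V) :=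
  hd.mul_mul_mul_comm c V

variable [Algebra ℂ G] [StarModule ℂ G]

/-- The pairing of two commuting square-zero elements with coefficient `be`. -/
noncomputable def pairY (x1 x2 be : G) : G :=
  (1 - be) * (1 - be) * (sumSq x1 * x1) + be * be * x2
    + (1 - be) * be * (Complex.I • (difSq x1 * x2 - x1 * difSq x2))

/-- The hypotheses of the pairing. -/
structure PairData (x1 x2 be : G) : Prop where
  sq1 : x1 * x1 = 0
  sq2 : x2 * x2 = 0
  c12 : Commute x1 x2
  c12' : Commute x1 (star x2)
  self : star be = be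
  cb1 : Commute be x1
  cb2 : Commute be x2
  absorb : be * sumSq x2 = be

namespace PairData

variable {x1 x2 be : G} (h : PairData x1 x2 be)
include h

theorem s12 : Commute (star x1) (star x2) := h.c12.star_star

theorem s12' : Commute (star x1) x2 := by simpa using h.c12'.star_star

theorem bs1 : Commute be (star x1) := by
  have := h.cb1.star_star; rwa [h.self] at this

theorem bs2 : Commute be (star x2) := by
  have := h.cb2.star_star; rwa [h.self] at this

/-- A product of the first family commutes with one of the second. -/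
theorem fam {v : G} (h1 : Commute x1 v) (h2 : Commute (star x1) v) :
    Commute (sumSq x1) v ∧ Commute (difSq x1) v :=
  ⟨(h2.mul_left h1).add_left (h1.mul_left h2), (h2.mul_left h1).sub_left (h1.mul_left h2)⟩

theorem x1a2 : Commute x1 (sumSq x2) :=
  ((h.c12').mul_right h.c12).add_right (h.c12.mul_right h.c12')

theorem x1z2 : Commute x1 (difSq x2) :=
  ((h.c12').mul_right h.c12).sub_right (h.c12.mul_right h.c12')

theorem sx1a2 : Commute (star x1) (sumSq x2) :=
  (h.s12.mul_right h.s12').add_right (h.s12'.mul_right h.s12)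

theorem sx1z2 : Commute (star x1) (difSq x2) :=
  (h.s12.mul_right h.s12').sub_right (h.s12'.mul_right h.s12)

theorem bfam : Commute be (sumSq x1) ∧ Commute be (difSq x1) ∧ Commute be (sumSq x2) ∧
    Commute be (difSq x2) :=
  ⟨(h.bs1.mul_right h.cb1).add_right (h.cb1.mul_right h.bs1),
    (h.bs1.mul_right h.cb1).sub_right (h.cb1.mul_right h.bs1),
    (h.bs2.mul_right h.cb2).add_right (h.cb2.mul_right h.bs2),
    (h.bs2.mul_right h.cb2).sub_right (h.cb2.mul_right h.bs2)⟩

theorem bA : Commute be (sumSq x1 * x1) := h.bfam.1.mul_right h.cb1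

theorem bM : Commute be (Complex.I • (difSq x1 * x2 - x1 * difSq x2)) :=
  ((h.bfam.2.1.mul_right h.cb2).sub_right (h.cb1.mul_right h.bfam.2.2.2)).smul_right _

omit [Algebra ℂ G] [StarModule ℂ G] h in
theorem al {v : G} (hv : Commute be v) : Commute (1 - be) v := (Commute.one_left v).sub_left hv

theorem absorb' : be * sumSq x2 = be := h.absorb

theorem pairY_sq : pairY x1 x2 be * pairY x1 x2 be = 0 := by
  set A := sumSq x1 * x1 with hA
  set M := difSq x1 * x2 - x1 * difSq x2 with hM
  set c1 := (1 - be) * (1 - be)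
  set c2 := be * be
  set c3 := (1 - be) * be
  have aA : Commute A x2 := ((fam h h.c12 h.s12').1).mul_left h.c12
  have AA : A * A = 0 := by
    rw [hA, (sumSq_comm h.sq1).symm.mul_mul_mul_comm, h.sq1, mul_zero]
  have AM : A * M = sumSq x1 * A * x2 := by
    rw [hA, hM, mul_sub, ← mul_assoc (sumSq x1 * x1) (difSq x1), mul_assoc (sumSq x1) x1 (difSq x1),
      mul_difSq h.sq1, ← mul_assoc (sumSq x1 * x1) x1, mul_assoc (sumSq x1) x1 x1, h.sq1]
    simp [mul_assoc]
  have MA : M * A = -(sumSq x1 * A * x2) := by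
    rw [hM, sub_mul, mul_assoc (difSq x1), aA.symm.eq, ← mul_assoc (difSq x1), mul_assoc x1,
      (((fam h h.x1z2 h.sx1z2).1).mul_left h.x1z2).symm.eq, ← mul_assoc x1]
    have e1 : difSq x1 * A = -(sumSq x1 * A) := by
      rw [hA, ← mul_assoc, (Commute.eq (show Commute (difSq x1) (sumSq x1) from
        (((sumSq_comm_star h.sq1).mul_right (sumSq_comm h.sq1)).sub_right
          ((sumSq_comm h.sq1).mul_right (sumSq_comm_star h.sq1))).symm)),
        mul_assoc, difSq_mul h.sq1, mul_neg]
    have e2 : x1 * A = 0 := by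
      rw [hA, ← mul_assoc, ← (sumSq_comm h.sq1).eq, mul_assoc, h.sq1, mul_zero]
    rw [e1, e2, zero_mul, sub_zero, neg_mul]
  have BM : x2 * M = -(x1 * (sumSq x2 * x2)) := by
    rw [hM, mul_sub, ← mul_assoc, ((fam h h.c12 h.s12').2).symm.eq, mul_assoc, h.sq2, mul_zero,
      ← mul_assoc, h.c12.symm.eq, mul_assoc, mul_difSq h.sq2, zero_sub]
  have MB : M * x2 = x1 * (sumSq x2 * x2) := by
    rw [hM, sub_mul, mul_assoc, h.sq2, mul_zero, mul_assoc, difSq_mul h.sq2]
    simp
  have MM : M * M = A * (sumSq x2 * x2) + A * (sumSq x2 * x2) := by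
    have k1 : difSq x1 * x2 * (difSq x1 * x2) = 0 := by
      rw [((fam h h.c12 h.s12').2).symm.mul_mul_mul_comm, h.sq2, mul_zero]
    have k2 : difSq x1 * x2 * (x1 * difSq x2) = -(A * (sumSq x2 * x2)) := by
      rw [h.c12.symm.mul_mul_mul_comm, difSq_mul h.sq1, mul_difSq h.sq2, neg_mul]
    have k3 : x1 * difSq x2 * (difSq x1 * x2) = -(A * (sumSq x2 * x2)) := by
      rw [((fam h h.x1z2 h.sx1z2).2).symm.mul_mul_mul_comm, mul_difSq h.sq1, difSq_mul h.sq2,
        mul_neg]
    have k4 : x1 * difSq x2 * (x1 * difSq x2) = 0 := by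
      rw [h.x1z2.symm.mul_mul_mul_comm, h.sq1, zero_mul]
    rw [hM, sub_mul, mul_sub, mul_sub, k1, k2, k3, k4]
    abel
  have bM' : Commute be (Complex.I • M) := h.bM
  have c1A : ∀ {U : G}, Commute be U → Commute U c1 ∧ Commute U c2 ∧ Commute U c3 :=
    fun hU => ⟨((al hU).mul_left (al hU)).symm, (hU.mul_left hU).symm,
      ((al hU).mul_left hU).symm⟩
  have qA := c1A (show Commute be A from h.bA)
  have qB := c1A h.cb2
  have qM := c1A bM'
  have cc : Commute (1 - be) be := (Commute.one_left _).sub_left (Commute.refl _)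
  have e13 : c1 * c3 = c3 * c1 := by
    exact ((((Commute.refl (1 - be)).mul_right cc).mul_left
      ((Commute.refl (1 - be)).mul_right cc))).eq
  have e23 : c2 * c3 = c3 * c2 :=
    ((cc.symm.mul_right (Commute.refl be)).mul_left (cc.symm.mul_right (Commute.refl be))).eq
  have e12 : c1 * c2 = c3 * c3 := (cc.symm.mul_mul_mul_comm (1 - be) be).symm
  have e21 : c2 * c1 = c3 * c3 := by
    rw [← e12]
    exact (((cc.mul_left cc).mul_right (cc.mul_left cc))).symm.eq
  have kA : c3 * c3 * (A * (sumSq x2 * x2)) = c3 * c3 * (A * x2) := by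
    have ab : Commute A (sumSq x2) := ((fam h h.x1a2 h.sx1a2).1).mul_left h.x1a2
    have hc : c3 * c3 * sumSq x2 = c3 * c3 := by
      simp only [c3]
      rw [mul_assoc, mul_assoc (1 - be) be (sumSq x2), h.absorb]
    rw [← mul_assoc A, ab.eq, mul_assoc (sumSq x2), ← mul_assoc (c3 * c3), hc]
  have SM : (Complex.I • M) * (Complex.I • M) = -(M * M) := by
    rw [smul_mul_assoc, mul_smul_comm, smul_smul, Complex.I_mul_I, neg_one_smul]
  have hy : pairY x1 x2 be = c1 * A + c2 * x2 + c3 * (Complex.I • M) := rfl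
  rw [hy]
  simp only [add_mul, mul_add, term_mul qA.1, term_mul qA.2.1, term_mul qA.2.2, term_mul qB.1,
    term_mul qB.2.1, term_mul qB.2.2, term_mul qM.1, term_mul qM.2.1, term_mul qM.2.2]
  rw [AA, h.sq2, SM, MM, e12, e21, e13, e23, smul_mul_assoc Complex.I M A,
    smul_mul_assoc Complex.I M x2, mul_smul_comm Complex.I A M, mul_smul_comm Complex.I x2 M,
    AM, MA, BM, MB, aA.symm.eq, mul_neg, mul_add (c3 * c3) (A * (sumSq x2 * x2)), kA]
  simp only [smul_neg, mul_neg, mul_zero]
  abel

theorem pairY_norm : star (pairY x1 x2 be) * pairY x1 x2 be + pairY x1 x2 be * star (pairY x1 x2 be)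
    = (1 - be) * (1 - be) * ((1 - be) * (1 - be)) * (sumSq x1 * sumSq x1 * sumSq x1)
      + be * be * (be * be) * sumSq x2
      + (1 - be) * be * ((1 - be) * be)
        * (sumSq x1 * sumSq x1 * sumSq x2 + sumSq x1 * (sumSq x2 * sumSq x2)) := by
  set a1 := sumSq x1 with ha1
  set a2 := sumSq x2 with ha2
  set A := a1 * x1 with hA
  set A' := a1 * star x1 with hA'
  set M := difSq x1 * x2 - x1 * difSq x2 with hM
  set M' := difSq x1 * star x2 - star x1 * difSq x2 with hM'
  set c1 := (1 - be) * (1 - be)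
  set c2 := be * be
  set c3 := (1 - be) * be
  have f2 := fam h h.c12 h.s12'
  have f2' := fam h h.c12' h.s12
  have fz := fam h h.x1z2 h.sx1z2
  have sA : star A = A' := by
    rw [hA, hA', star_mul, sumSq_self]; exact (sumSq_comm_star h.sq1).symm.eq
  have sM : star M = M' := by
    rw [hM, hM', star_sub, star_mul, star_mul, difSq_self, difSq_self, f2'.2.symm.eq,
      h.sx1z2.symm.eq]
  have cc : Commute (1 - be) be := (Commute.one_left _).sub_left (Commute.refl _)
  have s1 : star (1 - be) = 1 - be := by rw [star_sub, star_one, h.self]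
  have cbA' : Commute be A' := h.bfam.1.mul_right h.bs1
  have cbM' : Commute be M' :=
    (h.bfam.2.1.mul_right h.bs2).sub_right (h.bs1.mul_right h.bfam.2.2.2)
  have cbMs : Commute be ((-Complex.I) • M') := cbM'.smul_right _
  have hy : pairY x1 x2 be = c1 * A + c2 * x2 + c3 * (Complex.I • M) := rfl
  have hys : star (pairY x1 x2 be) = c1 * A' + c2 * star x2 + c3 * ((-Complex.I) • M') := by
    rw [hy, star_add, star_add, star_mul c1 A, star_mul c2 x2, star_mul c3 (Complex.I • M), sA, star_smul, sM]
    simp only [c1, c2, c3, star_mul, s1, h.self]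
    rw [((al cbA').mul_left (al cbA')).symm.eq, ((h.bs2).mul_left h.bs2).symm.eq,
      show star Complex.I = -Complex.I from Complex.conj_I, cc.symm.eq,
      ((al cbMs).mul_left cbMs).symm.eq]
  have c1A : ∀ {U : G}, Commute be U → Commute U c1 ∧ Commute U c2 ∧ Commute U c3 :=
    fun hU => ⟨((al hU).mul_left (al hU)).symm, (hU.mul_left hU).symm,
      ((al hU).mul_left hU).symm⟩
  have qA := c1A (show Commute be A from h.bA)
  have qB := c1A h.cb2
  have qM := c1A (show Commute be (Complex.I • M) from h.bM)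
  have qA' := c1A cbA'
  have qB' := c1A h.bs2
  have qM' := c1A cbMs
  have e13 : c1 * c3 = c3 * c1 :=
    ((((Commute.refl (1 - be)).mul_right cc).mul_left
      ((Commute.refl (1 - be)).mul_right cc))).eq
  have e23 : c2 * c3 = c3 * c2 :=
    ((cc.symm.mul_right (Commute.refl be)).mul_left (cc.symm.mul_right (Commute.refl be))).eq
  have e12 : c1 * c2 = c3 * c3 := (cc.symm.mul_mul_mul_comm (1 - be) be).symm
  have e21 : c2 * c1 = c3 * c3 := by
    rw [← e12]
    exact (((cc.mul_left cc).mul_right (cc.mul_left cc))).symm.eq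
  have AA : A' * A + A * A' = a1 * a1 * a1 := by
    rw [hA, hA', (sumSq_comm_star h.sq1).symm.mul_mul_mul_comm,
      (sumSq_comm h.sq1).symm.mul_mul_mul_comm, ← mul_add]
    rfl
  have BB : star x2 * x2 + x2 * star x2 = a2 := rfl
  have AB : A' * x2 + x2 * A' = A' * x2 + A' * x2 := by
    rw [(show Commute A' x2 from f2.1.mul_left h.s12').symm.eq]
  have BA : star x2 * A + A * star x2 = A * star x2 + A * star x2 := by
    rw [(show Commute A (star x2) from f2'.1.mul_left h.c12').symm.eq]
  have z1a1 : Commute (difSq x1) a1 :=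
    (((sumSq_comm_star h.sq1).mul_right (sumSq_comm h.sq1)).sub_right
      ((sumSq_comm h.sq1).mul_right (sumSq_comm_star h.sq1))).symm
  have AM : A' * M + M * A' = -(a1 * a1 * difSq x2) := by
    have k1 : A' * (difSq x1 * x2) = -(a1 * A' * x2) := by
      rw [← mul_assoc, hA', mul_assoc a1, star_mul_difSq h.sq1]; simp [mul_assoc]; rfl
    have k2 : difSq x1 * x2 * A' = a1 * A' * x2 := by
      rw [mul_assoc, (show Commute x2 A' from (f2.1.mul_left h.s12').symm).eq, ← mul_assoc,
        hA', ← mul_assoc, z1a1.eq, mul_assoc a1, difSq_mul_star h.sq1]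
    have k3 : x1 * difSq x2 * A' = x1 * A' * difSq x2 := by
      rw [mul_assoc x1 (difSq x2) A', (show Commute (difSq x2) A' from (fz.1.mul_left h.sx1z2).symm).eq,
        ← mul_assoc x1 A']
    have k4 : A' * x1 + x1 * A' = a1 * a1 := by
      rw [hA', mul_assoc, ← mul_assoc x1, (sumSq_comm h.sq1).symm.eq, mul_assoc a1 x1, ← mul_add]
      rfl
    calc A' * M + M * A'
        = (A' * (difSq x1 * x2) + difSq x1 * x2 * A')
          - (A' * (x1 * difSq x2) + x1 * difSq x2 * A') := by rw [hM]; noncomm_ring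
      _ = -(a1 * a1 * difSq x2) := by
        rw [k1, k2, k3, ← mul_assoc A' x1, ← add_mul, k4]; abel
  have BM : star x2 * M + M * star x2 = difSq x1 * a2 := by
    have k1 : star x2 * (difSq x1 * x2) = difSq x1 * (star x2 * x2) := by
      rw [← mul_assoc, f2'.2.symm.eq, mul_assoc]
    have k2 : star x2 * (x1 * difSq x2) = -(x1 * (sumSq x2 * star x2)) := by
      rw [← mul_assoc, h.c12'.symm.eq, mul_assoc, star_mul_difSq h.sq2, mul_neg]
    have k3 : x1 * difSq x2 * star x2 = x1 * (sumSq x2 * star x2) := by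
      rw [mul_assoc, difSq_mul_star h.sq2]
    rw [hM, mul_sub, sub_mul, k1, k2, k3, mul_assoc, sub_neg_eq_add, ha2]
    simp only [sumSq]
    noncomm_ring
  have MMn : M' * M + M * M' = a1 * a1 * a2 + a1 * (a2 * a2)
      - ((A * (a2 * star x2) + A' * (a2 * x2)) + (A * (a2 * star x2) + A' * (a2 * x2))) := by
    have k1 : difSq x1 * star x2 * (difSq x1 * x2) = a1 * a1 * (star x2 * x2) := by
      rw [f2'.2.symm.mul_mul_mul_comm, difSq_sq h.sq1]
    have k2 : difSq x1 * star x2 * (x1 * difSq x2) = A * (a2 * star x2) := by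
      rw [h.c12'.symm.mul_mul_mul_comm, difSq_mul h.sq1, star_mul_difSq h.sq2, neg_mul_neg]
    have k3 : star x1 * difSq x2 * (difSq x1 * x2) = A' * (a2 * x2) := by
      rw [fz.2.symm.mul_mul_mul_comm, star_mul_difSq h.sq1, difSq_mul h.sq2, neg_mul_neg]
    have k4 : star x1 * difSq x2 * (x1 * difSq x2) = star x1 * x1 * (a2 * a2) := by
      rw [h.x1z2.symm.mul_mul_mul_comm, difSq_sq h.sq2]
    have k5 : difSq x1 * x2 * (difSq x1 * star x2) = a1 * a1 * (x2 * star x2) := by
      rw [f2.2.symm.mul_mul_mul_comm, difSq_sq h.sq1]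
    have k6 : difSq x1 * x2 * (star x1 * difSq x2) = A' * (a2 * x2) := by
      rw [h.s12'.symm.mul_mul_mul_comm, difSq_mul_star h.sq1, mul_difSq h.sq2]
    have k7 : x1 * difSq x2 * (difSq x1 * star x2) = A * (a2 * star x2) := by
      rw [fz.2.symm.mul_mul_mul_comm, mul_difSq h.sq1, difSq_mul_star h.sq2]
    have k8 : x1 * difSq x2 * (star x1 * difSq x2) = x1 * star x1 * (a2 * a2) := by
      rw [h.sx1z2.symm.mul_mul_mul_comm, difSq_sq h.sq2]
    rw [hM, hM', sub_mul, sub_mul, mul_sub, mul_sub, mul_sub, mul_sub, k1, k2, k3, k4, k5, k6,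
      k7, k8]
    nth_rewrite 1 [ha1]
    simp only [ha2, ha1, sumSq]
    noncomm_ring
  have AMs : M' * A + A * M' = -(a1 * a1 * difSq x2) := by
    have e := congrArg star AM
    rw [star_add, star_mul A' M, star_mul M A', sM, star_neg, star_mul (a1 * a1) (difSq x2),
      difSq_self] at e
    rw [show star A' = A by rw [← sA, star_star]] at e
    rw [e, star_mul, ha1, sumSq_self]
    exact congrArg Neg.neg (((fz.1).mul_left fz.1).symm.eq)
  have BMs : M' * x2 + x2 * M' = difSq x1 * a2 := by
    have e := congrArg star BM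
    rw [star_add, star_mul (star x2) M, star_mul M (star x2), sM, star_star,
      star_mul (difSq x1) a2, difSq_self, ha2, sumSq_self] at e
    rw [e, ha2]
    exact ((fam h h.x1a2 h.sx1a2).2).symm.eq
  have kAB : ∀ {U v : G}, Commute U a2 → c3 * c3 * (U * (a2 * v)) = c3 * c3 * (U * v) := by
    intro U v hU
    have hc : c3 * c3 * a2 = c3 * c3 := by
      simp only [c3]
      rw [mul_assoc, mul_assoc (1 - be) be a2, h.absorb]
    rw [← mul_assoc U, hU.eq, mul_assoc a2, ← mul_assoc (c3 * c3), hc]
  have ab : Commute A a2 := ((fam h h.x1a2 h.sx1a2).1).mul_left h.x1a2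
  have ab' : Commute A' a2 := ((fam h h.x1a2 h.sx1a2).1).mul_left h.sx1a2
  rw [hys, hy]
  simp only [add_mul, mul_add, term_mul qA.1, term_mul qA.2.1, term_mul qA.2.2, term_mul qB.1,
    term_mul qB.2.1, term_mul qB.2.2, term_mul qM.1, term_mul qM.2.1, term_mul qM.2.2,
    term_mul qA'.1, term_mul qA'.2.1, term_mul qA'.2.2, term_mul qB'.1,
    term_mul qB'.2.1, term_mul qB'.2.2, term_mul qM'.1, term_mul qM'.2.1, term_mul qM'.2.2,
    e12, e21, e13, e23]
  simp only [smul_mul_assoc, mul_smul_comm, smul_smul]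
  have t1 : c1 * c1 * (A' * A) + c1 * c1 * (A * A') = c1 * c1 * (a1 * a1 * a1) := by
    rw [← mul_add, AA]
  have t2 : c2 * c2 * (star x2 * x2) + c2 * c2 * (x2 * star x2) = c2 * c2 * a2 := by
    rw [← mul_add, BB]
  have t12 : c3 * c3 * (A' * x2) + c3 * c3 * (x2 * A') + c3 * c3 * (star x2 * A)
      + c3 * c3 * (A * star x2) + c3 * c3 * (M' * M) + c3 * c3 * (M * M')
      = c3 * c3 * (a1 * a1 * a2 + a1 * (a2 * a2)) := by
    have : c3 * c3 * ((A * (a2 * star x2) + A' * (a2 * x2)))
        = c3 * c3 * (A * star x2 + A' * x2) := by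
      rw [mul_add, mul_add, kAB ab, kAB ab']
    calc _ = c3 * c3 * ((A' * x2 + x2 * A') + (star x2 * A + A * star x2) + (M' * M + M * M')) := by
          noncomm_ring
      _ = _ := by
          rw [AB, BA, MMn, mul_add, mul_add, mul_sub, mul_add (c3 * c3)
            (A * (a2 * star x2) + A' * (a2 * x2)), this]
          noncomm_ring
  have t13 : c3 * c1 * (A' * M) + c3 * c1 * (M * A') = c3 * c1 * (M' * A) + c3 * c1 * (A * M') := by
    rw [← mul_add, ← mul_add, AM, AMs]
  have t23 : c3 * c2 * (star x2 * M) + c3 * c2 * (M * star x2)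
      = c3 * c2 * (M' * x2) + c3 * c2 * (x2 * M') := by
    rw [← mul_add, ← mul_add, BM, BMs]
  rw [show -Complex.I * Complex.I = 1 by simp, show Complex.I * -Complex.I = 1 by simp,
    one_smul, one_smul]
  simp only [neg_smul, ← sub_eq_add_neg]
  have i13 := congrArg (fun v : G => Complex.I • v) t13
  have i23 := congrArg (fun v : G => Complex.I • v) t23
  simp only [smul_add] at i13 i23
  rw [mul_add (c3 * c3)] at t12
  rw [← t1, ← t2, ← t12]
  linear_combination (norm := module) i13 + i23

end PairData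

end Vale.Agent.P101
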