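import Vale.Agent.P101.Alg

/-!
P101: functional calculus lemmas and the normalisation of a square-zero element.
-/

namespace Vale.Agent.P101

variable {G : Type*} [CStarAlgebra G]

/-- If `a c = b c` and `b` commutes with `c`, then `f a c = f b c`. -/
theorem cfc_mul_congr {a b c : G} (ha : IsSelfAdjoint a) (hb : IsSelfAdjoint b)
    (h : a * c = b * c) (hbc : Commute b c) {f : ℝ → ℝ} (hf : Continuous f) :
    cfc f a * c = cfc f b * c := by
  rcases subsingleton_or_nontrivial G with hG | hG
  · exact Subsingleton.elim _ _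
  have hp : ∀ q : Polynomial ℝ, Polynomial.aeval a q * c = Polynomial.aeval b q * c := by
    intro q
    induction q using Polynomial.induction_on' with
    | add p q hp hq => simp only [map_add, add_mul, hp, hq]
    | monomial n r =>
      have hn : ∀ n : ℕ, a ^ n * c = b ^ n * c := by
        intro n
        induction n with
        | zero => simp
        | succ n ih =>
          rw [pow_succ, mul_assoc, h, hbc.eq, ← mul_assoc, ih, mul_assoc, ← hbc.eq, ← mul_assoc,
            ← pow_succ]
      simp only [Polynomial.aeval_monomial, mul_assoc, hn]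
  set R : ℝ := ‖a‖ + ‖b‖
  rw [← sub_eq_zero, ← sub_mul, ← norm_eq_zero]
  refine le_antisymm (le_of_forall_gt_imp_ge_of_dense fun ε hε => ?_) (norm_nonneg _)
  have hd : 0 < 2 * ‖c‖ + 1 := by positivity
  obtain ⟨q, hq⟩ := exists_polynomial_near_of_continuousOn (-R) R f hf.continuousOn
    (ε / (2 * ‖c‖ + 1)) (div_pos hε hd)
  have hcl : ∀ d : G, IsSelfAdjoint d → ‖d‖ ≤ R →
      ‖cfc f d - Polynomial.aeval d q‖ ≤ ε / (2 * ‖c‖ + 1) := by
    intro d hd' hdR
    rw [← cfc_polynomial q d hd', ← cfc_sub f q.eval d hf.continuousOn q.continuous.continuousOn]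
    refine norm_cfc_le (div_pos hε hd).le (fun x hx => ?_)
    have hxd : |x| ≤ R := le_trans (by simpa using spectrum.norm_le_norm_of_mem hx) hdR
    rw [Real.norm_eq_abs, abs_sub_comm]
    exact (hq x ⟨(abs_le.1 hxd).1, (abs_le.1 hxd).2⟩).le
  calc ‖(cfc f a - cfc f b) * c‖
      = ‖((cfc f a - Polynomial.aeval a q) - (cfc f b - Polynomial.aeval b q)) * c‖ := by
        simp only [sub_mul, hp q]; abel_nf
    _ ≤ (ε / (2 * ‖c‖ + 1) + ε / (2 * ‖c‖ + 1)) * ‖c‖ := by
        refine le_trans (norm_mul_le _ _) (mul_le_mul_of_nonneg_right ?_ (norm_nonneg _))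
        exact le_trans (norm_sub_le _ _) (add_le_add (hcl a ha (by simp [R]))
          (hcl b hb (by simp [R])))
    _ = ε / (2 * ‖c‖ + 1) * (2 * ‖c‖) := by ring
    _ ≤ ε / (2 * ‖c‖ + 1) * (2 * ‖c‖ + 1) :=
        mul_le_mul_of_nonneg_left (by linarith) (div_pos hε hd).le
    _ = ε := by field_simp

/-- If `a c = r c`, then `f a c = f r c`. -/
theorem cfc_mul_eigen {a c : G} (ha : IsSelfAdjoint a) (h : a * c = c) {f : ℝ → ℝ}
    (hf : Continuous f) : cfc f a * c = f 1 • c := by
  have h1 := cfc_mul_congr ha (IsSelfAdjoint.one G) (by rw [h, one_mul]) (Commute.one_left c) hf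
  rw [h1, cfc_apply_one (R := ℝ), Algebra.algebraMap_eq_smul_one, smul_one_mul]

theorem sumSq_isSelfAdjoint (x : G) : IsSelfAdjoint (sumSq x) := sumSq_self x

/-- Ramp from zero at `lo` to one at `hi`. -/
noncomputable def ramp (lo hi : ℝ) (t : ℝ) : ℝ := min 1 (max 0 ((t - lo) / (hi - lo)))

@[fun_prop]
theorem ramp_continuous (lo hi : ℝ) : Continuous (ramp lo hi) := by
  unfold ramp; fun_prop

theorem ramp_mem (lo hi t : ℝ) : 0 ≤ ramp lo hi t ∧ ramp lo hi t ≤ 1 :=
  ⟨le_min zero_le_one (le_max_left _ _), min_le_left _ _⟩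

theorem ramp_zero {lo hi t : ℝ} (h : lo < hi) (ht : t ≤ lo) : ramp lo hi t = 0 := by
  have : (t - lo) / (hi - lo) ≤ 0 := div_nonpos_of_nonpos_of_nonneg (by linarith) (by linarith)
  unfold ramp; rw [max_eq_left this]; simp

theorem ramp_one {lo hi t : ℝ} (h : lo < hi) (ht : hi ≤ t) : ramp lo hi t = 1 := by
  have : 1 ≤ (t - lo) / (hi - lo) := by rw [le_div_iff₀ (by linarith)]; linarith
  unfold ramp; rw [max_eq_right (by linarith)]; exact min_eq_left this

/-- The scaling function. -/
noncomputable def scal (r t : ℝ) : ℝ := (Real.sqrt (max t r))⁻¹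

theorem scal_continuous {r : ℝ} (hr : 0 < r) : Continuous (scal r) := by
  unfold scal
  exact Continuous.inv₀ (by fun_prop)
    (fun t => (Real.sqrt_pos.2 (lt_max_of_lt_right hr)).ne')

theorem scal_sq {r : ℝ} (hr : 0 < r) (t : ℝ) : scal r t * scal r t * t = t / max t r := by
  have hm : 0 < max t r := lt_max_of_lt_right hr
  have h := Real.mul_self_sqrt hm.le
  have h0 := (Real.sqrt_pos.2 hm).ne'
  unfold scal; rw [← mul_inv, h]; ring

theorem scal_one {r : ℝ} (hr : r ≤ 1) : scal r 1 = 1 := by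
  simp [scal, max_eq_left hr]

/-- The rescaled element. -/
noncomputable def rescale (r : ℝ) (y : G) : G := y * cfc (scal r) (sumSq y)

section
variable {y : G} (hy : y * y = 0) {r : ℝ}
include hy

theorem comm_gate (f : ℝ → ℝ) :
    Commute (cfc f (sumSq y)) y ∧ Commute (cfc f (sumSq y)) (star y) :=
  ⟨(sumSq_comm hy).cfc_real f, (sumSq_comm_star hy).cfc_real f⟩

theorem rescale_sq : rescale r y * rescale r y = 0 := by
  rw [rescale, (comm_gate hy _).1.mul_mul_mul_comm, hy, zero_mul]

theorem rescale_sumSq (hr : 0 < r) :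
    sumSq (rescale r y) = cfc (fun t => t / max t r) (sumSq y) := by
  have hs : star (cfc (scal r) (sumSq y)) = cfc (scal r) (sumSq y) :=
    (cfc_predicate (p := IsSelfAdjoint) _ _).star_eq
  obtain ⟨h1, h2⟩ := comm_gate hy (scal r)
  have hc := scal_continuous hr
  set g := cfc (scal r) (sumSq y) with hg
  have e : sumSq (rescale r y) = g * g * sumSq y := by
    have r1 : rescale r y = g * y := h1.symm.eq
    have r2 : star (rescale r y) = g * star y := by
      rw [rescale, star_mul, ← hg, hs]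
    unfold sumSq
    rw [r2, r1, h2.symm.mul_mul_mul_comm, h1.symm.mul_mul_mul_comm, ← mul_add]
  rw [e, hg, ← cfc_mul (scal r) (scal r) (sumSq y) hc.continuousOn hc.continuousOn]
  nth_rewrite 2 [← cfc_id' ℝ (sumSq y) (sumSq_isSelfAdjoint y)]
  rw [← cfc_mul (fun x => scal r x * scal r x) (fun x => x) (sumSq y) (hc.mul hc).continuousOn
    continuous_id.continuousOn]
  exact cfc_congr (fun t _ => scal_sq hr t)

variable [PartialOrder G] [StarOrderedRing G]

theorem rescale_gated (hr : 0 < r) {f : ℝ → ℝ} (hf : Continuous f)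
    (h01 : ∀ t, 0 ≤ f t ∧ f t ≤ 1) (h0 : ∀ t ≤ r, f t = 0) :
    Gated (rescale r y) (cfc f (sumSq y)) := by
  have hq : Continuous fun t : ℝ => t / max t r :=
    continuous_id.div (by fun_prop) (fun t => (lt_max_of_lt_right hr).ne')
  refine ⟨rescale_sq hy, (comm_gate hy f).1.mul_right ?_, cfc_nonneg (fun t _ => (h01 t).1),
    cfc_le_one _ _ (fun t _ => (h01 t).2), ?_, ?_⟩
  · exact ((Commute.refl _).cfc_real _).symm.cfc_real f
  · change sumSq (rescale r y) ≤ 1
    rw [rescale_sumSq hy hr]
    exact cfc_le_one _ _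
      (fun t _ => (div_le_one (lt_max_of_lt_right hr)).2 (le_max_left t r))
  · change cfc f (sumSq y) * sumSq (rescale r y) = _
    rw [rescale_sumSq hy hr, ← cfc_mul _ _ _ hf.continuousOn hq.continuousOn]
    refine cfc_congr (fun t _ => ?_)
    rcases le_or_gt t r with h | h
    · simp [h0 t h]
    · rw [max_eq_left h.le, div_self (by linarith), mul_one]

end

end Vale.Agent.P101
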