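import Vale.Agent.P101.FullSpec
import Vale.Agent.P101.IdealBasic

/-!
P101, block B3: maximal ideals, the prime lemma, and the element that is central modulo no
maximal ideal (L0, L2).
-/

namespace Vale.Agent.P101.Full

open scoped ContinuousFunctionalCalculus

variable {G : Type*} [CStarAlgebra G]

/-- Sums of `a * s * b` with `s ∈ S`. -/
def genSet (S : Set G) : Set G :=
  {x | ∃ (n : ℕ) (a s b : Fin n → G), (∀ l, s l ∈ S) ∧ x = ∑ l, a l * s l * b l}

/-- The two-sided ideal generated by a set. -/
def genIdeal (S : Set G) : TwoSidedIdeal G :=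
  .mk' (genSet S) ⟨0, ![], ![], ![], fun l => l.elim0, by simp⟩
    (by
      rintro _ _ ⟨n, a, s, b, hs, rfl⟩ ⟨n', a', s', b', hs', rfl⟩
      refine ⟨n + n', Fin.append a a', Fin.append s s', Fin.append b b', fun l => ?_, ?_⟩
      · refine Fin.addCases (fun i => ?_) (fun i => ?_) l
        · simpa using hs i
        · simpa using hs' i
      · simp [Fin.sum_univ_add])
    (by
      rintro _ ⟨n, a, s, b, hs, rfl⟩
      exact ⟨n, -a, s, b, hs, by simp [neg_mul]⟩)
    (by
      rintro x _ ⟨n, a, s, b, hs, rfl⟩
      exact ⟨n, fun l => x * a l, s, b, hs, by simp [Finset.mul_sum, mul_assoc]⟩)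
    (by
      rintro _ y ⟨n, a, s, b, hs, rfl⟩
      exact ⟨n, a, s, fun l => b l * y, hs, by simp [Finset.sum_mul, mul_assoc]⟩)

lemma mem_genIdeal {S : Set G} {x : G} : x ∈ genIdeal S ↔ x ∈ genSet S :=
  TwoSidedIdeal.mem_mk' ..

/-- Either `1` is a combination of `S`, or a maximal ideal contains `S`. -/
lemma exists_sum_eq_one (S : Set G)
    (h : ∀ J : TwoSidedIdeal G, IsCoatom J → ∃ s ∈ S, s ∉ J) :
    ∃ (n : ℕ) (a s b : Fin n → G), (∀ l, s l ∈ S) ∧ 1 = ∑ l, a l * s l * b l := by
  by_contra hne
  obtain ⟨J, hIJ, hJ⟩ := exists_coatom_of_one_notMem (genIdeal S) fun h1 => hne (mem_genIdeal.1 h1)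
  obtain ⟨s, hs, hsJ⟩ := h J hJ
  exact hsJ (hIJ (mem_genIdeal.2
    ⟨1, ![1], ![s], ![1], fun l => by fin_cases l; simpa using hs, by simp⟩))

/-- A maximal ideal is a proper closed ideal. -/
lemma proper_closed {J : TwoSidedIdeal G} (hJ : IsCoatom J) : IsProperClosedIdeal (J : Set G) :=
  ⟨J.zero_mem, J.add_mem, fun a x hx => J.mul_mem_left a x hx,
    fun a x hx => J.mul_mem_right x a hx, one_notMem_of_coatom hJ, isClosed_of_coatom hJ⟩

/-- The prime lemma: `P`, `Q` commute and generate, `a` commutes with `Q` and `b` with `P`. -/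
lemma prime_lemma {J : TwoSidedIdeal G} (hJ : IsCoatom J) {P Q : Set G}
    (hPs : ∀ p ∈ P, star p ∈ P) (hQs : ∀ q ∈ Q, star q ∈ Q) (hPQ : ∀ p ∈ P, ∀ q ∈ Q, Commute p q)
    (hgen : Dense (StarAlgebra.adjoin ℂ (P ∪ Q) : Set G)) {a b : G}
    (ha : ∀ q ∈ Q, Commute a q) (hb : ∀ p ∈ P, Commute b p) (hab : a * b ∈ J) :
    a ∈ J ∨ b ∈ J := by
  refine prime_of_commute (R := ℂ) hJ hPQ ha hb ?_ hab
  have hstar : star (P ∪ Q) ⊆ P ∪ Q := fun x hx => by
    rcases Set.mem_star.1 hx with hx | hx
    · exact Or.inl (star_star x ▸ hPs _ hx)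
    · exact Or.inr (star_star x ▸ hQs _ hx)
  have e : (StarAlgebra.adjoin ℂ (P ∪ Q) : Set G) = Algebra.adjoin ℂ (P ∪ Q) := by
    rw [← StarSubalgebra.coe_toSubalgebra, StarAlgebra.adjoin_toSubalgebra,
      Set.union_eq_left.2 hstar]
  rw [← e]
  exact hgen.closure_eq

lemma mem_of_mul_self_mem {J : Set G} (hJ : IsProperClosedIdeal J) {x : G} (hx : IsSelfAdjoint x)
    (h : x * x ∈ J) : x ∈ J := by
  refine hJ.closed.closure_subset (Metric.mem_closure_iff.2 fun ε hε => ?_)
  refine ⟨x * x * cfc (fun t : ℝ => t / (t ^ 2 + ε ^ 2)) x, hJ.mul_right _ h, ?_⟩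
  have hc : Continuous fun t : ℝ => t / (t ^ 2 + ε ^ 2) :=
    continuous_id.div (by fun_prop) fun t => (by positivity : (0 : ℝ) < t ^ 2 + ε ^ 2).ne'
  rw [dist_eq_norm]
  have e : x - x * x * cfc (fun t : ℝ => t / (t ^ 2 + ε ^ 2)) x =
      cfc (fun t : ℝ => t - t * t * (t / (t ^ 2 + ε ^ 2))) x := by
    rw [cfc_sub (R := ℝ) (fun t => t) _ x, cfc_id' ℝ x,
      cfc_mul (fun t : ℝ => t * t) _ x (by fun_prop) hc.continuousOn,
      cfc_mul (fun t : ℝ => t) (fun t => t) x, cfc_id' ℝ x]
  rw [e]
  refine lt_of_le_of_lt (norm_cfc_le (c := ε / 2) (by positivity) fun t _ => ?_) (by linarith)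
  rw [Real.norm_eq_abs]
  have h0 : (0 : ℝ) < t ^ 2 + ε ^ 2 := by positivity
  have : t - t * t * (t / (t ^ 2 + ε ^ 2)) = ε ^ 2 * t / (t ^ 2 + ε ^ 2) := by field_simp; ring
  rw [this, abs_div, abs_of_pos h0, div_le_iff₀ h0, abs_mul, abs_of_nonneg (sq_nonneg ε)]
  nlinarith [sq_nonneg (|t| - ε), sq_abs t]

lemma mem_of_star_mul_self_mem {J : Set G} (hJ : IsProperClosedIdeal J) {z : G}
    (h : star z * z ∈ J) : z ∈ J := by
  refine hJ.closed.closure_subset (Metric.mem_closure_iff.2 fun ε hε => ?_)
  set a := star z * z with ha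
  have hsa : IsSelfAdjoint a := IsSelfAdjoint.star_mul_self z
  set c : ℝ → ℝ := fun t => t / (t ^ 2 + (ε / 2) ^ 4) with hc'
  have hc : Continuous c :=
    continuous_id.div (by fun_prop) fun t => (by positivity : (0 : ℝ) < t ^ 2 + (ε / 2) ^ 4).ne'
  refine ⟨z * (a * cfc c a), hJ.mul_left _ (hJ.mul_right _ h), ?_⟩
  rw [dist_eq_norm]
  set d := cfc (fun t : ℝ => 1 - t * c t) a with hd
  have e : z - z * (a * cfc c a) = z * d := by
    rw [hd, cfc_sub (R := ℝ) (fun _ => 1) _ a, cfc_const_one ℝ a,
      cfc_mul (fun t : ℝ => t) _ a (by fun_prop) hc.continuousOn, cfc_id' ℝ a, mul_sub, mul_one]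
  have hn : ‖z * d‖ ^ 2 ≤ (ε / 2) ^ 2 := by
    rw [sq, ← CStarRing.norm_star_mul_self, star_mul, show star d * star z * (z * d) = star d * a * d
      by rw [ha]; noncomm_ring, (cfc_predicate _ a : IsSelfAdjoint d).star_eq]
    have : d * a * d = cfc (fun t : ℝ => (1 - t * c t) * t * (1 - t * c t)) a := by
      rw [cfc_mul (fun t : ℝ => (1 - t * c t) * t) _ a (by fun_prop) (by fun_prop),
        cfc_mul (fun t : ℝ => 1 - t * c t) (fun t => t) a (by fun_prop) (by fun_prop),
        cfc_id' ℝ a, hd]
    rw [this]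
    refine norm_cfc_le (by positivity) fun t _ => ?_
    set s := (ε / 2) ^ 2
    have hs : 0 < s := by positivity
    have h4 : (ε / 2) ^ 4 = s ^ 2 := by simp only [s]; ring
    have h0 : 0 < t ^ 2 + s ^ 2 := by positivity
    simp only [hc', h4]
    rw [show (1 : ℝ) - t * (t / (t ^ 2 + s ^ 2)) = s ^ 2 / (t ^ 2 + s ^ 2) by field_simp; ring,
      Real.norm_eq_abs, abs_mul, abs_mul, abs_of_pos (by positivity : 0 < s ^ 2 / (t ^ 2 + s ^ 2))]
    have h1 : s ^ 2 / (t ^ 2 + s ^ 2) ≤ 1 := (div_le_one h0).2 (by nlinarith)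
    have h2 : s ^ 2 / (t ^ 2 + s ^ 2) * |t| ≤ s := by
      rw [div_mul_eq_mul_div, div_le_iff₀ h0]
      nlinarith [sq_nonneg (|t| - s), sq_abs t]
    calc _ ≤ s * 1 := mul_le_mul h2 h1 (by positivity) hs.le
      _ = s := mul_one s
  rw [e]
  have := abs_le_of_sq_le_sq hn (by positivity)
  rw [abs_norm] at this
  linarith

/-- A square-zero element outside `J` gives `z* z` not commuting with it modulo `J`. -/
lemma comm_notMem {J : Set G} (hJ : IsProperClosedIdeal J) {z : G} (hz : z * z = 0) (h : z ∉ J) :
    star z * z * z - z * (star z * z) ∉ J := fun hm => by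
  refine h (mem_of_star_mul_self_mem hJ (mem_of_mul_self_mem hJ (IsSelfAdjoint.star_mul_self z) ?_))
  have h2 := hJ.mul_left (-star z) hm
  rw [mul_assoc (star z) z z, hz, mul_zero, zero_sub, neg_mul_neg] at h2
  simpa [mul_assoc] using h2

/-- Elementary symmetric polynomials along a list. -/
def esym {ι R : Type*} [Semiring R] (a : ι → R) : ℕ → List ι → R
  | 0, _ => 1
  | _ + 1, [] => 0
  | r + 1, j :: l => esym a (r + 1) l + a j * esym a r l

lemma esym_commute {ι : Type*} {a : ι → G} {x : G} :
    ∀ (r : ℕ) (l : List ι), (∀ j ∈ l, Commute x (a j)) → Commute x (esym a r l)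
  | 0, l, _ => by rw [esym]; exact .one_right _
  | _ + 1, [], _ => by rw [esym]; exact .zero_right _
  | r + 1, j :: l, h => by
    rw [esym]
    exact (esym_commute (r + 1) l fun i hi => h i (List.mem_cons_of_mem _ hi)).add_right
      ((h j (List.mem_cons_self ..)).mul_right
        (esym_commute r l fun i hi => h i (List.mem_cons_of_mem _ hi)))

lemma esym_selfAdjoint {ι : Type*} {a : ι → G} :
    ∀ (r : ℕ) (l : List ι), (∀ j ∈ l, IsSelfAdjoint (a j)) → l.Pairwise (fun i j => Commute (a i) (a j))
      → IsSelfAdjoint (esym a r l)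
  | 0, l, _, _ => by rw [esym]; exact IsSelfAdjoint.one _
  | _ + 1, [], _, _ => by rw [esym]; exact IsSelfAdjoint.zero _
  | r + 1, j :: l, h, hp => by
    rw [List.pairwise_cons] at hp
    rw [esym]
    have hl := fun i hi => h i (List.mem_cons_of_mem _ hi)
    exact (esym_selfAdjoint (r + 1) l hl hp.2).add
      (((h j (List.mem_cons_self ..)).commute_iff (esym_selfAdjoint r l hl hp.2)).1
        (esym_commute r l hp.1))

lemma esym_mem {ι : Type*} {a : ι → G} {J : Set G} (hJ : IsProperClosedIdeal J)
    [DecidablePred fun j => a j ∉ J] :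
    ∀ (r : ℕ) (l : List ι), l.countP (fun j => decide (a j ∉ J)) < r → esym a r l ∈ J
  | 0, l, h => by omega
  | _ + 1, [], _ => by rw [esym]; exact hJ.zero
  | r + 1, j :: l, h => by
    rw [esym]
    rw [List.countP_cons] at h
    by_cases hj : a j ∈ J
    · exact hJ.add (esym_mem hJ (r + 1) l (by omega)) (hJ.mul_right _ hj)
    · simp only [hj, not_false_eq_true, decide_true, if_true] at h
      exact hJ.add (esym_mem hJ (r + 1) l (by omega)) (hJ.mul_left _ (esym_mem hJ r l (by omega)))

/-- Commutators with the selected `w j`, in the order of the list. -/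
def comms {ι : Type*} (c : ι → Bool) (w : ι → G) : List ι → G → G
  | [], x => x
  | j :: l, x => comms c w l (if c j then x * w j - w j * x else x)

lemma comms_add {ι : Type*} (c : ι → Bool) (w : ι → G) :
    ∀ (l : List ι) (x y : G), comms c w l (x + y) = comms c w l x + comms c w l y
  | [], _, _ => rfl
  | j :: l, x, y => by
    simp only [comms]
    cases c j
    · exact comms_add c w l x y
    · simp only [if_true]
      rw [← comms_add c w l]
      congr 1
      noncomm_ring

lemma comms_mem {ι : Type*} (c : ι → Bool) (w : ι → G) {J : Set G} (hJ : IsProperClosedIdeal J) :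
    ∀ (l : List ι) {x : G}, x ∈ J → comms c w l x ∈ J
  | [], _, h => h
  | j :: l, x, h => by
    simp only [comms]
    refine comms_mem c w hJ l ?_
    split
    · rw [sub_eq_add_neg, ← neg_mul]
      exact hJ.add (hJ.mul_right _ h) (hJ.mul_left _ h)
    · exact h

lemma comms_zero {ι : Type*} (c : ι → Bool) (w : ι → G) (l : List ι) : comms c w l (0 : G) = 0 := by
  have := comms_add c w l 0 0
  rw [add_zero] at this
  exact left_eq_add.1 this

lemma comms_mul_left {ι : Type*} (c : ι → Bool) (w : ι → G) {y : G} :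
    ∀ (l : List ι) (x : G), (∀ j ∈ l, Commute y (w j)) → comms c w l (y * x) = y * comms c w l x
  | [], _, _ => rfl
  | j :: l, x, h => by
    simp only [comms]
    have hy := h j (List.mem_cons_self ..)
    rw [← comms_mul_left c w l _ fun i hi => h i (List.mem_cons_of_mem _ hi)]
    congr 1
    cases c j
    · rfl
    · simp only [if_true, mul_sub]
      rw [← mul_assoc y (w j), hy.eq, mul_assoc, mul_assoc (w j)]

lemma comms_central {ι : Type*} (c : ι → Bool) (w : ι → G) {J : Set G} (hJ : IsProperClosedIdeal J)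
    {x : G} (hx : ∀ g, x * g - g * x ∈ J) :
    ∀ (l : List ι), 0 < l.countP c → comms c w l x ∈ J
  | [], h => by simp at h
  | j :: l, h => by
    simp only [comms]
    cases hj : c j
    · simp only [List.countP_cons, hj] at h
      exact comms_central c w hJ hx l (by simpa using h)
    · exact comms_mem c w hJ l (by simpa using hx (w j))

/-- Iterated commutators of elementary symmetric polynomials. -/
lemma comms_esym {ι : Type*} (c : ι → Bool) (w : ι → G) (a : ι → G) :
    ∀ (l : List ι) (r : ℕ),
      l.Pairwise (fun i j => Commute (a i) (w j) ∧ Commute (w i) (a j) ∧ Commute (w i) (w j)) →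
      r ≤ l.countP c →
      comms c w l (esym a r l) =
        if r = l.countP c then ((l.filter c).map fun j => a j * w j - w j * a j).prod else 0
  | [], r, _, h => by
    have : r = 0 := by simpa using h
    subst this
    simp [comms, esym]
  | j :: l, r, hp, h => by
    rw [List.pairwise_cons] at hp
    have hwE : ∀ r', Commute (w j) (esym a r' l) := fun r' =>
      esym_commute r' l fun i hi => (hp.1 i hi).2.1
    cases hj : c j
    · simp only [List.countP_cons, hj, List.filter_cons, comms, Bool.false_eq_true, if_false,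
        add_zero] at h ⊢
      rcases r with _ | r
      · have := comms_esym c w a l 0 hp.2 h
        rw [esym] at this ⊢
        exact this
      · rw [esym, comms_add, comms_mul_left c w l _ fun i hi => (hp.1 i hi).1,
          comms_esym c w a l (r + 1) hp.2 h, comms_esym c w a l r hp.2 (by omega),
          if_neg (show r ≠ l.countP c by omega), mul_zero, add_zero]
    · simp only [List.countP_cons, hj, List.filter_cons, comms, if_true, List.map_cons,
        List.prod_cons] at h ⊢
      rcases r with _ | r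
      · rw [esym, one_mul, mul_one, sub_self, comms_zero, if_neg (by omega)]
      · have hy : ∀ i ∈ l, Commute (a j * w j - w j * a j) (w i) := fun i hi =>
          (((hp.1 i hi).1.mul_left (hp.1 i hi).2.2).sub_left
            ((hp.1 i hi).2.2.mul_left (hp.1 i hi).1))
        have he : esym a (r + 1) (j :: l) * w j - w j * esym a (r + 1) (j :: l) =
            (a j * w j - w j * a j) * esym a r l := by
          rw [esym, add_mul, mul_add, (hwE (r + 1)).eq, mul_assoc (a j), ← (hwE r).eq]
          noncomm_ring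
        rw [he, comms_mul_left c w l _ hy, comms_esym c w a l r hp.2 (by omega)]
        by_cases hr : r = l.countP c
        · rw [if_pos hr, if_pos (by omega)]
        · rw [if_neg hr, if_neg (by omega), mul_zero]

/-- L2: the symmetrised combination is central modulo no maximal ideal. -/
lemma exists_comm_notMem {k N m : ℕ} (W : Fin m → Witness G k N)
    (hcomm : ∀ i j, i ≠ j → ∀ a ∈ (W i).entries, ∀ b ∈ (W j).entries,
      Commute a b ∧ Commute a (star b))
    (hgen : Dense (StarAlgebra.adjoin ℂ
      ((⋃ j, (W j).entries) ∪ star (⋃ j, (W j).entries)) : Set G))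
    (hm : k * k < m) {J : TwoSidedIdeal G} (hJ : IsCoatom J) :
    ∃ g, (∑ v : Fin k, esym (fun j => star ((W j).z v) * (W j).z v) (v + 1) (List.finRange m)) * g -
      g * (∑ v : Fin k, esym (fun j => star ((W j).z v) * (W j).z v) (v + 1) (List.finRange m))
        ∉ J := by
  classical
  have hI := proper_closed hJ
  by_contra hne
  simp only [not_exists, not_not] at hne
  -- the entries, closed under `star`
  let Ent : Fin m → Set G := fun j => (W j).entries ∪ star (W j).entries
  have hEnt : ∀ i j, i ≠ j → ∀ a ∈ Ent i, ∀ b ∈ Ent j, Commute a b := by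
    intro i j hij a ha b hb
    rcases ha with ha | ha <;> rcases hb with hb | hb
    · exact (hcomm i j hij a ha b hb).1
    · simpa using (hcomm i j hij a ha _ hb).2
    · simpa using commute_star_comm.2 (hcomm i j hij _ ha b hb).2
    · simpa using ((hcomm i j hij _ ha _ hb).1).star_star
  have hz : ∀ j v, (W j).z v ∈ Ent j := fun j v => Or.inl (Or.inl (Or.inl ⟨v, rfl⟩))
  have hzs : ∀ j v, star ((W j).z v) ∈ Ent j := fun j v =>
    Or.inr (by rw [Set.mem_star, star_star]; exact Or.inl (Or.inl ⟨v, rfl⟩))
  let e : Fin k → Fin m → G := fun v j => star ((W j).z v) * (W j).z v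
  -- some `z` of each copy is outside `J`
  have hout : ∀ j, ∃ v, e v j ∉ J := by
    intro j
    by_contra hall
    simp only [not_exists, not_not] at hall
    refine one_notMem_of_coatom hJ ((W j).gen ▸ J.finsetSum_mem _ _ fun l _ => ?_)
    exact J.mul_mem_right _ _ (J.mul_mem_left _ _
      (mem_of_star_mul_self_mem hI (hall ((W j).idx l))))
  let cnt : Fin k → ℕ := fun v => (List.finRange m).countP fun j => decide (e v j ∉ (J : Set G))
  have hbig : (Finset.univ.filter fun v : Fin k => (v : ℕ) < cnt v).Nonempty := by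
    by_contra hemp
    rw [Finset.not_nonempty_iff_eq_empty, Finset.filter_eq_empty_iff] at hemp
    choose f hf using hout
    have h1 : ∀ v, (Finset.univ.filter fun j => f j = v).card ≤ (v : ℕ) := fun v => by
      refine le_trans ?_ (not_lt.1 (hemp (Finset.mem_univ v)))
      rw [show cnt v = (Finset.univ.filter fun j => e v j ∉ (J : Set G)).card by
        simp [cnt, List.countP_eq_length_filter, Finset.card_def, Fin.univ_def]]
      exact Finset.card_le_card fun j hj => by
        simp only [Finset.mem_filter, Finset.mem_univ, true_and, SetLike.mem_coe] at hj ⊢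
        exact hj ▸ hf j
    have h2 := Finset.card_eq_sum_card_fiberwise (s := (Finset.univ : Finset (Fin m)))
      (t := Finset.univ) (f := f) fun x _ => Finset.mem_univ _
    simp only [Finset.card_univ, Fintype.card_fin] at h2
    have h3 : m ≤ ∑ _v : Fin k, k := h2 ▸ Finset.sum_le_sum fun v _ => (h1 v).trans v.isLt.le
    simp at h3
    omega
  set v := (Finset.univ.filter fun v : Fin k => (v : ℕ) < cnt v).max' hbig with hv
  have hvcnt : (v : ℕ) < cnt v := (Finset.mem_filter.1 (Finset.max'_mem _ hbig)).2
  -- choose exactly `v + 1` copies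
  let good : Finset (Fin m) := Finset.univ.filter fun j => e v j ∉ (J : Set G)
  have hgood : (v : ℕ) + 1 ≤ good.card := by
    have : cnt v = good.card := by
      simp [cnt, good, List.countP_eq_length_filter, Finset.card_def, Fin.univ_def]
    omega
  obtain ⟨S, hS, hScard⟩ := Finset.exists_subset_card_eq hgood
  let c : Fin m → Bool := fun j => decide (j ∈ S)
  let w : Fin m → G := fun j => (W j).z v
  have hcnt : (List.finRange m).countP c = (v : ℕ) + 1 := by
    rw [← hScard]
    have : S = Finset.univ.filter fun j => j ∈ S := by simp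
    conv_rhs => rw [this]
    simp [c, List.countP_eq_length_filter, Finset.card_def, Fin.univ_def]
  have hpair : ∀ u : Fin k, (List.finRange m).Pairwise fun i j =>
      Commute (e u i) (w j) ∧ Commute (w i) (e u j) ∧ Commute (w i) (w j) :=
    fun u => (List.nodup_finRange m).imp fun {i j} hij =>
      ⟨(hEnt i j hij _ (hzs i u) _ (hz j v)).mul_left (hEnt i j hij _ (hz i u) _ (hz j v)),
        (hEnt i j hij _ (hz i v) _ (hzs j u)).mul_right (hEnt i j hij _ (hz i v) _ (hz j u)),
        hEnt i j hij _ (hz i v) _ (hz j v)⟩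
  -- the product of the chosen commutators is in `J`
  set Pr := (((List.finRange m).filter c).map fun j => e v j * w j - w j * e v j).prod with hPr
  have hterm : ∀ u : Fin k, u ≠ v →
      comms c w (List.finRange m) (esym (e u) (u + 1) (List.finRange m)) ∈ J := by
    intro u hu
    rcases lt_or_gt_of_ne hu with hlt | hgt
    · rw [comms_esym c w (e u) _ _ (hpair u) (by rw [hcnt]; simpa using hlt.le), if_neg
        (by rw [hcnt]; simpa [Fin.ext_iff] using hu)]
      exact J.zero_mem
    · refine comms_mem c w hI _ (esym_mem hI _ _ ?_)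
      have : ¬ (u : ℕ) < cnt u := fun h => absurd
        (Finset.le_max' _ u (Finset.mem_filter.2 ⟨Finset.mem_univ _, h⟩)) (not_le.2 hgt)
      simp only [cnt] at this
      omega
  have hU := comms_central c w hI (hne ·) (List.finRange m) (by omega)
  have hsum : ∀ s : Finset (Fin k), comms c w (List.finRange m)
      (∑ u ∈ s, esym (e u) (u + 1) (List.finRange m)) =
      ∑ u ∈ s, comms c w (List.finRange m) (esym (e u) (u + 1) (List.finRange m)) := fun s => by
    induction s using Finset.induction_on with
    | empty => simp [comms_zero]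
    | insert u s hu ih => rw [Finset.sum_insert hu, Finset.sum_insert hu, comms_add, ih]
  change comms c w (List.finRange m) (∑ u, esym (e u) (u + 1) (List.finRange m)) ∈ J at hU
  rw [hsum, ← Finset.add_sum_erase _ _ (Finset.mem_univ v),
    comms_esym c w (e v) _ _ (hpair v) hcnt.ge, if_pos hcnt.symm] at hU
  have hPJ : Pr ∈ J := by
    have h2 : ∑ u ∈ Finset.univ.erase v,
        comms c w (List.finRange m) (esym (e u) (u + 1) (List.finRange m)) ∈ J :=
      J.finsetSum_mem _ _ fun u hu => hterm u (Finset.ne_of_mem_erase hu)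
    simpa using J.sub_mem hU h2
  -- but it is not
  suffices hnot : ∀ l : List (Fin m), l.Nodup → (∀ j ∈ l, j ∈ S) →
      (l.map fun j => e v j * w j - w j * e v j).prod ∉ J by
    exact hnot _ ((List.nodup_finRange m).filter _)
      (fun j hj => by simpa [c] using (List.mem_filter.1 hj).2) hPJ
  intro l
  induction l with
  | nil => intro _ _; simpa using one_notMem_of_coatom hJ
  | cons j l ih =>
    intro hnd hmem hJm
    rw [List.nodup_cons] at hnd
    rw [List.map_cons, List.prod_cons] at hJm
    refine (prime_lemma hJ (P := Ent j) (Q := ⋃ i ∈ {i | i ≠ j}, Ent i)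
      (fun p hp => by
        rcases hp with hp | hp
        · exact Or.inr (by simpa using hp)
        · exact Or.inl (Set.mem_star.1 hp))
      (fun q hq => by
        obtain ⟨i, hi, hq⟩ := Set.mem_iUnion₂.1 hq
        refine Set.mem_biUnion hi ?_
        rcases hq with hq | hq
        · exact Or.inr (by simpa using hq)
        · exact Or.inl (Set.mem_star.1 hq))
      (fun p hp q hq => by
        obtain ⟨i, hi, hq⟩ := Set.mem_iUnion₂.1 hq
        exact hEnt j i (Ne.symm hi) p hp q hq)
      (hgen.mono (StarAlgebra.adjoin_mono fun x hx => by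
        have key : ∀ i y, y ∈ Ent i → y ∈ Ent j ∪ ⋃ i ∈ {i | i ≠ j}, Ent i := fun i y hy => by
          by_cases hij : i = j
          · exact Or.inl (hij ▸ hy)
          · exact Or.inr (Set.mem_biUnion hij hy)
        rcases hx with hx | hx
        · obtain ⟨i, hx⟩ := Set.mem_iUnion.1 hx
          exact key i x (Or.inl hx)
        · obtain ⟨i, hx'⟩ := Set.mem_iUnion.1 (Set.mem_star.1 hx)
          exact key i x (Or.inr (Set.mem_star.2 hx'))))
      (a := e v j * w j - w j * e v j) ?_ ?_ hJm).elim (fun h => ?_) (fun h => ?_)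
    rotate_left 2
    · refine comm_notMem hI ((W j).sq v) (fun hzJ => ?_) h
      exact (Finset.mem_filter.1 (hS (hmem j (List.mem_cons_self ..)))).2 (hI.mul_left _ hzJ)
    · exact ih hnd.2 (fun i hi => hmem i (List.mem_cons_of_mem _ hi)) h
    · intro q hq
      obtain ⟨i, hi, hq⟩ := Set.mem_iUnion₂.1 hq
      have h1 := hEnt j i (Ne.symm hi) _ (hz j v) q hq
      have h2 := hEnt j i (Ne.symm hi) _ (hzs j v) q hq
      exact ((h2.mul_left h1).mul_left h1).sub_left (h1.mul_left (h2.mul_left h1))
    · intro p hp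
      refine Commute.list_prod_left _ _ fun x hx => ?_
      obtain ⟨i, hi, rfl⟩ := List.mem_map.1 hx
      have hij : i ≠ j := fun h => hnd.1 (h ▸ hi)
      have h1 := hEnt i j hij _ (hz i v) p hp
      have h2 := hEnt i j hij _ (hzs i v) p hp
      exact ((h2.mul_left h1).mul_left h1).sub_left (h1.mul_left (h2.mul_left h1))

end Vale.Agent.P101.Full
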