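import Vale.Agent.P101.Defs

/-!
P101, block B3: the spectrum of a self-adjoint element modulo a closed proper ideal.
A commutator identity forces width, and points for mutually prime elements add up.
-/

namespace Vale.Agent.P101.Full

open scoped ContinuousFunctionalCalculus

variable {G : Type*} [CStarAlgebra G]

/-- A proper closed two-sided ideal, as a set of elements. -/
structure IsProperClosedIdeal (J : Set G) : Prop where
  zero : (0 : G) ∈ J
  add : ∀ {x y}, x ∈ J → y ∈ J → x + y ∈ J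
  mul_left : ∀ (a) {x}, x ∈ J → a * x ∈ J
  mul_right : ∀ (a) {x}, x ∈ J → x * a ∈ J
  one : (1 : G) ∉ J
  closed : IsClosed J

/-- The spectrum of `T` modulo `J`. -/
def specMod (J : Set G) (T : G) : Set ℝ :=
  {c | ∀ f : ℝ → ℝ, Continuous f → f c ≠ 0 → cfc f T ∉ J}

variable {J : Set G} (hJ : IsProperClosedIdeal J)
include hJ

lemma notMem_of_isUnit {u : G} (hu : IsUnit u) : u ∉ J := fun h => by
  obtain ⟨v, hv⟩ := hu.exists_left_inv
  exact hJ.one (hv ▸ hJ.mul_left v h)

lemma specMod_subset {T : G} {c : ℝ} (hc : c ∈ specMod J T) :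
    c ∈ spectrum ℝ T := by
  by_contra h
  obtain ⟨δ, hδ, hball⟩ := Metric.isOpen_iff.1 (spectrum.isClosed (𝕜 := ℝ) T).isOpen_compl c h
  refine hc (fun x => max 0 (δ - |x - c|)) (by fun_prop) (by simp [hδ.le, hδ.ne']) ?_
  rw [cfc_congr (g := fun _ : ℝ => 0) fun x hx => ?_, cfc_const_zero]
  · exact hJ.zero
  · have : δ ≤ |x - c| := by
      by_contra hlt
      exact hball (by simpa [Real.dist_eq] using not_le.1 hlt) hx
    simp [this]

lemma abs_le_of_mem_specMod {T : G} {c : ℝ} (hc : c ∈ specMod J T) :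
    |c| ≤ ‖T‖ := by
  have : Nontrivial G := ⟨⟨0, 1, fun h => hJ.one (h ▸ hJ.zero)⟩⟩
  have h := specMod_subset hJ hc
  simpa [Real.norm_eq_abs] using spectrum.norm_le_norm_of_mem h

lemma finset_sum_mem {ι : Type*} (s : Finset ι) {x : ι → G} (h : ∀ i ∈ s, x i ∈ J) :
    ∑ i ∈ s, x i ∈ J := by
  classical
  induction s using Finset.induction_on with
  | empty => simpa using hJ.zero
  | insert i s hi ih =>
    rw [Finset.sum_insert hi]
    exact hJ.add (h i (Finset.mem_insert_self i s)) (ih fun j hj => h j (Finset.mem_insert_of_mem hj))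

/-- A function vanishing on a neighbourhood of `specMod J T` sends `T` into `J`. -/
lemma cfc_mem_of_vanish {T : G} {f : ℝ → ℝ} (hf : Continuous f)
    {η : ℝ} (hη : 0 < η) (h0 : ∀ c ∈ specMod J T, ∀ x, |x - c| < η → f x = 0) : cfc f T ∈ J := by
  have hK : ∀ c : ℝ, ∃ g : ℝ → ℝ, Continuous g ∧
      (c ∉ specMod J T → g c ≠ 0 ∧ cfc g T ∈ J) ∧ (c ∈ specMod J T → g = 0) := by
    intro c
    by_cases hc : c ∈ specMod J T
    · exact ⟨0, continuous_const, fun h => absurd hc h, fun _ => rfl⟩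
    · have : ∃ g : ℝ → ℝ, Continuous g ∧ g c ≠ 0 ∧ cfc g T ∈ J := by
        by_contra hne
        exact hc fun g hg hgc hgJ => hne ⟨g, hg, hgc, hgJ⟩
      obtain ⟨g, hg, h1, h2⟩ := this
      exact ⟨g, hg, fun _ => ⟨h1, h2⟩, fun h => absurd h hc⟩
  choose g hg hgout hgin using hK
  let K : Set ℝ := spectrum ℝ T ∩ (⋃ c ∈ specMod J T, Metric.ball c η)ᶜ
  have hKc : IsCompact K :=
    (spectrum.isCompact (𝕜 := ℝ) T).inter_right (isOpen_biUnion fun c _ => Metric.isOpen_ball).isClosed_compl
  have hKout : ∀ x ∈ K, x ∉ specMod J T := fun x hx hmem =>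
    hx.2 (Set.mem_biUnion hmem (Metric.mem_ball_self hη))
  obtain ⟨s, hs⟩ := hKc.elim_finite_subcover (fun c => {x | g c x ≠ 0})
    (fun c => isOpen_ne_fun (hg c) continuous_const)
    (fun x hx => Set.mem_iUnion.2 ⟨x, (hgout x (hKout x hx)).1⟩)
  classical
  let s' := s.filter fun c => c ∉ specMod J T
  let Q : ℝ → ℝ := fun x => ∑ c ∈ s', g c x ^ 2
  have hQ : Continuous Q := continuous_finsetSum _ fun c _ => (hg c).pow 2
  have hQpos : ∀ x ∈ K, 0 < Q x := fun x hx => by
    obtain ⟨c, hc, hne⟩ := Set.mem_iUnion₂.1 (hs hx)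
    have hc' : c ∉ specMod J T := fun h => hne (by simp [hgin c h])
    exact Finset.sum_pos' (fun i _ => sq_nonneg _)
      ⟨c, Finset.mem_filter.2 ⟨hc, hc'⟩, lt_of_le_of_ne (sq_nonneg _) (Ne.symm (pow_ne_zero 2 hne))⟩
  obtain ⟨δ, hδ, hδK⟩ : ∃ δ > 0, ∀ x ∈ K, δ ≤ Q x := by
    rcases K.eq_empty_or_nonempty with hK | hK
    · exact ⟨1, one_pos, by simp [hK]⟩
    · obtain ⟨x, hx, hmin⟩ := hKc.exists_isMinOn hK hQ.continuousOn
      exact ⟨Q x, hQpos x hx, fun y hy => hmin hy⟩
  have hq : Continuous fun x => f x / max (Q x) δ :=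
    hf.div (hQ.max continuous_const) fun x => (lt_max_of_lt_right hδ).ne'
  have heq : cfc f T = cfc (fun x => f x / max (Q x) δ) T * cfc Q T := by
    rw [← cfc_mul _ _ T hq.continuousOn hQ.continuousOn]
    refine cfc_congr fun x hx => ?_
    by_cases hxK : x ∈ K
    · rw [max_eq_left (hδK x hxK), div_mul_cancel₀ _ (hQpos x hxK).ne']
    · obtain ⟨c, hc, hxc⟩ : ∃ c ∈ specMod J T, x ∈ Metric.ball c η := by
        by_contra hne
        exact hxK ⟨hx, fun h => hne (by simpa using h)⟩
      simp [h0 c hc x (by simpa [Real.dist_eq] using hxc)]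
  rw [heq]
  refine hJ.mul_left _ ?_
  rw [show cfc Q T = ∑ c ∈ s', cfc (fun x => g c x ^ 2) T from
    (by rw [← cfc_sum (fun c x => g c x ^ 2) T s' (fun c _ => ((hg c).pow 2).continuousOn)]; congr 1; funext x; simp [Q])]
  refine finset_sum_mem hJ _ fun c hc => ?_
  rw [show (fun x => g c x ^ 2) = fun x => g c x * g c x by funext x; ring,
    cfc_mul _ _ T (hg c).continuousOn (hg c).continuousOn]
  exact hJ.mul_left _ (hgout c (Finset.mem_filter.1 hc).2).2

/-- Distance of `1` to a proper ideal. -/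
lemma one_le_norm {y : G} (h : (1 : G) - y ∈ J) : 1 ≤ ‖y‖ := by
  by_contra hy
  exact notMem_of_isUnit hJ (isUnit_one_sub_of_norm_lt_one (not_le.1 hy)) h

/-- A commutator witness forces width: `specMod J U` lies in no short interval. -/
lemma exists_specMod_far {U : G} (hU : IsSelfAdjoint U) {n : ℕ} (a g b : Fin n → G)
    (h1 : (1 : G) - ∑ l, a l * (U * g l - g l * U) * b l ∈ J) {w : ℝ} (hw : 0 ≤ w)
    (hsmall : 2 * w * ∑ l, ‖a l‖ * ‖g l‖ * ‖b l‖ < 1) (m : ℝ) :
    ∃ c ∈ specMod J U, w ≤ |c - m| := by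
  by_contra hne
  simp only [not_exists, not_and, not_le] at hne
  set S := ∑ l, ‖a l‖ * ‖g l‖ * ‖b l‖ with hS
  have hS0 : 0 ≤ S := Finset.sum_nonneg fun l _ => by positivity
  obtain ⟨η, hη, hη2⟩ : ∃ η > 0, 2 * (w + η) * S < 1 := by
    refine ⟨(1 - 2 * w * S) / (4 * (S + 1)), div_pos (by linarith) (by linarith), ?_⟩
    have : (1 - 2 * w * S) / (4 * (S + 1)) * (4 * (S + 1)) = 1 - 2 * w * S :=
      div_mul_cancel₀ _ (by linarith)
    nlinarith
  let h : ℝ → ℝ := fun x => max (-(w + η)) (min (w + η) (x - m))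
  have hh : Continuous h := by fun_prop
  have hmem : cfc (fun x => x - m - h x) U ∈ J := by
    refine cfc_mem_of_vanish hJ (by fun_prop) hη fun c hc x hx => ?_
    have := hne c hc
    rw [abs_lt] at this hx
    simp only [h, min_eq_right (show x - m ≤ w + η by linarith),
      max_eq_right (show -(w + η) ≤ x - m by linarith), sub_self]
  set H := cfc h U with hH
  have hH' : ‖H‖ ≤ w + η := norm_cfc_le (by linarith) fun x _ => by
    rw [Real.norm_eq_abs, abs_le]
    exact ⟨le_max_left _ _, max_le (by linarith) (min_le_left _ _)⟩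
  have hsplit : U = cfc (fun x => x - m - h x) U + H + algebraMap ℝ G m := by
    rw [hH, ← cfc_add U _ _ (by fun_prop) hh.continuousOn]
    rw [show (fun x => x - m - h x + h x) = fun x => x - m from funext fun x => by ring,
      cfc_sub (R := ℝ) (fun x => x) (fun _ => m) U, cfc_id' ℝ U, cfc_const m U]
    abel
  have hdiff : ∀ l, a l * (U * g l - g l * U) * b l - a l * (H * g l - g l * H) * b l ∈ J := by
    intro l
    set j := cfc (fun x => x - m - h x) U with hj
    rw [show a l * (U * g l - g l * U) * b l - a l * (H * g l - g l * H) * b l =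
      (a l * (j * g l)) * b l + (a l * ((-g l) * j)) * b l from ?_]
    · exact hJ.add (hJ.mul_right _ (hJ.mul_left _ (hJ.mul_right _ hmem)))
        (hJ.mul_right _ (hJ.mul_left _ (hJ.mul_left _ hmem)))
    · rw [hsplit]
      have hc := Algebra.commutes m (g l)
      simp only [add_mul, mul_add, mul_sub, sub_mul, neg_mul, mul_neg, hc]
      abel
  have h2 : (1 : G) - ∑ l, a l * (H * g l - g l * H) * b l ∈ J := by
    have := hJ.add h1 (finset_sum_mem hJ Finset.univ fun l _ => hdiff l)
    rwa [Finset.sum_sub_distrib, sub_add_sub_cancel] at this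
  have h3 := one_le_norm hJ h2
  have h4 : ‖∑ l, a l * (H * g l - g l * H) * b l‖ ≤ 2 * (w + η) * S := by
    refine (norm_sum_le _ _).trans ?_
    rw [hS, Finset.mul_sum]
    refine Finset.sum_le_sum fun l _ => ?_
    calc ‖a l * (H * g l - g l * H) * b l‖ ≤ ‖a l‖ * ‖H * g l - g l * H‖ * ‖b l‖ :=
          (norm_mul_le _ _).trans (mul_le_mul_of_nonneg_right (norm_mul_le _ _) (norm_nonneg _))
      _ ≤ ‖a l‖ * (‖H‖ * ‖g l‖ + ‖g l‖ * ‖H‖) * ‖b l‖ := by
          gcongr
          exact (norm_sub_le _ _).trans (add_le_add (norm_mul_le _ _) (norm_mul_le _ _))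
      _ ≤ 2 * (w + η) * (‖a l‖ * ‖g l‖ * ‖b l‖) := by
          have := mul_le_mul_of_nonneg_left hH'
            (show 0 ≤ 2 * (‖a l‖ * ‖g l‖ * ‖b l‖) by positivity)
          linarith
  linarith

/-- Joint spectral points add, for `U`, `V` whose functions are prime to each other. -/
lemma add_mem_specMod {U V : G} (hU : IsSelfAdjoint U) (hV : IsSelfAdjoint V) (hUV : Commute U V)
    (hprime : ∀ f g : ℝ → ℝ, Continuous f → Continuous g → cfc f U * cfc g V ∈ J →
      cfc f U ∈ J ∨ cfc g V ∈ J)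
    {c d : ℝ} (hc : c ∈ specMod J U) (hd : d ∈ specMod J V) :
    c + d ∈ specMod J (U + V) := by
  intro v hv hne hmem
  set e := c + d with he
  set v₀ := v e with hv₀
  have hUVs : IsSelfAdjoint (U + V) := hU.add hV
  -- split `v - v₀`
  obtain ⟨δ, hδ, hvδ⟩ := Metric.continuous_iff.1 hv e (|v₀| / 2) (by positivity)
  let q : ℝ → ℝ := fun x => (v x - v₀) * (x - e) / max ((x - e) ^ 2) (δ ^ 2 / 4)
  have hq : Continuous q :=
    ((hv.sub continuous_const).mul (continuous_id.sub continuous_const)).div (by fun_prop)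
      fun x => (lt_max_of_lt_right (by positivity)).ne'
  have hqe : ∀ x, |v x - v₀ - (x - e) * q x| ≤ |v₀| / 2 := by
    intro x
    have hm : 0 < max ((x - e) ^ 2) (δ ^ 2 / 4) := lt_max_of_lt_right (by positivity)
    have hr : v x - v₀ - (x - e) * q x =
        (v x - v₀) * (1 - (x - e) ^ 2 / max ((x - e) ^ 2) (δ ^ 2 / 4)) := by
      simp only [q]
      field_simp
    rw [hr, abs_mul]
    by_cases hx : |x - e| < δ
    · have h1 : |v x - v₀| < |v₀| / 2 := by simpa [Real.dist_eq] using hvδ x (by simpa [Real.dist_eq] using hx)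
      have h2 : |1 - (x - e) ^ 2 / max ((x - e) ^ 2) (δ ^ 2 / 4)| ≤ 1 := by
        have h3 : (x - e) ^ 2 / max ((x - e) ^ 2) (δ ^ 2 / 4) ≤ 1 :=
          (div_le_one hm).2 (le_max_left _ _)
        rw [abs_le]
        constructor <;> linarith [div_nonneg (sq_nonneg (x - e)) hm.le]
      calc |v x - v₀| * _ ≤ |v₀| / 2 * 1 := mul_le_mul h1.le h2 (abs_nonneg _) (by positivity)
        _ = |v₀| / 2 := mul_one _
    · have : δ ^ 2 / 4 ≤ (x - e) ^ 2 := by
        rw [← sq_abs (x - e)]
        nlinarith [not_lt.1 hx]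
      rw [max_eq_left this, div_self (by nlinarith), sub_self, abs_zero, mul_zero]
      positivity
  set E := cfc (fun x => v x - v₀ - (x - e) * q x) (U + V) with hE
  set Q := cfc q (U + V) with hQ
  have hEn : ‖E‖ ≤ |v₀| / 2 :=
    norm_cfc_le (by positivity) fun x _ => by simpa [Real.norm_eq_abs] using hqe x
  have hsplit : cfc v (U + V) =
      algebraMap ℝ G v₀ + E + (U + V - algebraMap ℝ G e) * Q := by
    have hx : U + V - algebraMap ℝ G e = cfc (fun x => x - e) (U + V) := by
      rw [cfc_sub (R := ℝ) (fun x => x) (fun _ => e) (U + V), cfc_id' ℝ (U + V), cfc_const e (U + V)]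
    rw [hx, hE, hQ, ← cfc_mul _ _ (U + V) (by fun_prop) hq.continuousOn,
      ← cfc_const v₀ (U + V), ← cfc_add (U + V) _ _ (by fun_prop) (by fun_prop),
      ← cfc_add (U + V) _ _ (by fun_prop) (by fun_prop)]
    congr 1
    funext x
    ring
  -- localise
  set σ := |v₀| / (8 * (‖Q‖ + 1)) with hσ
  have hv0 : 0 < |v₀| := abs_pos.2 hne
  have hσ0 : 0 < σ := by positivity
  let bump : ℝ → ℝ → ℝ := fun z x => max 0 (σ - |x - z|)
  let plat : ℝ → ℝ → ℝ := fun z x => max 0 (min 1 ((2 * σ - |x - z|) / σ))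
  have hbp : ∀ z x, bump z x * plat z x = bump z x := by
    intro z x
    simp only [bump, plat]
    by_cases h : |x - z| < σ
    · rw [min_eq_left ((one_le_div hσ0).2 (by linarith)), max_eq_right zero_le_one, mul_one]
    · rw [max_eq_left (by linarith), zero_mul]
  have hplat : ∀ z x, |(x - z) * plat z x| ≤ 2 * σ := by
    intro z x
    simp only [plat]
    rw [abs_mul, abs_of_nonneg (show (0 : ℝ) ≤ max 0 (min 1 ((2 * σ - |x - z|) / σ)) from le_max_left _ _)]
    by_cases h : |x - z| ≤ 2 * σ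
    · exact (mul_le_of_le_one_right (abs_nonneg _) (max_le zero_le_one (min_le_left _ _))).trans h
    · have : (2 * σ - |x - z|) / σ ≤ 0 := div_nonpos_of_nonpos_of_nonneg (by linarith) hσ0.le
      rw [max_eq_left ((min_le_right _ _).trans this), mul_zero]
      positivity
  have hplat1 : ∀ z x, |plat z x| ≤ 1 := fun z x => by
    simp only [plat]
    rw [abs_of_nonneg (le_max_left 0 _)]
    exact max_le zero_le_one (min_le_left _ _)
  set P := cfc (bump c) U * cfc (bump d) V with hP
  set P' := cfc (plat c) U * cfc (plat d) V with hP'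
  have hcomm : ∀ f g : ℝ → ℝ, Commute (cfc f U) (cfc g V) := fun f g =>
    ((hUV.cfc_real f).symm.cfc_real g).symm
  have hPP : P * P' = P := by
    rw [hP, hP', mul_assoc, ← mul_assoc (cfc (bump d) V), ← (hcomm (plat c) (bump d)).eq,
      mul_assoc (cfc (plat c) U), ← mul_assoc (cfc (bump c) U),
      ← cfc_mul _ _ U (by fun_prop) (by fun_prop), ← cfc_mul _ _ V (by fun_prop) (by fun_prop)]
    simp only [hbp]
  have hnear : ‖P' * (U + V - algebraMap ℝ G e)‖ ≤ 4 * σ := by
    have e1 : P' * (U + V - algebraMap ℝ G e) =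
        cfc (fun x => (x - c) * plat c x) U * cfc (plat d) V +
          cfc (plat c) U * cfc (fun x => (x - d) * plat d x) V := by
      have hu : cfc (fun x => (x - c) * plat c x) U = cfc (plat c) U * (U - algebraMap ℝ G c) := by
        rw [show (fun x => (x - c) * plat c x) = fun x => plat c x * (x - c) from
            funext fun x => mul_comm _ _, cfc_mul (plat c) _ U (by fun_prop) (by fun_prop),
          cfc_sub (R := ℝ) (fun x => x) (fun _ => c) U, cfc_id' ℝ U, cfc_const c U]
      have hv' : cfc (fun x => (x - d) * plat d x) V = cfc (plat d) V * (V - algebraMap ℝ G d) := by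
        rw [show (fun x => (x - d) * plat d x) = fun x => plat d x * (x - d) from
            funext fun x => mul_comm _ _, cfc_mul (plat d) _ V (by fun_prop) (by fun_prop),
          cfc_sub (R := ℝ) (fun x => x) (fun _ => d) V, cfc_id' ℝ V, cfc_const d V]
      have hc1 : cfc (plat d) V * (U - algebraMap ℝ G c) = (U - algebraMap ℝ G c) * cfc (plat d) V := by
        have : Commute (cfc (plat d) V) U := (hUV.symm.cfc_real (plat d))
        rw [mul_sub, sub_mul, this.eq, Algebra.commutes]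
      rw [hu, hv', hP', he, map_add, mul_assoc, mul_assoc (cfc (plat c) U) (U - _), ← hc1,
        ← mul_add, ← mul_add]
      congr 2
      abel
    rw [e1]
    refine (norm_add_le _ _).trans ?_
    have n1 : ∀ z (W : G), ‖cfc (fun x => (x - z) * plat z x) W‖ ≤ 2 * σ := fun z W =>
      norm_cfc_le (by positivity) fun x _ => by simpa [Real.norm_eq_abs] using hplat z x
    have n2 : ∀ z (W : G), ‖cfc (plat z) W‖ ≤ 1 := fun z W =>
      norm_cfc_le zero_le_one fun x _ => by simpa [Real.norm_eq_abs] using hplat1 z x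
    have := (norm_mul_le (cfc (fun x => (x - c) * plat c x) U) (cfc (plat d) V)).trans
      (mul_le_mul (n1 c U) (n2 d V) (norm_nonneg _) (by positivity))
    have := (norm_mul_le (cfc (plat c) U) (cfc (fun x => (x - d) * plat d x) V)).trans
      (mul_le_mul (n2 c U) (n1 d V) (norm_nonneg _) zero_le_one)
    linarith
  set X := P' * E + P' * (U + V - algebraMap ℝ G e) * Q with hX
  have hP'1 : ‖P'‖ ≤ 1 := (norm_mul_le _ _).trans (mul_le_one₀
    (norm_cfc_le zero_le_one fun x _ => by simpa [Real.norm_eq_abs] using hplat1 c x)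
    (norm_nonneg _) (norm_cfc_le zero_le_one fun x _ => by simpa [Real.norm_eq_abs] using hplat1 d x))
  have hXn : ‖X‖ < |v₀| := by
    have h1 : ‖P' * E‖ ≤ |v₀| / 2 := (norm_mul_le _ _).trans
      (by nlinarith [norm_nonneg E, norm_nonneg P', abs_nonneg v₀])
    have h2 : ‖P' * (U + V - algebraMap ℝ G e) * Q‖ ≤ 4 * σ * ‖Q‖ :=
      (norm_mul_le _ _).trans (mul_le_mul_of_nonneg_right hnear (norm_nonneg _))
    have h3 : 4 * σ * ‖Q‖ < |v₀| / 2 := by
      have : σ * (8 * (‖Q‖ + 1)) = |v₀| := div_mul_cancel₀ _ (by positivity)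
      nlinarith [norm_nonneg Q]
    exact (norm_add_le _ _).trans_lt (by linarith)
  have hprod : P * cfc v (U + V) = v₀ • (P * (1 + v₀⁻¹ • X)) := by
    rw [hsplit, mul_add, mul_add, Algebra.algebraMap_eq_smul_one]
    rw [mul_add, smul_add, mul_one, mul_smul_comm, mul_one, mul_smul_comm, smul_smul,
      mul_inv_cancel₀ hne, one_smul, hX, mul_add, ← mul_assoc P P', hPP,
      mul_assoc P' _ Q, ← mul_assoc P P', hPP, add_assoc]
  obtain ⟨u, hu⟩ : IsUnit (1 + v₀⁻¹ • X) := by
    rw [← sub_neg_eq_add]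
    refine isUnit_one_sub_of_norm_lt_one ?_
    rw [norm_neg, norm_smul, norm_inv, Real.norm_eq_abs, inv_mul_lt_one₀ hv0]
    exact hXn
  have hPJ : P ∈ J := by
    have h1 := hJ.mul_right (↑u⁻¹) (hJ.mul_left (algebraMap ℝ G v₀⁻¹) (hJ.mul_left P hmem))
    rwa [hprod, ← Algebra.smul_def, smul_smul, inv_mul_cancel₀ hne, one_smul, ← hu,
      Units.mul_inv_cancel_right] at h1
  rcases hprime _ _ (by fun_prop) (by fun_prop) hPJ with h | h
  · exact hc (bump c) (by fun_prop) (by simp [bump, hσ0.le, hσ0.ne']) h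
  · exact hd (bump d) (by fun_prop) (by simp [bump, hσ0.le, hσ0.ne']) h

end Vale.Agent.P101.Full
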