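import Vale.Agent.P101.Defs
import Vale.Agent.P101.ZTwoThree

/-!
P101: unital star homomorphisms from Z(2,3) into the central sequence algebra, written on
representatives.
-/

namespace Vale.Agent.P101

open Filter
open scoped Topology BoundedContinuousFunction

/-- `φ` induces a unital *-homomorphism from `Z(2,3)` into the quotient of the central sequences by
the null ones. -/
structure IsHomModNull {A : Type*} [CStarAlgebra A] (w : Filter ℕ)
    (φ : ZTwoThree → centralSeq w A) : Prop where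
  one : ∀ f : ZTwoThree, (∀ t, f.1 t = 1) → Tendsto (fun n => (φ f).1 n) w (𝓝 1)
  add : ∀ f g h : ZTwoThree, (∀ t, h.1 t = f.1 t + g.1 t) →
    Tendsto (fun n => (φ h).1 n - ((φ f).1 n + (φ g).1 n)) w (𝓝 0)
  mul : ∀ f g h : ZTwoThree, (∀ t, h.1 t = f.1 t * g.1 t) →
    Tendsto (fun n => (φ h).1 n - (φ f).1 n * (φ g).1 n) w (𝓝 0)
  smul : ∀ (c : ℂ) (f h : ZTwoThree), (∀ t, h.1 t = c • f.1 t) →
    Tendsto (fun n => (φ h).1 n - c • (φ f).1 n) w (𝓝 0)
  star_map : ∀ f h : ZTwoThree, (∀ t, h.1 t = star (f.1 t)) →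
    Tendsto (fun n => (φ h).1 n - star ((φ f).1 n)) w (𝓝 0)

end Vale.Agent.P101
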